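import Claimed.Agent.R257.Infra.Alg
import Claimed.Agent.R257.Frame.Stmt

/-!
# R257 / Sp / Defs : SPARSE ESTIMATE (H sparse.tex, Proposition s:sparse).  DEFINITIONS AND CONTRACTS        (captain helper7)

EXITS of the package: `SpSparse n` (consumers: weak.tex (w:eq-largeD), flattening.tex w:flatten), `SpPowerLoss n` (= d:power-loss; consumer weak.tex l.130).
INPUTS of the package (hypotheses, proved by other packages):
`TrStmt n` (t:transverse, TR), `MrSupStmt n` (t:multilinear, cube-supremum form, MR), `SdStmt n` (d:strip-decoupling, j = n-1, critical exponent, FRAC/BD),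
`LayStmt n` (d:layers, INFRA/FRAC), `LcStmt n` (locally constant property of exact fields, INFRA U10).

## REDESIGN (replaces grids of `K²`-cubes, shifted cubes `Q + K² a`, translated measures, truncations of shifts, negligible tails, d:dz-input)
* CONTINUOUS WEIGHTED FUNCTIONAL.  `spW E ρ u = (1+|u|/ρ)^(-E)`,  `spMass ω ν z = ∫ ω(y-z) dν(y)`,  `spLoc P ω V z = ∫ |V y|^P ω(y-z) dy`,
  `spT b ω V ν = ∫ (spMass ω ν z)^b (spLoc P ω V z)^(1-b) dz`, `P = 2/(1-b)`.   `K^(-2(n+1)) spT β (spW E K²)` replaces `𝒯_β(V,ν) = ∑_Q ν(Q)^β ‖V‖²_{L^P(Q)}`.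
  The SAME weight sits on the mass and on the field, and on both sides of the local decoupling inequality (`SdStmt`), so the narrow step is a POINTWISE inequality in the centre `z`;
  measures are never translated: the child measure is the direct push-forward; `Grow`, `Slab`, `TubeMom` are transported exactly.  `K ≥ 1` is any real number (no dyadic rounding).
* The weight exponent drops by `n + 2` at every rescaling (`E → E - (n+2)`): finite ladder, the depth is bounded.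
* EXACT ARRAYS `XArr`: labels `(om, y)`, scale `l`, common frequency shift `sh`, inputs `g α`; class `XArr.In`: supports, Bessel bound for ALL subarrays, decay of `ext (g α)` about the label trajectory
  for ALL times with the factor `(1+|t|/l²)^A`, phase space multiplicity.  The class is EXACTLY invariant under the parabolic rescaling (`sh * l` is invariant).
* ALL tail estimates are one majorant computation (`Sp/Maj.lean`): `|fld|² ≤ C σ^(2A+n) ∑ |c_α|² w_α^A`, Peetre, Hölder against the measure.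
* TERMINAL NODES: stop at `l = D^(β/(2n))`; the majorant bound alone gives `𝒯 ≤ C m^β l^(2n/(n+1)) (l^n / D^β) E`.  No orthogonality, no Du-Zhang input.
* BROAD POINTS: activity is measured against `max_θ`, so `N(V)(z) ≤ C K^(2n) min_i N(V_θi)(z)` for a transverse tuple; `BrMin` (unit cubes, `min_i sup_q`) follows from `MrSupStmt` by ONE Hölder inequality
  (no gain) and from `TrStmt` (gain) without pigeonholing of levels.
* BEST CONSTANT RECURSION `SpBd`: `X(l) ≤ C K^ε X(l/K) + C l^(-c)`, depth `J`, `K = (L/D^a₀)^(1/J)`.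
-/

set_option autoImplicit false

namespace Claimed.Agent.R257

open MeasureTheory Metric Set
open scoped ENNReal

variable {n : ℕ} {ι : Type}

/-! ## the weighted functional -/

/-- the weight `(1 + |u|/ρ)^(-E)` -/
noncomputable def spW (Ew ρ : ℝ) (u : ST n) : ℝ≥0∞ := ENNReal.ofReal ((1 + ‖u‖ / ρ) ^ (-Ew))

/-- weighted mass around `z` -/
noncomputable def spMass (w : ST n → ℝ≥0∞) (ν : Measure (ST n)) (z : ST n) : ℝ≥0∞ := ∫⁻ y, w (y - z) ∂ν

/-- `P`-th power of the weighted local `L^P` norm around `z` -/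
noncomputable def spLoc (P : ℝ) (w : ST n → ℝ≥0∞) (V : ST n → ℂ) (z : ST n) : ℝ≥0∞ := ∫⁻ y, ‖V y‖ₑ ^ P * w (y - z)

/-- the exponent `P = 2/(1-b)` -/
noncomputable def spP (b : ℝ) : ℝ := 2 / (1 - b)

/-- the fractal functional `∫ mass^b ‖V‖²_{L^P(w(·-z))} dz` -/
noncomputable def spT (b : ℝ) (w : ST n → ℝ≥0∞) (V : ST n → ℂ) (ν : Measure (ST n)) : ℝ≥0∞ :=
  ∫⁻ z, spMass w ν z ^ b * spLoc (spP b) w V z ^ (1 - b)

/-! ## exact arrays -/

/-- exact array: scale, label frequencies, label intercepts, common frequency shift, inputs -/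
structure XArr (n : ℕ) (ι : Type) where
  /-- scale -/
  l : ℝ
  /-- label frequencies -/
  om : ι → E n
  /-- label intercepts -/
  y : ι → E n
  /-- common frequency shift -/
  sh : E n
  /-- exact inputs -/
  g : ι → E n → ℂ

/-- the labels as an array of `Infra/Defs` (profiles and time centres are `0`): gives `tdist`, `TubeMom` -/
noncomputable def XArr.toArr (N : XArr n ι) : Arr n ι := ⟨N.l, N.om, N.y, fun _ => 0, fun _ _ => 0⟩

/-- the field of the subarray `s` with coefficients `c` -/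
noncomputable def XArr.fld (N : XArr n ι) (s : Finset ι) (c : ι → ℂ) (z : ST n) : ℂ := ∑ α ∈ s, c α * ext (N.g α) z

/-- native time weight `σ(z) = 1 + |t|/l²` -/
noncomputable def XArr.sg (N : XArr n ι) (z : ST n) : ℝ := 1 + |z.2| / N.l ^ 2

/-- tube weight `w_α(z) = (1 + |x - y_α - 2 t ω_α|/l)^(-1)` -/
noncomputable def XArr.tw (N : XArr n ι) (α : ι) (z : ST n) : ℝ := (1 + N.toArr.tdist α z / N.l)⁻¹

/-- the part of the class used by the majorant calculus -/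
structure XArr.Dec (N : XArr n ι) (s : Finset ι) (A : ℕ) (Rw C₃ : ℝ) (m₀ : ℕ) : Prop where
  one_le : 1 ≤ N.l
  freq : ∀ α ∈ s, ‖N.om α‖ ≤ Rw
  decay : ∀ α ∈ s, ∀ z : ST n, ‖ext (N.g α) z‖ ≤ C₃ * N.l ^ (-(n : ℝ) / 2) * N.sg z ^ A * N.tw α z ^ A
  mult : ∀ (p : E n × E n) (t : Finset ι), t ⊆ s → (∀ α ∈ t, (N.l • N.om α, N.l⁻¹ • N.y α) ∈ closedBall p 1) → t.card ≤ m₀

/-- parameters of a class of exact arrays -/
structure XCls where
  /-- decay order -/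
  A : ℕ
  /-- radius of the label frequencies -/
  Rw : ℝ
  /-- native radius of the supports of the inputs -/
  C₁ : ℝ
  /-- Bessel constant -/
  C₂ : ℝ
  /-- decay constant -/
  C₃ : ℝ
  /-- phase space multiplicity -/
  m₀ : ℕ

/-- the subarray `s` of the exact array `N` belongs to the class `𝒦` -/
structure XArr.In (N : XArr n ι) (s : Finset ι) (𝒦 : XCls) : Prop where
  dec : N.Dec s 𝒦.A 𝒦.Rw 𝒦.C₃ 𝒦.m₀
  meas : ∀ α ∈ s, Measurable (N.g α)
  l2 : ∀ α ∈ s, MemLp (N.g α) 2 volume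
  supp : ∀ α ∈ s, ∀ ξ, N.g α ξ ≠ 0 → ‖ξ - (N.om α + N.sh)‖ ≤ 𝒦.C₁ / N.l
  bessel : ∀ t ⊆ s, ∀ c : ι → ℂ, ∫ ξ, ‖∑ α ∈ t, c α * N.g α ξ‖ ^ 2 ≤ 𝒦.C₂ * energy t c

/-- the child array of a frequency bin centred at `v₀`: `l' = l/K`, `ω' = K(ω - v₀)`, `y' = y/K`, `sh' = K sh`, `g'(ξ') = K^(-n/2) g(v₀ + ξ'/K)`;
the coordinates of the child are `pmap K v₀` (`Infra/Alg`), and `(N.child K v₀).toArr = N.toArr.resc K v₀` -/
noncomputable def XArr.child (N : XArr n ι) (K : ℝ) (v₀ : E n) : XArr n ι :=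
  ⟨N.l / K, fun α => K • (N.om α - v₀), fun α => K⁻¹ • N.y α, K • N.sh, fun α => capD K⁻¹ v₀ (N.g α)⟩

/-- the inverse of `pmap K v₀` -/
noncomputable def pinv (K : ℝ) (v₀ : E n) (z : ST n) : ST n := (K • z.1 + (2 * (K ^ 2 * z.2)) • v₀, K ^ 2 * z.2)

/-- integer vector as a point of `E n` -/
noncomputable def zvec (k : Fin n → ℤ) : E n := WithLp.toLp 2 fun i => (k i : ℝ)

/-- the frequency bin (side `1/K`) of a frequency -/
noncomputable def spBin (K : ℝ) (w : E n) : Fin n → ℤ := fun i => ⌊K * w i⌋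

/-- the centre of a bin -/
noncomputable def spCtr (K : ℝ) (θ : Fin n → ℤ) : E n := WithLp.toLp 2 fun i => ((θ i : ℝ) + 1 / 2) / K

/-! ## the exit -/

/-- **Proposition s:sparse.**  `cs` depends only on the boxes; `J` on `τ`, `M`; `C` also on `B` (order of `SparseStmt` in `Weak/Choice.lean`). -/
def SpSparse (n : ℕ) : Prop :=
  ∀ (R Rw T₀ : ℝ) (m₀ : ℕ), ∃ cs : ℝ, 0 < cs ∧ ∀ (τ : ℝ) (M : ℕ), 0 < τ → ∃ J : ℕ, ∀ B : ℝ, ∃ C : ℝ,
    ∀ (ι : Type) (A : Arr n ι) (s : Finset ι) (c : ι → ℂ) (μ : Measure (ST n)) (m D : ℝ),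
      A.In s ⟨J, R, B, Rw, m₀⟩ → (∀ α ∈ s, A.tc α = 0) → 0 ≤ m → A.L ^ τ ≤ D → D ≤ A.L →
      Grow μ m n → Slab μ (T₀ * A.L ^ 2) → TubeMom μ A s m D M →
      supN (bet n) μ (A.fld s c) ≤
        ENNReal.ofReal (C * m ^ bet n * A.L ^ (2 * (n : ℝ) / ((n : ℝ) + 1)) * D ^ (-cs) * energy s c)

/-! ## the inputs -/

/-- the supports of the inputs are `Q`-transverse -/
def TransvS (Q : ℝ) (f : Fin (n + 1) → E n → ℂ) : Prop :=
  ∀ ξ : Fin (n + 1) → E n, (∀ i, f i (ξ i) ≠ 0) → Transv Q ξ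

/-- **Proposition t:transverse** (determinant free: `|det| ≥ L^(-c)` and `Transv (L^c)` are polynomially equivalent on bounded frequency regions) -/
def TrStmt (n : ℕ) : Prop :=
  ∀ R₀ : ℝ, ∃ c L₀ : ℝ, 0 < c ∧ ∀ (L : ℝ) (Y : Finset ((Fin n → ℤ) × ℤ)) (z₀ : ST n) (f : Fin (n + 1) → E n → ℂ),
    L₀ ≤ L → (∀ q ∈ Y, cube q ⊆ closedBall z₀ (L ^ 2)) → L ^ (2 * (n : ℝ) - c) ≤ (Y.card : ℝ) →
    (∀ (z : ST n) (r : ℝ) (t : Finset ((Fin n → ℤ) × ℤ)), 1 ≤ r → t ⊆ Y → (∀ q ∈ t, (cube q ∩ closedBall z r).Nonempty) →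
      (t.card : ℝ) ≤ L ^ c * r ^ n) →
    (∀ i, Dat R₀ (f i)) → (∀ i, ∫ ξ, ‖f i ξ‖ ^ 2 ≤ 1) →
    (∀ q ∈ Y, ∀ i, ∃ z ∈ cube q, L ^ (-(eex n) - c) ≤ ‖ext (f i) z‖) →
    TransvS (L ^ c) f → False

/-- **Lemma t:multilinear**, cube-supremum form (t:multilinear-extension), polynomial in the transversality -/
def MrSupStmt (n : ℕ) : Prop :=
  ∀ R₀ ε : ℝ, 0 < ε → ∃ C M : ℝ, ∀ (S Q : ℝ) (Y : Finset ((Fin n → ℤ) × ℤ)) (z₀ : ST n) (f : Fin (n + 1) → E n → ℂ),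
    1 ≤ S → 1 ≤ Q → (∀ q ∈ Y, cube q ⊆ closedBall z₀ S) → (∀ i, Dat R₀ (f i)) → TransvS Q f →
    ∑ q ∈ Y, ∏ i, (⨆ z ∈ cube q, ‖ext (f i) z‖ₑ) ^ (2 / (n : ℝ)) ≤
      ENNReal.ofReal (C * Q ^ M * S ^ ε * ∏ i, (∫ ξ, ‖f i ξ‖ ^ 2) ^ (1 / (n : ℝ)))

/-- **Lemma d:strip-decoupling**, `j = n - 1`, critical exponent `P = 2(n+1)/(n-1) = spP (bet n)`, local form with the SAME weight on both sides, pointwise in the centre `z` -/
def SdStmt (n : ℕ) : Prop :=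
  ∀ R₀ C₁ C₀ ε Ew : ℝ, 0 < ε → (n : ℝ) + 1 < Ew → ∃ C : ℝ, ∀ (K : ℝ) (Θ : Type) (S : Finset Θ) (v : Θ → E n) (g : Θ → E n → ℂ) (e x₀ : E n) (z : ST n),
    1 ≤ K → (∀ θ ∈ S, Dat R₀ (g θ)) → (∀ θ ∈ S, ∀ ξ, g θ ξ ≠ 0 → ‖ξ - v θ‖ ≤ C₁ / K) →
    (∀ (ξ : E n) (t : Finset Θ), t ⊆ S → (∀ θ ∈ t, ‖v θ - ξ‖ ≤ 1 / K) → (t.card : ℝ) ≤ C₁) →
    ‖e‖ = 1 → (∀ θ ∈ S, |inner ℝ (v θ - x₀) e| ≤ C₀ / K) →
    spLoc (spP (bet n)) (spW Ew (K ^ 2)) (fun y => ∑ θ ∈ S, ext (g θ) y) z ^ (1 - bet n) ≤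
      ENNReal.ofReal (C * K ^ ε) * ∑ θ ∈ S, spLoc (spP (bet n)) (spW Ew (K ^ 2)) (ext (g θ)) z ^ (1 - bet n)

/-- size of a layer index -/
noncomputable def spKn (κ : (Fin n → ℤ) × ℤ) : ℝ := ‖zvec κ.1‖ + |(κ.2 : ℝ)|

/-- **Lemma d:layers** (Fourier series in native time): on the slab every atom is an absolutely convergent sum of unimodular multiples of exact fields; every normalised layer is an exact array
of the class `(A, Rw, C₁, C₂, C₃, m₀)` with the labels of the array and the common shift `k/L`.   `C₁` (native radius of the frequency windows) depends only on `n`: it is fixed BEFORE the orders. -/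
def LayStmt (n : ℕ) : Prop :=
  ∃ C₁ : ℝ, 0 ≤ C₁ ∧ ∀ (R Rw T₀ : ℝ) (m₀ A : ℕ), ∃ J : ℕ, ∀ B : ℝ, ∃ C₂ C₃ : ℝ, ∀ (ι : Type) (Ar : Arr n ι) (s : Finset ι),
    Ar.In s ⟨J, R, B, Rw, m₀⟩ → (∀ α ∈ s, Ar.tc α = 0) →
    ∃ (g : (Fin n → ℤ) × ℤ → ι → E n → ℂ) (u : (Fin n → ℤ) × ℤ → ST n → ℂ),
      (∀ κ z, ‖u κ z‖ = 1) ∧
      (∀ κ, (XArr.mk Ar.L Ar.om Ar.y (Ar.L⁻¹ • zvec κ.1) (g κ)).In s ⟨A, Rw, C₁, C₂, C₃, m₀⟩) ∧
      ∀ α ∈ s, ∀ z : ST n, |z.2| ≤ T₀ * Ar.L ^ 2 →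
        HasSum (fun κ => (((1 + spKn κ) ^ (-(A : ℤ)) : ℝ) : ℂ) * u κ z * ext (g κ α) z) (Ar.atom α z)

/-- **locally constant property** of exact fields with bounded frequencies (INFRA U10) -/
def LcStmt (n : ℕ) : Prop :=
  ∀ R₀ P Ew r : ℝ, 1 ≤ P → ∃ C : ℝ, ∀ (g : E n → ℂ) (z y : ST n), Dat R₀ g → ‖y - z‖ ≤ r →
    ‖ext g y‖ₑ ^ P ≤ ENNReal.ofReal C * spLoc P (spW Ew 1) (ext g) z

/-! ## the best constant of the recursion -/

/-- `X` bounds the normalised functional of all nodes of scale `l` whose common shift has native size `≤ k₀` -/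
def SpBd (n : ℕ) (𝒦 : XCls) (M : ℕ) (T Ew k₀ K D l X : ℝ) : Prop :=
  ∀ (ι : Type) (N : XArr n ι) (s : Finset ι) (c : ι → ℂ) (ν : Measure (ST n)) (m : ℝ),
    N.l = l → N.In s 𝒦 → ‖N.sh‖ * l ≤ k₀ → 0 ≤ m → Grow ν m n → Slab ν (T * l ^ 2) → TubeMom ν N.toArr s m D M →
    spT (bet n) (spW Ew (K ^ 2)) (N.fld s c) ν ≤
      ENNReal.ofReal (X * K ^ (2 * ((n : ℝ) + 1)) * m ^ bet n * l ^ (2 * (n : ℝ) / ((n : ℝ) + 1)) * energy s c)

/-- the weight exponent needed at the terminal nodes for the decay order `A` (generous) -/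
noncomputable def spEmin (n A : ℕ) : ℝ := 20 * ((A : ℝ) + n + 2) * ((n : ℝ) + 2)

/-! ## broad points -/

/-- the broad functional `∫ mass^b min_i ‖F_i‖²_{L^P(w(·-z))} dz` -/
noncomputable def spB (b : ℝ) (w : ST n → ℝ≥0∞) (F : Fin (n + 1) → ST n → ℂ) (ν : Measure (ST n)) : ℝ≥0∞ :=
  ∫⁻ z, spMass w ν z ^ b * ⨅ i, spLoc (spP b) w (F i) z ^ (1 - b)

/-- **broad estimate on unit cubes**, explicit constants: gain `l^(-c)` (`c` of any sign), polynomial in the transversality, and a positive power of EVERY input norm -/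
def BrMinWith (n : ℕ) (R₀ c κ C : ℝ) : Prop :=
  ∀ (l Q m En : ℝ) (ν : Measure (ST n)) (z₀ : ST n) (f : Fin (n + 1) → E n → ℂ) (lam : Fin (n + 1) → ℝ),
    1 ≤ l → 1 ≤ Q → 0 ≤ m → 0 ≤ En → Grow ν m n → ν (closedBall z₀ (l ^ 2))ᶜ = 0 → (∀ i, Dat R₀ (f i)) → TransvS Q f →
    (∀ i, 0 ≤ lam i ∧ lam i ≤ 1) → (∀ i, ∫ ξ, ‖f i ξ‖ ^ 2 ≤ lam i * En) →
    ∑' q : (Fin n → ℤ) × ℤ, ν (cube q) ^ bet n * (⨅ i, ⨆ z ∈ cube q, ‖ext (f i) z‖ₑ) ^ 2 ≤
      ENNReal.ofReal (C * Q ^ κ * m ^ bet n * l ^ (2 * (n : ℝ) / ((n : ℝ) + 1) - c) * En * (∏ i, lam i) ^ (1 / (2 * ((n : ℝ) + 1))))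

/-- **broad estimate for the weighted functional**, explicit constants; the exponent `κ` of `K` and `Q` does not depend on `Ew` -/
def BrW (n : ℕ) (R₀ Ew c κ C : ℝ) : Prop :=
  ∀ (K l Q m En : ℝ) (ν : Measure (ST n)) (z₀ : ST n) (f : Fin (n + 1) → E n → ℂ),
    1 ≤ K → 1 ≤ l → 1 ≤ Q → 0 ≤ m → 0 ≤ En → Grow ν m n → ν (closedBall z₀ (l ^ 2))ᶜ = 0 → (∀ i, Dat R₀ (f i)) → TransvS Q f →
    (∀ i, ∫ ξ, ‖f i ξ‖ ^ 2 ≤ En) →
    spB (bet n) (spW Ew (K ^ 2)) (fun i => ext (f i)) ν ≤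
      ENNReal.ofReal (C * K ^ κ * Q ^ κ * m ^ bet n * l ^ (2 * (n : ℝ) / ((n : ℝ) + 1) - c) * En)

/-! ## bins and boxes -/

/-- the labels of `s` in the frequency bin `θ` -/
noncomputable def XArr.sub (N : XArr n ι) (K : ℝ) (s : Finset ι) (θ : Fin n → ℤ) : Finset ι := s.filter fun α => spBin K (N.om α) = θ

/-- the occupied bins -/
noncomputable def XArr.bins (N : XArr n ι) (K : ℝ) (s : Finset ι) : Finset (Fin n → ℤ) := s.image fun α => spBin K (N.om α)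

open scoped Classical in
/-- the `(n+1)`-tuples of occupied bins whose `r/K`-neighbourhoods (shifted by `sh`) are `Q`-transverse -/
noncomputable def XArr.tup (N : XArr n ι) (K r Q : ℝ) (s : Finset ι) : Finset (Fin (n + 1) → Fin n → ℤ) :=
  (Fintype.piFinset fun _ => N.bins K s).filter fun τ =>
    ∀ ξ : Fin (n + 1) → E n, (∀ i, ‖ξ i - (spCtr K (τ i) + N.sh)‖ ≤ r / K) → Transv Q ξ

/-- spatial box of side `a` (all times) -/
def spBox (a : ℝ) (j : Fin n → ℤ) : Set (ST n) := {z | ∀ i, a * (j i : ℝ) ≤ z.1 i ∧ z.1 i < a * ((j i : ℝ) + 1)}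

/-- its centre -/
noncomputable def spBoxC (a : ℝ) (j : Fin n → ℤ) : E n := WithLp.toLp 2 fun i => a * ((j i : ℝ) + 1 / 2)

open scoped Classical in
/-- the labels retained for the box `j` of side `l²` -/
noncomputable def XArr.near (N : XArr n ι) (C₄ : ℝ) (s : Finset ι) (j : Fin n → ℤ) : Finset ι :=
  s.filter fun α => ‖N.y α - spBoxC (N.l ^ 2) j‖ ≤ C₄ * N.l ^ 2

open scoped Classical in
/-- the labels discarded for the box `j` -/
noncomputable def XArr.far (N : XArr n ι) (C₄ : ℝ) (s : Finset ι) (j : Fin n → ℤ) : Finset ι :=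
  s.filter fun α => ¬ ‖N.y α - spBoxC (N.l ^ 2) j‖ ≤ C₄ * N.l ^ 2

/-! ## second exit -/

/-- **Corollary d:power-loss** (same engine, `D = 1`, broad points by `MrSupStmt` alone; no Du-Zhang input) -/
def SpPowerLoss (n : ℕ) : Prop :=
  ∀ (R Rw T₀ : ℝ) (m₀ : ℕ) (ε : ℝ), 0 < ε → ∃ J : ℕ, ∀ B : ℝ, ∃ C : ℝ,
    ∀ (ι : Type) (A : Arr n ι) (s : Finset ι) (c : ι → ℂ) (μ : Measure (ST n)) (m : ℝ),
      A.In s ⟨J, R, B, Rw, m₀⟩ → (∀ α ∈ s, A.tc α = 0) → 0 ≤ m → Grow μ m n → Slab μ (T₀ * A.L ^ 2) →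
      supN (bet n) μ (A.fld s c) ≤ ENNReal.ofReal (C * m ^ bet n * A.L ^ (2 * (n : ℝ) / ((n : ℝ) + 1) + ε) * energy s c)

end Claimed.Agent.R257
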