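import Claimed.Agent.R257.Sp.Fun
import Claimed.Agent.Lib.BD.Geo

/-!
# R257 / Sp / Nar : BINS, THE POINTWISE BROAD-NARROW INEQUALITY, CHILDREN        (captain helper7)        (H sparse.tex l.102-312)

`N : XArr n ι` node of scale `l`, `K ≥ 1`, bins `θ ∈ ℤⁿ` of side `1/K` (`spBin`, `spCtr`, `N.sub K s θ`, `N.bins K s`), `W = spW Ew (K²)`, `β = bet n`, `P = spP β`,
`a_θ(z) = spLoc P W (N.fld (N.sub K s θ) c) z ^ (1-β)` = SQUARE of the weighted local `L^P` norm of the bin field.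
Every `sorry` is a LEAF `L-257-SP-N*`.  Statements frozen (tell helper7 at once if one looks false or awkward).  Prove IN PLACE, helper lemmas directly above, prefix `sp_<leaf>_`.
-/

set_option autoImplicit false

namespace Claimed.Agent.R257

open MeasureTheory Metric Set
open scoped ENNReal

variable {n : ℕ} {ι : Type}

/-! ## API of exact arrays      (leaf L-257-SP-N1: this section, ~250 l.) -/

/-- L-257-SP-N1 -/
theorem sp_dec_subset {N : XArr n ι} {s t : Finset ι} {A : ℕ} {Rw C₃ : ℝ} {m₀ : ℕ} (h : N.Dec s A Rw C₃ m₀) (hts : t ⊆ s) : N.Dec t A Rw C₃ m₀ :=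
  ⟨h.one_le, fun α hα => h.freq α (hts hα), fun α hα => h.decay α (hts hα), fun p u hu => h.mult p u (hu.trans hts)⟩

/-- L-257-SP-N1 -/
theorem sp_in_subset {N : XArr n ι} {s t : Finset ι} {𝒦 : XCls} (h : N.In s 𝒦) (hts : t ⊆ s) : N.In t 𝒦 :=
  ⟨sp_dec_subset h.dec hts, fun α hα => h.meas α (hts hα), fun α hα => h.l2 α (hts hα), fun α hα => h.supp α (hts hα), fun u hu => h.bessel u (hu.trans hts)⟩

theorem sp_N1_supp {N : XArr n ι} {s : Finset ι} {𝒦 : XCls} (h : N.In s 𝒦) {α : ι} (hα : α ∈ s) {ξ : E n} (hξ : N.g α ξ ≠ 0) :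
    ‖ξ‖ ≤ 𝒦.Rw + ‖N.sh‖ + 𝒦.C₁ := by
  have h1 := h.supp α hα ξ hξ
  have hl : 1 ≤ N.l := h.dec.one_le
  have hl0 : 0 < N.l := by linarith
  have hC : 0 ≤ 𝒦.C₁ / N.l := (norm_nonneg _).trans h1
  have hC1 : 0 ≤ 𝒦.C₁ := by
    have := mul_nonneg hC hl0.le
    rwa [div_mul_cancel₀ _ hl0.ne'] at this
  have h2 : 𝒦.C₁ / N.l ≤ 𝒦.C₁ := div_le_self hC1 hl
  have h3 := h.dec.freq α hα
  calc ‖ξ‖ = ‖(ξ - (N.om α + N.sh)) + (N.om α + N.sh)‖ := by congr 1; abel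
    _ ≤ ‖ξ - (N.om α + N.sh)‖ + (‖N.om α‖ + ‖N.sh‖) := (norm_add_le _ _).trans (by gcongr; exact norm_add_le _ _)
    _ ≤ 𝒦.Rw + ‖N.sh‖ + 𝒦.C₁ := by linarith

theorem sp_N1_dat_one {N : XArr n ι} {s : Finset ι} {𝒦 : XCls} (h : N.In s 𝒦) {α : ι} (hα : α ∈ s) : Dat (𝒦.Rw + ‖N.sh‖ + 𝒦.C₁) (N.g α) :=
  ⟨h.meas α hα, fun _ hξ => sp_N1_supp h hα hξ, h.l2 α hα⟩

/-- L-257-SP-N1.  the input of a subfield is a datum (`‖ξ‖ ≤ ‖ω_α‖ + ‖sh‖ + C₁/l`, `l ≥ 1`; if `C₁ < 0` all inputs vanish) -/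
theorem sp_dat {N : XArr n ι} {s t : Finset ι} {𝒦 : XCls} (h : N.In s 𝒦) (hsh : ‖N.sh‖ ≤ 1) (hts : t ⊆ s) (c : ι → ℂ) :
    Dat (𝒦.Rw + 1 + 𝒦.C₁) fun ξ => ∑ α ∈ t, c α * N.g α ξ := by
  refine ⟨Finset.measurable_fun_sum t fun α hα => measurable_const.mul (h.meas α (hts hα)), fun ξ hξ => ?_, ?_⟩
  · obtain ⟨α, hα, hne⟩ := Finset.exists_ne_zero_of_sum_ne_zero hξ
    have := sp_N1_supp h (hts hα) (right_ne_zero_of_mul hne)
    linarith
  · exact memLp_finset_sum t fun α hα => (h.l2 α (hts hα)).const_mul (c α)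

/-- L-257-SP-N1.  linearity of `ext` (`inf_ext_integrable` for every `g α`: it is a datum of some radius) -/
theorem sp_ext_sum {N : XArr n ι} {s t : Finset ι} {𝒦 : XCls} (h : N.In s 𝒦) (hts : t ⊆ s) (c : ι → ℂ) (z : ST n) :
    ext (fun ξ => ∑ α ∈ t, c α * N.g α ξ) z = N.fld t c z := by
  unfold ext XArr.fld
  simp only [Finset.mul_sum]
  rw [integral_finset_sum]
  · refine Finset.sum_congr rfl fun α _ => ?_
    unfold ext
    rw [← integral_const_mul]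
    congr 1
    funext ξ
    ring
  · intro α hα
    have := (inf_ext_integrable (sp_N1_dat_one h (hts hα)) z).const_mul (c α)
    refine this.congr (Filter.Eventually.of_forall fun ξ => ?_)
    simp only
    ring

/-- L-257-SP-N1 (`inf_ext_continuous`) -/
theorem sp_fld_continuous {N : XArr n ι} {s t : Finset ι} {𝒦 : XCls} (h : N.In s 𝒦) (hts : t ⊆ s) (c : ι → ℂ) : Continuous (N.fld t c) := by
  unfold XArr.fld
  exact continuous_finset_sum t fun α hα => continuous_const.mul (inf_ext_continuous (sp_N1_dat_one h (hts hα)))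

/-- L-257-SP-N1 (`Finset.sum_fiberwise_of_maps_to`) -/
theorem sp_fld_split (N : XArr n ι) (K : ℝ) (s : Finset ι) (c : ι → ℂ) (z : ST n) : N.fld s c z = ∑ θ ∈ N.bins K s, N.fld (N.sub K s θ) c z := by
  unfold XArr.fld XArr.sub XArr.bins
  exact (Finset.sum_fiberwise_of_maps_to (fun α hα => Finset.mem_image_of_mem _ hα) _).symm

/-- L-257-SP-N1 -/
theorem sp_energy_split (N : XArr n ι) (K : ℝ) (s : Finset ι) (c : ι → ℂ) : energy s c = ∑ θ ∈ N.bins K s, energy (N.sub K s θ) c := by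
  unfold energy XArr.sub XArr.bins
  exact (Finset.sum_fiberwise_of_maps_to (fun α hα => Finset.mem_image_of_mem _ hα) _).symm

/-- L-257-SP-N1 (`Finset.sum_filter_add_sum_filter_not`) -/
theorem sp_fld_near_far (N : XArr n ι) (C₄ : ℝ) (s : Finset ι) (j : Fin n → ℤ) (c : ι → ℂ) (z : ST n) :
    N.fld s c z = N.fld (N.near C₄ s j) c z + N.fld (N.far C₄ s j) c z := by
  unfold XArr.fld XArr.near XArr.far
  exact (Finset.sum_filter_add_sum_filter_not s _ _).symm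

/-- L-257-SP-N1.  a frequency is within `√n/(2K)` of the centre of its bin -/
theorem sp_bin_dist {K : ℝ} (hK : 0 < K) (w : E n) : ‖w - spCtr K (spBin K w)‖ ≤ Real.sqrt n / (2 * K) := by
  rw [EuclideanSpace.norm_eq]
  have h1 : ∑ i, ‖(w - spCtr K (spBin K w)) i‖ ^ 2 ≤ (n : ℝ) * (1 / (2 * K)) ^ 2 := by
    calc ∑ i, ‖(w - spCtr K (spBin K w)) i‖ ^ 2 ≤ ∑ _i : Fin n, (1 / (2 * K)) ^ 2 := by
          refine Finset.sum_le_sum fun i _ => ?_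
          have e : (w - spCtr K (spBin K w)) i = w i - ((⌊K * w i⌋ : ℝ) + 1 / 2) / K := rfl
          rw [e, Real.norm_eq_abs]
          refine pow_le_pow_left₀ (abs_nonneg _) ?_ 2
          have h1 := Int.floor_le (K * w i)
          have h2 := Int.lt_floor_add_one (K * w i)
          have e2 : w i - ((⌊K * w i⌋ : ℝ) + 1 / 2) / K = (K * w i - ⌊K * w i⌋ - 1 / 2) / K := by field_simp; ring
          have h3 : |K * w i - ⌊K * w i⌋ - 1 / 2| ≤ 1 / 2 := by rw [abs_le]; constructor <;> linarith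
          rw [e2, abs_div, abs_of_pos hK, div_le_div_iff₀ hK (by positivity)]
          nlinarith
      _ = n * (1 / (2 * K)) ^ 2 := by simp
  calc Real.sqrt (∑ i, ‖(w - spCtr K (spBin K w)) i‖ ^ 2) ≤ Real.sqrt ((n : ℝ) * (1 / (2 * K)) ^ 2) := Real.sqrt_le_sqrt h1
    _ = Real.sqrt n / (2 * K) := by
      rw [Real.sqrt_mul (Nat.cast_nonneg n), Real.sqrt_sq (by positivity)]; ring

theorem sp_N1_Icc_card (a b : ℝ) : ((Finset.Icc ⌈a⌉ ⌊b⌋).card : ℝ) ≤ max (b - a + 1) 0 := by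
  rw [Int.card_Icc]
  by_cases h : 0 ≤ ⌊b⌋ + 1 - ⌈a⌉
  · have e : (((⌊b⌋ + 1 - ⌈a⌉).toNat : ℤ) : ℝ) = ((⌊b⌋ + 1 - ⌈a⌉ : ℤ) : ℝ) := by rw [Int.toNat_of_nonneg h]
    have e' : (((⌊b⌋ + 1 - ⌈a⌉).toNat : ℕ) : ℝ) = (((⌊b⌋ + 1 - ⌈a⌉).toNat : ℤ) : ℝ) := by norm_cast
    rw [e', e]
    push_cast
    have h1 := Int.floor_le b
    have h2 := Int.le_ceil a
    exact le_max_of_le_left (by linarith)
  · rw [Int.toNat_of_nonpos (by omega)]
    simp

/-- L-257-SP-N1.  different centres are `1/K`-separated in every... : at most `3^n` centres in a ball of radius `1/K` -/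
theorem sp_ctr_mult {K : ℝ} (hK : 0 < K) (ξ : E n) (t : Finset (Fin n → ℤ)) (h : ∀ θ ∈ t, ‖spCtr K θ - ξ‖ ≤ 1 / K) : (t.card : ℝ) ≤ 3 ^ n := by
  have hsub : t ⊆ Fintype.piFinset fun i : Fin n => Finset.Icc ⌈K * ξ i - 3 / 2⌉ ⌊K * ξ i + 1 / 2⌋ := by
    intro θ hθ
    rw [Fintype.mem_piFinset]
    intro i
    have h1 : |(spCtr K θ - ξ) i| ≤ 1 / K := by
      rw [← Real.norm_eq_abs]
      exact (PiLp.norm_apply_le _ i).trans (h θ hθ)
    have e : (spCtr K θ - ξ) i = ((θ i : ℝ) + 1 / 2) / K - ξ i := rfl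
    rw [e, abs_le] at h1
    have h2 : ((θ i : ℝ) + 1 / 2) / K - ξ i = ((θ i : ℝ) + 1 / 2 - K * ξ i) / K := by field_simp
    rw [h2, le_div_iff₀ hK, div_le_iff₀ hK] at h1
    have h3 : -(1 / K) * K = -1 := by field_simp
    have h4 : 1 / K * K = 1 := by field_simp
    rw [h3, h4] at h1
    rw [Finset.mem_Icc, Int.ceil_le, Int.le_floor]
    constructor <;> linarith [h1.1, h1.2]
  have hc : (t.card : ℝ) ≤ ∏ i : Fin n, ((Finset.Icc ⌈K * ξ i - 3 / 2⌉ ⌊K * ξ i + 1 / 2⌋).card : ℝ) := by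
    have := Finset.card_le_card hsub
    rw [Fintype.card_piFinset] at this
    exact_mod_cast this
  refine hc.trans ?_
  calc ∏ i : Fin n, ((Finset.Icc ⌈K * ξ i - 3 / 2⌉ ⌊K * ξ i + 1 / 2⌋).card : ℝ) ≤ ∏ _i : Fin n, (3 : ℝ) := by
        refine Finset.prod_le_prod (fun i _ => Nat.cast_nonneg _) fun i _ => ?_
        refine (sp_N1_Icc_card _ _).trans (max_le ?_ (by norm_num))
        linarith
    _ = 3 ^ n := by simp

/-- L-257-SP-N1.  `⌊K ω_i⌋ ∈ [-K Rw - 1, K Rw]` -/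
theorem sp_bins_card {N : XArr n ι} {s : Finset ι} {K Rw : ℝ} (hK : 1 ≤ K) (hRw : 0 ≤ Rw) (h : ∀ α ∈ s, ‖N.om α‖ ≤ Rw) :
    ((N.bins K s).card : ℝ) ≤ (2 * Rw + 2) ^ n * K ^ n := by
  have hK0 : 0 < K := by linarith
  have hsub : N.bins K s ⊆ Fintype.piFinset fun _ : Fin n => Finset.Icc ⌈-(K * Rw) - 1⌉ ⌊K * Rw⌋ := by
    intro θ hθ
    unfold XArr.bins at hθ
    obtain ⟨α, hα, rfl⟩ := Finset.mem_image.1 hθ
    rw [Fintype.mem_piFinset]
    intro i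
    have h1 : |N.om α i| ≤ Rw := by
      rw [← Real.norm_eq_abs]
      exact (PiLp.norm_apply_le _ i).trans (h α hα)
    rw [abs_le] at h1
    have e : spBin K (N.om α) i = ⌊K * N.om α i⌋ := rfl
    rw [e, Finset.mem_Icc, Int.ceil_le, Int.le_floor]
    have h2 := Int.floor_le (K * N.om α i)
    have h3 := Int.lt_floor_add_one (K * N.om α i)
    constructor <;> nlinarith [h1.1, h1.2]
  have hc : ((N.bins K s).card : ℝ) ≤ ∏ _i : Fin n, ((Finset.Icc ⌈-(K * Rw) - 1⌉ ⌊K * Rw⌋).card : ℝ) := by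
    have := Finset.card_le_card hsub
    rw [Fintype.card_piFinset] at this
    exact_mod_cast this
  refine hc.trans ?_
  calc ∏ _i : Fin n, ((Finset.Icc ⌈-(K * Rw) - 1⌉ ⌊K * Rw⌋).card : ℝ) ≤ ∏ _i : Fin n, ((2 * Rw + 2) * K) := by
        refine Finset.prod_le_prod (fun i _ => Nat.cast_nonneg _) fun i _ => ?_
        refine (sp_N1_Icc_card _ _).trans (max_le ?_ (by positivity))
        nlinarith
    _ = (2 * Rw + 2) ^ n * K ^ n := by simp [mul_pow]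

/-! ## the pointwise inequality -/

/-- the square of the weighted `L^P` norm of a sum of `#T` fields is at most `#T²` times the largest one (power mean, no Minkowski) -/
theorem sp_N2_loc_sum {b : ℝ} (hb0 : 0 ≤ b) (hb1 : b < 1) {w : ST n → ℝ≥0∞} (hw : Measurable w) {Θ : Type*} (T : Finset Θ) (V : Θ → ST n → ℂ)
    (hV : ∀ θ ∈ T, Measurable (V θ)) (z : ST n) {X : ℝ≥0∞} (hX : ∀ θ ∈ T, spLoc (spP b) w (V θ) z ^ (1 - b) ≤ X) :
    spLoc (spP b) w (fun y => ∑ θ ∈ T, V θ y) z ^ (1 - b) ≤ (T.card : ℝ≥0∞) ^ 2 * X := by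
  have h1b : 0 < 1 - b := by linarith
  have hP1 : 1 ≤ spP b := by
    unfold spP
    rw [le_div_iff₀ h1b]
    linarith
  have hPb : spP b * (1 - b) = 2 := by unfold spP; exact div_mul_cancel₀ _ h1b.ne'
  have s1 : ∀ y, ‖∑ θ ∈ T, V θ y‖ₑ ^ spP b ≤ (T.card : ℝ≥0∞) ^ (spP b - 1) * ∑ θ ∈ T, ‖V θ y‖ₑ ^ spP b := fun y =>
    (ENNReal.rpow_le_rpow (enorm_sum_le _ _) (by linarith)).trans (ENNReal.rpow_sum_le_const_mul_sum_rpow _ _ hP1)
  have hm : ∀ θ ∈ T, Measurable fun y => ‖V θ y‖ₑ ^ spP b * w (y - z) := fun θ hθ =>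
    ((hV θ hθ).enorm.pow_const _).mul (hw.comp (measurable_id.sub_const z))
  have hc : (T.card : ℝ≥0∞) ^ (spP b - 1) ≠ ⊤ := ENNReal.rpow_ne_top_of_nonneg (by linarith) (ENNReal.natCast_ne_top _)
  have s2 : spLoc (spP b) w (fun y => ∑ θ ∈ T, V θ y) z ≤ (T.card : ℝ≥0∞) ^ (spP b - 1) * ∑ θ ∈ T, spLoc (spP b) w (V θ) z := by
    unfold spLoc
    rw [← lintegral_finsetSum _ hm, ← lintegral_const_mul' _ _ hc]
    refine lintegral_mono fun y => ?_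
    rw [← Finset.sum_mul, ← mul_assoc]
    exact mul_le_mul_left (s1 y) _
  have s3 : ∀ θ ∈ T, spLoc (spP b) w (V θ) z ≤ X ^ (1 - b)⁻¹ := fun θ hθ => (ENNReal.le_rpow_inv_iff h1b).2 (hX θ hθ)
  have s4 : spLoc (spP b) w (fun y => ∑ θ ∈ T, V θ y) z ≤ (T.card : ℝ≥0∞) ^ (spP b - 1) * ((T.card : ℝ≥0∞) * X ^ (1 - b)⁻¹) := by
    refine s2.trans (mul_le_mul_right ?_ _)
    refine (Finset.sum_le_sum s3).trans (le_of_eq ?_)
    rw [Finset.sum_const, nsmul_eq_mul]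
  refine (ENNReal.rpow_le_rpow s4 h1b.le).trans (le_of_eq ?_)
  rw [ENNReal.mul_rpow_of_nonneg _ _ h1b.le, ENNReal.mul_rpow_of_nonneg _ _ h1b.le, ← ENNReal.rpow_mul, ← ENNReal.rpow_mul,
    inv_mul_cancel₀ h1b.ne', ENNReal.rpow_one, ← mul_assoc, ← ENNReal.rpow_add_of_nonneg _ _ (mul_nonneg (by linarith) h1b.le) h1b.le]
  congr 1
  rw [← ENNReal.rpow_two]
  congr 1
  linarith

theorem sp_N2_loc_add {b : ℝ} (hb0 : 0 ≤ b) (hb1 : b < 1) {w : ST n → ℝ≥0∞} (hw : Measurable w) {V V' : ST n → ℂ} (hV : Measurable V)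
    (hV' : Measurable V') (z : ST n) :
    spLoc (spP b) w (fun y => V y + V' y) z ^ (1 - b) ≤ 4 * (spLoc (spP b) w V z ^ (1 - b) + spLoc (spP b) w V' z ^ (1 - b)) := by
  have h := sp_N2_loc_sum hb0 hb1 hw (Finset.univ : Finset Bool) (fun t => if t then V else V')
    (fun t _ => by cases t <;> simpa) z (X := spLoc (spP b) w V z ^ (1 - b) + spLoc (spP b) w V' z ^ (1 - b))
    (fun t _ => by
      cases t
      · simp
      · simp)
  simp only [Fintype.sum_bool, if_true, Bool.false_eq_true, if_false, Finset.card_univ, Fintype.card_bool] at h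
  refine h.trans (le_of_eq ?_)
  norm_num

/-- the input of a bin is supported in the ball of radius `(√n + C₁)/K` about the shifted centre of the bin -/
theorem sp_N2_supp {N : XArr n ι} {s : Finset ι} {𝒦 : XCls} (h : N.In s 𝒦) (hC₁ : 0 ≤ 𝒦.C₁) {K : ℝ} (hK : 1 ≤ K) (hKl : K ≤ N.l) (c : ι → ℂ)
    (θ : Fin n → ℤ) (ξ : E n) (hξ : ∑ α ∈ N.sub K s θ, c α * N.g α ξ ≠ 0) : ‖ξ - (spCtr K θ + N.sh)‖ ≤ (Real.sqrt n + 𝒦.C₁) / K := by
  have hK0 : 0 < K := by linarith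
  obtain ⟨α, hα, hne⟩ := Finset.exists_ne_zero_of_sum_ne_zero hξ
  rw [XArr.sub, Finset.mem_filter] at hα
  have h1 := h.supp α hα.1 ξ (right_ne_zero_of_mul hne)
  have h2 := sp_bin_dist hK0 (N.om α)
  rw [hα.2] at h2
  have h3 : 𝒦.C₁ / N.l ≤ 𝒦.C₁ / K := div_le_div_of_nonneg_left hC₁ hK0 hKl
  have h4 : Real.sqrt n / (2 * K) ≤ Real.sqrt n / K :=
    div_le_div_of_nonneg_left (Real.sqrt_nonneg _) hK0 (by linarith)
  have e : ξ - (spCtr K θ + N.sh) = (ξ - (N.om α + N.sh)) + (N.om α - spCtr K θ) := by abel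
  rw [e, add_div]
  refine (norm_add_le _ _).trans ?_
  linarith

/-- the shifted centres of the occupied bins are bounded -/
theorem sp_N2_ctr {N : XArr n ι} {s : Finset ι} {𝒦 : XCls} (h : N.In s 𝒦) {K : ℝ} (hK : 1 ≤ K) (hsh : ‖N.sh‖ ≤ 1) {θ : Fin n → ℤ}
    (hθ : θ ∈ N.bins K s) : ‖spCtr K θ + N.sh‖ ≤ 𝒦.Rw + Real.sqrt n + 1 := by
  have hK0 : 0 < K := by linarith
  rw [XArr.bins, Finset.mem_image] at hθ
  obtain ⟨α, hα, rfl⟩ := hθ
  have h1 := h.dec.freq α hα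
  have h2 := sp_bin_dist hK0 (N.om α)
  have h4 : Real.sqrt n / (2 * K) ≤ Real.sqrt n := div_le_self (Real.sqrt_nonneg _) (by linarith)
  have e : spCtr K (spBin K (N.om α)) + N.sh = N.om α - (N.om α - spCtr K (spBin K (N.om α))) + N.sh := by abel
  rw [e]
  refine (norm_add_le _ _).trans (add_le_add ((norm_sub_le _ _).trans ?_) hsh)
  linarith

/-- a transverse tuple of bins belongs to `N.tup` -/
theorem sp_N2_tup {N : XArr n ι} {s : Finset ι} {K r₀ M : ℝ} (hK : 1 ≤ K) (hr₀ : 0 < r₀) (hM : 0 ≤ M) {a : Fin (n + 1) → Fin n → ℤ}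
    (ha : ∀ i, a i ∈ N.bins K s)
    (htr : BD.BdgTrans (1 + 2 ^ (n + 2) * (M + r₀ / K + 1) / (2 ^ (n + 2) * r₀ / K)) fun i => closedBall (spCtr K (a i) + N.sh) (r₀ / K)) :
    a ∈ N.tup K r₀ ((1 + (M + r₀ + 1) / r₀) * K) s := by
  have hK0 : 0 < K := by linarith
  classical
  unfold XArr.tup
  rw [Finset.mem_filter, Fintype.mem_piFinset]
  refine ⟨ha, fun ξ hξ t => ?_⟩
  refine (htr ξ (fun i => by rw [mem_closedBall, dist_eq_norm]; exact hξ i) t).trans (mul_le_mul_of_nonneg_right ?_ (by positivity))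
  have e : 2 ^ (n + 2) * (M + r₀ / K + 1) / (2 ^ (n + 2) * r₀ / K) = (M + r₀ / K + 1) / r₀ * K := by
    field_simp
  rw [e, add_mul, one_mul]
  have h1 : r₀ / K ≤ r₀ := div_le_self hr₀.le hK
  have h2 : (M + r₀ / K + 1) / r₀ ≤ (M + r₀ + 1) / r₀ := div_le_div_of_nonneg_right (by linarith) hr₀.le
  have h3 := mul_le_mul_of_nonneg_right h2 hK0.le
  linarith

/-- L-257-SP-N2 (~350 l.).  **Broad-narrow, pointwise in the centre `z`** (s:simplex = `BD.bdg_trans_or_slab_idx`, PROVED; s:activity; (s:narrow-decoupling) = `SdStmt`).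
PLAN.  `r₀ = √n + C₁`, `v_θ = spCtr K θ + sh`, `b_θ = (a_θ)^(1/2)` = weighted `L^P` norm of the bin field `V_θ = ext g_θ`, `g_θ = ∑_{α ∈ sub θ} c_α g_α` (`sp_ext_sum`, `sp_dat`), `supp g_θ ⊆ B(v_θ, r₀/K)` (`sp_bin_dist`, `C₁/l ≤ C₁/K`).
`b* = max_θ b_θ`, ACTIVE bins `S = {θ : b_θ ≥ K^(-n) b*}`.   Apply `bdg_trans_or_slab_idx` (`V = E n`, `finrank = n`) to `S`, `ctr = v`, `r = r₀/K`, `lam = 2^(n+2) r₀/K`, `M = Rw + √n + 1`.
* SLAB: `SdStmt` (`C₀ = 2^(n+2) r₀`, `C₁' = max r₀ 3^n`, `sp_ctr_mult`) for the family `S`; triangle inequality in `L^P(W)`: `b(V) ≤ b(∑_S V_θ) + ∑_{θ ∉ S} b_θ ≤ (C K^ε ∑ b_θ²)^(1/2) + #Θ K^(-n) b*`, `#Θ ≤ C K^n` (`sp_bins_card`), `b* ² ≤ ∑ b_θ²`.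
* TRANSVERSE: `τ ∈ N.tup K r₀ (Q₀ K) s` with `Q₀ = 1 + (M + r₀ + 1)/r₀` (`BdgTrans B` of the balls is `Transv B` for all choices; `B = 1 + (M + r + 1) K/r₀ ≤ Q₀ K`), `b(V) ≤ ∑ b_θ ≤ #Θ b* ≤ C K^(2n) min_i b_{τ i}`.
All quantities are finite (`fld` bounded, `Ew > n+1`), but the argument can be run in `ℝ≥0∞`. -/
theorem sp_pointwise (n : ℕ) (hn : 2 ≤ n) (hSd : SdStmt n) (𝒦 : XCls) (ε Ew : ℝ) (hC₁ : 0 ≤ 𝒦.C₁) (hRw : 0 ≤ 𝒦.Rw) (hε : 0 < ε) (hE : (n : ℝ) + 1 < Ew) :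
    ∃ C : ℝ, 0 ≤ C ∧ ∀ (ι : Type) (N : XArr n ι) (s : Finset ι) (c : ι → ℂ) (K : ℝ) (z : ST n), N.In s 𝒦 → 1 ≤ K → K ≤ N.l → ‖N.sh‖ ≤ 1 →
    spLoc (spP (bet n)) (spW Ew (K ^ 2)) (N.fld s c) z ^ (1 - bet n) ≤
      ENNReal.ofReal (C * K ^ ε) * ∑ θ ∈ N.bins K s, spLoc (spP (bet n)) (spW Ew (K ^ 2)) (N.fld (N.sub K s θ) c) z ^ (1 - bet n) +
      ENNReal.ofReal (C * K ^ (4 * (n : ℝ))) *
        ∑ τ ∈ N.tup K (Real.sqrt n + 𝒦.C₁) ((1 + (𝒦.Rw + 2 * Real.sqrt n + 𝒦.C₁ + 2) / (Real.sqrt n + 𝒦.C₁)) * K) s,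
          ⨅ i, spLoc (spP (bet n)) (spW Ew (K ^ 2)) (N.fld (N.sub K s (τ i)) c) z ^ (1 - bet n) := by
  classical
  obtain ⟨Csd, hSd'⟩ := hSd (𝒦.Rw + 1 + 𝒦.C₁) (max (Real.sqrt n + 𝒦.C₁) (3 ^ n)) (2 ^ (n + 2) * (Real.sqrt n + 𝒦.C₁)) ε Ew hε hE
  have hn2 : (2 : ℝ) ≤ n := by exact_mod_cast hn
  have hsq : 0 < Real.sqrt n := Real.sqrt_pos.2 (by linarith)
  have hr₀ : 0 < Real.sqrt n + 𝒦.C₁ := by linarith
  have hb0 : 0 ≤ bet n := by unfold bet; positivity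
  have hb1 : bet n < 1 := by
    unfold bet
    rw [div_lt_one (by positivity)]
    linarith
  refine ⟨4 * max Csd 0 + 4 * ((2 * 𝒦.Rw + 2) ^ n) ^ 2, by positivity, ?_⟩
  intro ι N s c K z hN hK hKl hsh
  have hK0 : 0 < K := by linarith
  have hw : Measurable (spW Ew (K ^ 2) : ST n → ℝ≥0∞) := sp_measurable_spW _ _
  have hsub : ∀ θ, N.sub K s θ ⊆ s := fun θ => Finset.filter_subset _ _
  have hmeas : ∀ θ, Measurable (N.fld (N.sub K s θ) c) := fun θ => (sp_fld_continuous hN (hsub θ) c).measurable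
  have hsplit : N.fld s c = fun y => ∑ θ ∈ N.bins K s, N.fld (N.sub K s θ) c y := funext (sp_fld_split N K s c)
  generalize hA : (fun θ => spLoc (spP (bet n)) (spW Ew (K ^ 2)) (N.fld (N.sub K s θ) c) z ^ (1 - bet n)) = A
  have hA' : ∀ θ, spLoc (spP (bet n)) (spW Ew (K ^ 2)) (N.fld (N.sub K s θ) c) z ^ (1 - bet n) = A θ := fun θ => congrFun hA θ
  simp only [hA']
  rcases (N.bins K s).eq_empty_or_nonempty with hemp | hne
  · have := sp_N2_loc_sum hb0 hb1 hw (N.bins K s) (fun θ => N.fld (N.sub K s θ) c) (fun θ _ => hmeas θ) z (X := 0)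
      (fun θ hθ => by rw [hemp] at hθ; simp at hθ)
    rw [← hsplit, mul_zero] at this
    exact this.trans zero_le
  obtain ⟨θm, hθm, hmax⟩ := Finset.exists_max_image (N.bins K s) A hne
  have hcard : ((N.bins K s).card : ℝ≥0∞) ^ 2 ≤ ENNReal.ofReal (((2 * 𝒦.Rw + 2) ^ n) ^ 2 * K ^ (2 * n)) := by
    have h1 := sp_bins_card hK hRw hN.dec.freq
    rw [← ENNReal.ofReal_natCast, ← ENNReal.ofReal_pow (Nat.cast_nonneg _)]
    refine ENNReal.ofReal_le_ofReal ((pow_le_pow_left₀ (Nat.cast_nonneg _) h1 2).trans (le_of_eq ?_))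
    ring
  have hfr : Module.finrank ℝ (E n) = n := by simp
  have dich := BD.bdg_trans_or_slab_idx (V := E n) (by rw [hfr]; omega)
    ((N.bins K s).filter fun θ => A θm ≤ ENNReal.ofReal (K ^ (2 * n)) * A θ) (fun θ => spCtr K θ + N.sh)
    (lam := 2 ^ (n + 2) * (Real.sqrt n + 𝒦.C₁) / K) (r := (Real.sqrt n + 𝒦.C₁) / K) (M := 𝒦.Rw + Real.sqrt n + 1)
    (by positivity) (by positivity) (by rw [hfr, mul_div_assoc])
    (fun θ hθ => sp_N2_ctr hN hK hsh (Finset.mem_filter.1 hθ).1)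
  rw [hfr] at dich
  rcases dich with ⟨a, ha, htr⟩ | ⟨e, x₀, he, hslab⟩
  · -- transverse
    have hmem := sp_N2_tup (N := N) (s := s) hK hr₀ (by positivity : 0 ≤ 𝒦.Rw + Real.sqrt n + 1) (fun i => (Finset.mem_filter.1 (ha i)).1) htr
    have eQ : 𝒦.Rw + Real.sqrt n + 1 + (Real.sqrt n + 𝒦.C₁) + 1 = 𝒦.Rw + 2 * Real.sqrt n + 𝒦.C₁ + 2 := by ring
    rw [eQ] at hmem
    have h1 := sp_N2_loc_sum hb0 hb1 hw (N.bins K s) (fun θ => N.fld (N.sub K s θ) c) (fun θ _ => hmeas θ) z (X := A θm)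
      (fun θ hθ => by rw [hA']; exact hmax θ hθ)
    rw [← hsplit] at h1
    obtain ⟨i₀, hi₀⟩ := exists_eq_ciInf_of_finite (f := fun i => A (a i))
    have h2 : A θm ≤ ENNReal.ofReal (K ^ (2 * n)) * ⨅ i, A (a i) := by
      rw [← hi₀]
      exact (Finset.mem_filter.1 (ha i₀)).2
    refine le_trans ?_ le_add_self
    calc spLoc (spP (bet n)) (spW Ew (K ^ 2)) (N.fld s c) z ^ (1 - bet n)
        ≤ ((N.bins K s).card : ℝ≥0∞) ^ 2 * A θm := h1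
      _ ≤ ENNReal.ofReal (((2 * 𝒦.Rw + 2) ^ n) ^ 2 * K ^ (2 * n)) * (ENNReal.ofReal (K ^ (2 * n)) * ⨅ i, A (a i)) := mul_le_mul' hcard h2
      _ = ENNReal.ofReal (((2 * 𝒦.Rw + 2) ^ n) ^ 2 * K ^ (4 * (n : ℝ))) * ⨅ i, A (a i) := by
          have eK : K ^ (2 * n) * K ^ (2 * n) = K ^ (4 * (n : ℝ)) := by
            rw [← pow_add, ← Real.rpow_natCast]
            congr 1
            push_cast
            ring
          rw [← mul_assoc, ← ENNReal.ofReal_mul (by positivity), mul_assoc, eK]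
      _ ≤ _ := by
          refine mul_le_mul' (ENNReal.ofReal_le_ofReal (mul_le_mul_of_nonneg_right ?_ (by positivity))) ?_
          · have : 0 ≤ max Csd 0 := le_max_right _ _
            have h3 : 0 ≤ ((2 * 𝒦.Rw + 2) ^ n) ^ 2 := by positivity
            linarith
          · exact Finset.single_le_sum (f := fun τ : Fin (n + 1) → Fin n → ℤ => ⨅ i, A (τ i)) (fun _ _ => zero_le) hmem
  · -- slab
    have hext : ∀ θ, ext (fun ξ => ∑ α ∈ N.sub K s θ, c α * N.g α ξ) = N.fld (N.sub K s θ) c := fun θ => funext (sp_ext_sum hN (hsub θ) c)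
    have hsd := hSd' K (Fin n → ℤ) ((N.bins K s).filter fun θ => A θm ≤ ENNReal.ofReal (K ^ (2 * n)) * A θ)
      (fun θ => spCtr K θ + N.sh) (fun θ ξ => ∑ α ∈ N.sub K s θ, c α * N.g α ξ) e x₀ z hK
      (fun θ _ => sp_dat hN hsh (hsub θ) c)
      (fun θ _ ξ hξ => (sp_N2_supp hN hC₁ hK hKl c θ ξ hξ).trans (div_le_div_of_nonneg_right (le_max_left _ _) hK0.le))
      (fun ξ t _ ht => (sp_ctr_mult hK0 (ξ - N.sh) t (fun θ hθ => by
          have := ht θ hθ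
          rwa [show spCtr K θ + N.sh - ξ = spCtr K θ - (ξ - N.sh) by abel] at this)).trans (le_max_right _ _))
      he (fun θ hθ => (hslab θ hθ).le)
    simp only [hext, hA'] at hsd
    have hVsplit : N.fld s c = fun y => (∑ θ ∈ (N.bins K s).filter fun θ => A θm ≤ ENNReal.ofReal (K ^ (2 * n)) * A θ, N.fld (N.sub K s θ) c y) +
        ∑ θ ∈ (N.bins K s).filter fun θ => ¬ A θm ≤ ENNReal.ofReal (K ^ (2 * n)) * A θ, N.fld (N.sub K s θ) c y := by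
      rw [hsplit]
      funext y
      exact (Finset.sum_filter_add_sum_filter_not _ _ _).symm
    have hadd := sp_N2_loc_add hb0 hb1 hw
      (V := fun y => ∑ θ ∈ (N.bins K s).filter fun θ => A θm ≤ ENNReal.ofReal (K ^ (2 * n)) * A θ, N.fld (N.sub K s θ) c y)
      (V' := fun y => ∑ θ ∈ (N.bins K s).filter fun θ => ¬ A θm ≤ ENNReal.ofReal (K ^ (2 * n)) * A θ, N.fld (N.sub K s θ) c y)
      (continuous_finsetSum _ fun θ _ => sp_fld_continuous hN (hsub θ) c).measurable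
      (continuous_finsetSum _ fun θ _ => sp_fld_continuous hN (hsub θ) c).measurable z
    rw [← hVsplit] at hadd
    have hkk : (0 : ℝ) < K ^ (2 * n) := by positivity
    have hrest := sp_N2_loc_sum hb0 hb1 hw ((N.bins K s).filter fun θ => ¬ A θm ≤ ENNReal.ofReal (K ^ (2 * n)) * A θ)
      (fun θ => N.fld (N.sub K s θ) c) (fun θ _ => hmeas θ) z (X := ENNReal.ofReal ((K ^ (2 * n))⁻¹) * A θm)
      (fun θ hθ => by
        rw [hA']
        have h1 : ENNReal.ofReal (K ^ (2 * n)) * A θ ≤ A θm := (not_le.1 (Finset.mem_filter.1 hθ).2).le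
        calc A θ = ENNReal.ofReal ((K ^ (2 * n))⁻¹) * (ENNReal.ofReal (K ^ (2 * n)) * A θ) := by
              rw [← mul_assoc, ← ENNReal.ofReal_mul (by positivity), inv_mul_cancel₀ hkk.ne', ENNReal.ofReal_one, one_mul]
          _ ≤ _ := mul_le_mul_right h1 _)
    have hc' : (((N.bins K s).filter fun θ => ¬ A θm ≤ ENNReal.ofReal (K ^ (2 * n)) * A θ).card : ℝ≥0∞) ^ 2 * ENNReal.ofReal ((K ^ (2 * n))⁻¹)
        ≤ ENNReal.ofReal (((2 * 𝒦.Rw + 2) ^ n) ^ 2) := by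
      have h1 : (((N.bins K s).filter fun θ => ¬ A θm ≤ ENNReal.ofReal (K ^ (2 * n)) * A θ).card : ℝ≥0∞) ^ 2 ≤ ((N.bins K s).card : ℝ≥0∞) ^ 2 :=
        pow_le_pow_left' (by exact_mod_cast Finset.card_filter_le _ _) 2
      refine (mul_le_mul_left (h1.trans hcard) _).trans (le_of_eq ?_)
      rw [← ENNReal.ofReal_mul (by positivity), mul_assoc, mul_inv_cancel₀ hkk.ne', mul_one]
    have hKε : 1 ≤ K ^ ε := Real.one_le_rpow hK hε.le
    refine le_trans ?_ le_self_add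
    calc spLoc (spP (bet n)) (spW Ew (K ^ 2)) (N.fld s c) z ^ (1 - bet n)
        ≤ 4 * (ENNReal.ofReal (Csd * K ^ ε) * ∑ θ ∈ (N.bins K s).filter fun θ => A θm ≤ ENNReal.ofReal (K ^ (2 * n)) * A θ, A θ +
            (((N.bins K s).filter fun θ => ¬ A θm ≤ ENNReal.ofReal (K ^ (2 * n)) * A θ).card : ℝ≥0∞) ^ 2 *
              (ENNReal.ofReal ((K ^ (2 * n))⁻¹) * A θm)) := hadd.trans (mul_le_mul_right (add_le_add hsd hrest) _)
      _ ≤ 4 * (ENNReal.ofReal (max Csd 0 * K ^ ε) * ∑ θ ∈ N.bins K s, A θ +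
            ENNReal.ofReal (((2 * 𝒦.Rw + 2) ^ n) ^ 2 * K ^ ε) * ∑ θ ∈ N.bins K s, A θ) := by
          refine mul_le_mul_right (add_le_add (mul_le_mul' (ENNReal.ofReal_le_ofReal
            (mul_le_mul_of_nonneg_right (le_max_left _ _) (by positivity))) (Finset.sum_le_sum_of_subset (Finset.filter_subset _ _))) ?_) _
          rw [← mul_assoc]
          refine mul_le_mul' (hc'.trans (ENNReal.ofReal_le_ofReal (le_mul_of_one_le_right (by positivity) hKε))) ?_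
          exact Finset.single_le_sum (f := A) (fun _ _ => zero_le) hθm
      _ = _ := by
          have h4 : (4 : ℝ≥0∞) = ENNReal.ofReal 4 := by norm_num
          have hm0 : 0 ≤ max Csd 0 := le_max_right _ _
          rw [← add_mul, ← ENNReal.ofReal_add (by positivity) (by positivity), ← mul_assoc, h4, ← ENNReal.ofReal_mul (by norm_num)]
          congr 2
          ring

/-- L-257-SP-N3 (~100 l.).  **Broad-narrow for the functional**: multiply `sp_pointwise` by `spMass^β` and integrate (`lintegral_add_left`, `lintegral_finset_sum`, `lintegral_const_mul`; measurability: `sp_measurable_*`, `sp_fld_continuous`, `Measurable.iInf`). -/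
theorem sp_bn (n : ℕ) (hn : 2 ≤ n) (hSd : SdStmt n) (𝒦 : XCls) (ε Ew : ℝ) (hC₁ : 0 ≤ 𝒦.C₁) (hRw : 0 ≤ 𝒦.Rw) (hε : 0 < ε) (hE : (n : ℝ) + 1 < Ew) :
    ∃ C : ℝ, 0 ≤ C ∧ ∀ (ι : Type) (N : XArr n ι) (s : Finset ι) (c : ι → ℂ) (K : ℝ) (ν : Measure (ST n)) [SFinite ν], N.In s 𝒦 → 1 ≤ K → K ≤ N.l → ‖N.sh‖ ≤ 1 →
    spT (bet n) (spW Ew (K ^ 2)) (N.fld s c) ν ≤
      ENNReal.ofReal (C * K ^ ε) * ∑ θ ∈ N.bins K s, spT (bet n) (spW Ew (K ^ 2)) (N.fld (N.sub K s θ) c) ν +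
      ENNReal.ofReal (C * K ^ (4 * (n : ℝ))) *
        ∑ τ ∈ N.tup K (Real.sqrt n + 𝒦.C₁) ((1 + (𝒦.Rw + 2 * Real.sqrt n + 𝒦.C₁ + 2) / (Real.sqrt n + 𝒦.C₁)) * K) s,
          spB (bet n) (spW Ew (K ^ 2)) (fun i => N.fld (N.sub K s (τ i)) c) ν := by
  obtain ⟨C, hC, h⟩ := sp_pointwise n hn hSd 𝒦 ε Ew hC₁ hRw hε hE
  refine ⟨C, hC, ?_⟩
  intro ι N s c K ν _ hN hK hKl hsh
  have hw : Measurable (spW Ew (K ^ 2) : ST n → ℝ≥0∞) := sp_measurable_spW _ _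
  have hm : Measurable fun z => spMass (spW Ew (K ^ 2)) ν z ^ bet n := (sp_measurable_mass hw ν).pow_const _
  have hA : ∀ θ, Measurable fun z => spLoc (spP (bet n)) (spW Ew (K ^ 2)) (N.fld (N.sub K s θ) c) z ^ (1 - bet n) := fun θ =>
    (sp_measurable_loc _ hw (sp_fld_continuous hN (Finset.filter_subset _ _) c).measurable).pow_const _
  have hI : ∀ τ : Fin (n + 1) → Fin n → ℤ,
      Measurable fun z => ⨅ i, spLoc (spP (bet n)) (spW Ew (K ^ 2)) (N.fld (N.sub K s (τ i)) c) z ^ (1 - bet n) := fun τ =>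
    Measurable.iInf fun i => hA (τ i)
  have hmA : ∀ θ, Measurable fun z => spMass (spW Ew (K ^ 2)) ν z ^ bet n *
      spLoc (spP (bet n)) (spW Ew (K ^ 2)) (N.fld (N.sub K s θ) c) z ^ (1 - bet n) := fun θ => hm.mul (hA θ)
  have hmI : ∀ τ : Fin (n + 1) → Fin n → ℤ, Measurable fun z => spMass (spW Ew (K ^ 2)) ν z ^ bet n *
      ⨅ i, spLoc (spP (bet n)) (spW Ew (K ^ 2)) (N.fld (N.sub K s (τ i)) c) z ^ (1 - bet n) := fun τ => hm.mul (hI τ)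
  have hs : Measurable fun z => ENNReal.ofReal (C * K ^ ε) * ∑ θ ∈ N.bins K s, spMass (spW Ew (K ^ 2)) ν z ^ bet n *
      spLoc (spP (bet n)) (spW Ew (K ^ 2)) (N.fld (N.sub K s θ) c) z ^ (1 - bet n) :=
    (Finset.measurable_fun_sum _ fun θ _ => hmA θ).const_mul _
  unfold spT spB
  calc ∫⁻ z, spMass (spW Ew (K ^ 2)) ν z ^ bet n * spLoc (spP (bet n)) (spW Ew (K ^ 2)) (N.fld s c) z ^ (1 - bet n)
      ≤ ∫⁻ z, (ENNReal.ofReal (C * K ^ ε) * ∑ θ ∈ N.bins K s, spMass (spW Ew (K ^ 2)) ν z ^ bet n *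
            spLoc (spP (bet n)) (spW Ew (K ^ 2)) (N.fld (N.sub K s θ) c) z ^ (1 - bet n)) +
          ENNReal.ofReal (C * K ^ (4 * (n : ℝ))) *
            ∑ τ ∈ N.tup K (Real.sqrt n + 𝒦.C₁) ((1 + (𝒦.Rw + 2 * Real.sqrt n + 𝒦.C₁ + 2) / (Real.sqrt n + 𝒦.C₁)) * K) s,
              spMass (spW Ew (K ^ 2)) ν z ^ bet n *
                ⨅ i, spLoc (spP (bet n)) (spW Ew (K ^ 2)) (N.fld (N.sub K s (τ i)) c) z ^ (1 - bet n) := by
        refine lintegral_mono fun z => ?_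
        refine (mul_le_mul_right (h ι N s c K z hN hK hKl hsh) _).trans (le_of_eq ?_)
        rw [mul_add, mul_left_comm, mul_left_comm _ (ENNReal.ofReal (C * K ^ (4 * (n : ℝ)))),
          Finset.mul_sum (N.bins K s) _ (spMass (spW Ew (K ^ 2)) ν z ^ bet n), Finset.mul_sum (N.tup _ _ _ s) _ (spMass (spW Ew (K ^ 2)) ν z ^ bet n)]
    _ = _ := by
        rw [lintegral_add_left hs, lintegral_const_mul' _ _ ENNReal.ofReal_ne_top, lintegral_const_mul' _ _ ENNReal.ofReal_ne_top,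
          lintegral_finsetSum _ fun θ _ => hmA θ, lintegral_finsetSum _ fun τ _ => hmI τ]

/-! ## children -/

/-- L-257-SP-N4 (~10 l.; `rfl` after unfolding) -/
theorem sp_child_toArr (N : XArr n ι) (K : ℝ) (v₀ : E n) : (N.child K v₀).toArr = N.toArr.resc K v₀ := rfl

/-- L-257-SP-N4 (~60 l.; `inf_ext_rescale` with `q = K⁻¹`, `inf_car_norm`) -/
theorem sp_child_fld (N : XArr n ι) {K : ℝ} (hK : 0 < K) (v₀ : E n) (s : Finset ι) (c : ι → ℂ) (z : ST n) :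
    ‖N.fld s c z‖ = K ^ (-(n : ℝ) / 2) * ‖(N.child K v₀).fld s c (pmap K v₀ z)‖ := by
  have hq : 0 < K⁻¹ := inv_pos.2 hK
  have e1 : pmap K v₀ z = (K⁻¹ • (z.1 - (2 * z.2) • v₀), K⁻¹ ^ 2 * z.2) := by
    unfold pmap
    congr 1
    rw [inv_pow, div_eq_inv_mul]
  have e2 : N.fld s c z = (((K⁻¹) ^ ((n : ℝ) / 2) : ℝ) : ℂ) * car v₀ z * (N.child K v₀).fld s c (pmap K v₀ z) := by
    unfold XArr.fld
    rw [Finset.mul_sum]
    refine Finset.sum_congr rfl fun α _ => ?_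
    rw [inf_ext_rescale (N.g α) v₀ hq z, e1]
    simp only [XArr.child]
    ring
  rw [e2, norm_mul, norm_mul, inf_car_norm, mul_one, Complex.norm_real, Real.norm_of_nonneg (by positivity), Real.inv_rpow hK.le, ← Real.rpow_neg hK.le]
  congr 2
  ring

theorem sp_N5_capD_sum (q : ℝ) (v₀ : E n) (t : Finset ι) (c : ι → ℂ) (g : ι → E n → ℂ) (η : E n) :
    ∑ α ∈ t, c α * capD q v₀ (g α) η = capD q v₀ (fun ξ => ∑ α ∈ t, c α * g α ξ) η := by
  unfold capD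
  rw [Finset.mul_sum]
  exact Finset.sum_congr rfl fun α _ => by ring

theorem sp_N5_capD_int (G : E n → ℂ) (v₀ : E n) {q : ℝ} (hq : 0 < q) : ∫ η, ‖capD q v₀ G η‖ ^ 2 = ∫ ξ, ‖G ξ‖ ^ 2 := by
  have e1 : ∀ η, ‖capD q v₀ G η‖ ^ 2 = q ^ n * (fun x => ‖G (v₀ + x)‖ ^ 2) (q • η) := by
    intro η
    unfold capD
    rw [norm_mul, Complex.norm_real, Real.norm_of_nonneg (by positivity), mul_pow, ← Real.rpow_natCast _ 2, ← Real.rpow_mul hq.le]
    congr 1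
    rw [← Real.rpow_natCast q n]
    congr 1
    push_cast
    ring
  rw [integral_congr_ae (Filter.Eventually.of_forall e1), integral_const_mul,
    Measure.integral_comp_smul volume (fun x => ‖G (v₀ + x)‖ ^ 2) q, integral_add_left_eq_self (fun x => ‖G x‖ ^ 2) v₀,
    finrank_euclideanSpace_fin, abs_of_pos (by positivity), smul_eq_mul, ← mul_assoc, mul_inv_cancel₀ (by positivity), one_mul]

theorem sp_N5_ext (g : E n → ℂ) {K : ℝ} (hK : 0 < K) (v₀ : E n) (z : ST n) :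
    ‖ext (capD K⁻¹ v₀ g) (pmap K v₀ z)‖ = K ^ ((n : ℝ) / 2) * ‖ext g z‖ := by
  have h := inf_ext_rescale g v₀ (inv_pos.2 hK) z
  have e : ((K⁻¹ • (z.1 - (2 * z.2) • v₀), K⁻¹ ^ 2 * z.2) : ST n) = pmap K v₀ z := by
    unfold pmap
    refine Prod.ext rfl ?_
    simp only
    field_simp
  rw [e] at h
  rw [h, norm_mul, norm_mul, inf_car_norm, mul_one, Complex.norm_real, Real.norm_of_nonneg (by positivity), ← mul_assoc,
    Real.inv_rpow hK.le, mul_inv_cancel₀ (by positivity), one_mul]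

/-- L-257-SP-N5 (~250 l.).  **The class is exactly invariant** ((s:child-map)).  `sg`, `tw` are invariant (`inf_tdist_resc`; every point is `pmap K v₀ z`, `sp_pmap_pinv`), `|ext g'_α (pmap z)| = K^(n/2) |ext g_α z|` (`inf_ext_rescale`),
labels `(l' ω', y'/l') = (l ω - l v₀, y/l)` are translated, `∫ |∑ c capD g|² = ∫ |∑ c g|²` (`inf_capD_norm` or a direct change of variables), supports: `‖ξ' - (ω' + K sh)‖ = K ‖v₀ + ξ'/K - ω - sh‖ ≤ K C₁/l`. -/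
theorem sp_child_in {N : XArr n ι} {s : Finset ι} {𝒦 : XCls} (h : N.In s 𝒦) {K : ℝ} (hK : 1 ≤ K) (hKl : K ≤ N.l) {v₀ : E n}
    (hv : ∀ α ∈ s, ‖N.om α - v₀‖ ≤ 𝒦.Rw / K) : (N.child K v₀).In s 𝒦 := by
  have hK0 : 0 < K := by linarith
  have hl0 : 0 < N.l := by linarith
  have hmeas : ∀ α ∈ s, Measurable (capD K⁻¹ v₀ (N.g α)) := fun α hα =>
    measurable_const.mul ((h.meas α hα).comp (measurable_const.add (measurable_id.const_smul K⁻¹)))
  refine ⟨⟨?_, ?_, ?_, ?_⟩, hmeas, ?_, ?_, ?_⟩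
  · show 1 ≤ N.l / K
    rwa [one_le_div hK0]
  · intro α hα
    show ‖K • (N.om α - v₀)‖ ≤ 𝒦.Rw
    rw [norm_smul, Real.norm_of_nonneg hK0.le]
    have := mul_le_mul_of_nonneg_left (hv α hα) hK0.le
    rwa [mul_div_cancel₀ _ hK0.ne'] at this
  · intro α hα z'
    obtain ⟨z, rfl⟩ : ∃ z, pmap K v₀ z = z' := ⟨_, inf_pmap_inv hK0.ne' v₀ z'⟩
    show ‖ext (capD K⁻¹ v₀ (N.g α)) (pmap K v₀ z)‖ ≤ _
    rw [sp_N5_ext _ hK0]
    have h1 := h.dec.decay α hα z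
    have e1 : (N.child K v₀).l ^ (-(n : ℝ) / 2) = K ^ ((n : ℝ) / 2) * N.l ^ (-(n : ℝ) / 2) := by
      show (N.l / K) ^ (-(n : ℝ) / 2) = _
      rw [Real.div_rpow hl0.le hK0.le, neg_div, Real.rpow_neg hK0.le, div_inv_eq_mul, mul_comm]
    have e2 : (N.child K v₀).sg (pmap K v₀ z) = N.sg z := by
      show 1 + |z.2 / K ^ 2| / (N.l / K) ^ 2 = 1 + |z.2| / N.l ^ 2
      rw [abs_div, abs_of_pos (by positivity : (0 : ℝ) < K ^ 2)]
      field_simp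
    have e3 : (N.child K v₀).tw α (pmap K v₀ z) = N.tw α z := by
      show (1 + (N.toArr.resc K v₀).tdist α (pmap K v₀ z) / (N.l / K))⁻¹ = (1 + N.toArr.tdist α z / N.l)⁻¹
      rw [inf_tdist_resc _ hK0]
      congr 2
      field_simp
    rw [e1, e2, e3]
    calc K ^ ((n : ℝ) / 2) * ‖ext (N.g α) z‖ ≤ K ^ ((n : ℝ) / 2) * (𝒦.C₃ * N.l ^ (-(n : ℝ) / 2) * N.sg z ^ 𝒦.A * N.tw α z ^ 𝒦.A) :=
          mul_le_mul_of_nonneg_left h1 (by positivity)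
      _ = _ := by ring
  · intro p t hts ht
    refine h.dec.mult (p + (N.l • v₀, 0)) t hts fun α hα => ?_
    have h1 := ht α hα
    rw [mem_closedBall, dist_eq_norm] at h1 ⊢
    refine le_trans (le_of_eq ?_) h1
    congr 1
    show _ = (((N.l / K) • K • (N.om α - v₀), (N.l / K)⁻¹ • K⁻¹ • N.y α) : E n × E n) - p
    refine Prod.ext ?_ ?_
    · simp only [Prod.fst_sub, Prod.fst_add, smul_smul, div_mul_cancel₀ _ hK0.ne', smul_sub]
      abel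
    · simp only [Prod.snd_sub, Prod.snd_add, smul_smul, add_zero]
      congr 2
      field_simp
  · intro α hα
    exact ⟨(hmeas α hα).aestronglyMeasurable, by
      show eLpNorm (capD K⁻¹ v₀ (N.g α)) 2 volume < ⊤
      rw [inf_capD_norm _ _ (inv_pos.2 hK0)]; exact (h.l2 α hα).2⟩
  · intro α hα ξ hξ
    have h1 := h.supp α hα _ (right_ne_zero_of_mul hξ)
    show ‖ξ - (K • (N.om α - v₀) + K • N.sh)‖ ≤ 𝒦.C₁ / (N.l / K)
    have e : ξ - (K • (N.om α - v₀) + K • N.sh) = K • (v₀ + K⁻¹ • ξ - (N.om α + N.sh)) := by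
      simp only [smul_sub, smul_add, smul_smul, mul_inv_cancel₀ hK0.ne', one_smul]
      abel
    rw [e, norm_smul, Real.norm_of_nonneg hK0.le]
    calc K * ‖v₀ + K⁻¹ • ξ - (N.om α + N.sh)‖ ≤ K * (𝒦.C₁ / N.l) := mul_le_mul_of_nonneg_left h1 hK0.le
      _ = _ := by field_simp
  · intro t hts c
    show ∫ ξ, ‖∑ α ∈ t, c α * capD K⁻¹ v₀ (N.g α) ξ‖ ^ 2 ≤ _
    simp only [sp_N5_capD_sum]
    rw [sp_N5_capD_int _ _ (inv_pos.2 hK0)]
    exact h.bessel t hts c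

/-- L-257-SP-N4 (~25 l.) -/
theorem sp_tubeMom_mono {ν : Measure (ST n)} {A : Arr n ι} {s t : Finset ι} {m m' D : ℝ} {M : ℕ} (h : TubeMom ν A s m D M) (hts : t ⊆ s) (hm : m ≤ m') (hL : 0 ≤ A.L) (hD : 0 < D) :
    TubeMom ν A t m' D M := by
  intro α hα
  refine (h α (hts hα)).trans (ENNReal.ofReal_le_ofReal ?_)
  have : 0 ≤ A.L ^ ((n : ℝ) + 1) := Real.rpow_nonneg hL _
  gcongr

/-- L-257-SP-N4 (~25 l.) -/
theorem sp_restrict_adm {ν : Measure (ST n)} {A : Arr n ι} {s : Finset ι} {m D T : ℝ} {M : ℕ} (S : Set (ST n)) (h1 : Grow ν m n) (h2 : Slab ν T) (h3 : TubeMom ν A s m D M) :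
    Grow (ν.restrict S) m n ∧ Slab (ν.restrict S) T ∧ TubeMom (ν.restrict S) A s m D M := by
  refine ⟨fun z r hr => (Measure.restrict_le_self _).trans (h1 z r hr), ?_, fun α hα => (lintegral_mono' Measure.restrict_le_self le_rfl).trans (h3 α hα)⟩
  exact le_antisymm ((Measure.restrict_le_self _).trans h2.le) zero_le

theorem sp_N6_zero {b : ℝ} (hb1 : b < 1) (w : ST n → ℝ≥0∞) (ν : Measure (ST n)) : spT b w (fun _ => 0) ν = 0 := by
  have hP : 0 < spP b := by unfold spP; exact div_pos (by norm_num) (by linarith)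
  unfold spT spLoc
  simp [ENNReal.zero_rpow_of_pos hP, ENNReal.zero_rpow_of_pos (by linarith : 0 < 1 - b)]

theorem sp_N6_pow (n : ℕ) {K : ℝ} (hK : 0 < K) :
    K ^ (((n : ℝ) + 2) * (1 - bet n) - n) * K ^ (((n : ℝ) + 1) * bet n) * K ^ (-(2 * (n : ℝ) / ((n : ℝ) + 1))) = 1 := by
  rw [← Real.rpow_add hK, ← Real.rpow_add hK]
  have : ((n : ℝ) + 2) * (1 - bet n) - n + ((n : ℝ) + 1) * bet n + -(2 * (n : ℝ) / ((n : ℝ) + 1)) = 0 := by
    unfold bet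
    have : (n : ℝ) + 1 ≠ 0 := by positivity
    field_simp
    ring
  rw [this, Real.rpow_zero]

/-- L-257-SP-N6 (~200 l.).  **One bin = one child** ((s:direct-measure), (s:transport-power), (s:cancellation)).   PLAN.  `t = N.sub K s θ`; if `t = ∅` the left side is `0`.  Otherwise `v₀ = spCtr K θ`, `‖v₀‖ ≤ Rw + √n`.
`spT_child_le` (`b = β`, `Rv = Rw + √n`, `ρ = K²`, `V' = (N.child K v₀).fld t c`, `sp_child_fld`), then the hypothesis `SpBd` at `l/K` for the node `(N.child K v₀, t, ν.map (pmap K v₀))`: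
class `sp_child_in` (`sp_bin_dist`: `‖ω_α - v₀‖ ≤ √n/(2K) ≤ Rw/K`), shift `‖K sh‖ (l/K) = ‖sh‖ l`, `m' = 2 (1 + 2 Rv)^n m K^(n+1)` (`inf_grow_push`), `inf_slab_push` (`T l²/K² = T (l/K)²`), `inf_tubeMom_push` + `sp_tubeMom_mono` + `sp_child_toArr`.
Powers: `K^((n+2)(1-β) - n) (K^(n+1))^β (l/K)^(2n/(n+1)) = l^(2n/(n+1))`. -/
theorem sp_narrow (n : ℕ) (hn : 2 ≤ n) (𝒦 : XCls) (M : ℕ) (T Ew : ℝ) (hRw : Real.sqrt n ≤ 𝒦.Rw) (hE : (n : ℝ) + 2 ≤ Ew) : ∃ C : ℝ, 0 ≤ C ∧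
    ∀ k₀ K D l X : ℝ, 1 ≤ K → K ≤ l → 0 ≤ X → 0 < D → SpBd n 𝒦 M T (Ew - ((n : ℝ) + 2)) k₀ K D (l / K) X →
    ∀ (ι : Type) (N : XArr n ι) (s : Finset ι) (c : ι → ℂ) (ν : Measure (ST n)) (m : ℝ) (θ : Fin n → ℤ),
      N.l = l → N.In s 𝒦 → ‖N.sh‖ * l ≤ k₀ → 0 ≤ m → Grow ν m n → Slab ν (T * l ^ 2) → TubeMom ν N.toArr s m D M →
      spT (bet n) (spW Ew (K ^ 2)) (N.fld (N.sub K s θ) c) ν ≤
        ENNReal.ofReal (C * X * K ^ (2 * ((n : ℝ) + 1)) * m ^ bet n * l ^ (2 * (n : ℝ) / ((n : ℝ) + 1)) * energy (N.sub K s θ) c) := by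
  have hn2 : (2 : ℝ) ≤ n := by exact_mod_cast hn
  have hsq : 0 ≤ Real.sqrt n := Real.sqrt_nonneg _
  have hb0 : 0 < bet n := by unfold bet; positivity
  have hb1 : bet n < 1 := by
    unfold bet
    rw [div_lt_one (by positivity)]
    linarith
  have hRv : 0 ≤ 𝒦.Rw + Real.sqrt n := by linarith
  obtain ⟨C₀, hC₀, hch⟩ := spT_child_le n (bet n) (𝒦.Rw + Real.sqrt n) Ew hb0 hb1 hRv hE
  refine ⟨C₀ * (2 * (1 + 2 * (𝒦.Rw + Real.sqrt n)) ^ (n : ℝ)) ^ bet n, by positivity, ?_⟩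
  intro k₀ K D l X hK hKl hX hD hBd ι N s c ν m θ hNl hN hsh hm hν hsl htm
  subst hNl
  have hK0 : 0 < K := by linarith
  have hl0 : 0 < N.l := by linarith
  have hsub : N.sub K s θ ⊆ s := Finset.filter_subset _ _
  rcases (N.sub K s θ).eq_empty_or_nonempty with hemp | ⟨α₀, hα₀⟩
  · have : N.fld (N.sub K s θ) c = fun _ => 0 := by
      funext z
      rw [hemp]
      simp [XArr.fld]
    rw [this, sp_N6_zero hb1]
    exact zero_le
  have hbin : ∀ α ∈ N.sub K s θ, ‖N.om α - spCtr K θ‖ ≤ Real.sqrt n / (2 * K) := by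
    intro α hα
    have h2 := sp_bin_dist hK0 (N.om α)
    rwa [(Finset.mem_filter.1 hα).2] at h2
  have hv₀ : ‖spCtr K θ‖ ≤ 𝒦.Rw + Real.sqrt n := by
    have h1 := hN.dec.freq α₀ (hsub hα₀)
    have h2 := hbin α₀ hα₀
    have h4 : Real.sqrt n / (2 * K) ≤ Real.sqrt n := div_le_self hsq (by linarith)
    have e : spCtr K θ = N.om α₀ - (N.om α₀ - spCtr K θ) := by abel
    rw [e]
    refine (norm_sub_le _ _).trans ?_
    linarith
  have hIn : (N.child K (spCtr K θ)).In (N.sub K s θ) 𝒦 := by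
    refine sp_child_in (sp_in_subset hN hsub) hK hKl fun α hα => (hbin α hα).trans ?_
    rw [div_le_div_iff₀ (by positivity) hK0]
    nlinarith
  have := sp_grow_sigmaFinite hν
  have h1 := hch K (K ^ 2) (spCtr K θ) (N.fld (N.sub K s θ) c) ((N.child K (spCtr K θ)).fld (N.sub K s θ) c) ν hK (by positivity) hv₀
    (sp_fld_continuous hIn subset_rfl c).measurable (fun z => sp_child_fld N hK0 _ _ c z)
  have hc2 : 1 ≤ 2 * (1 + 2 * (𝒦.Rw + Real.sqrt n)) ^ (n : ℝ) := by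
    have : 1 ≤ (1 + 2 * (𝒦.Rw + Real.sqrt n)) ^ (n : ℝ) := Real.one_le_rpow (by linarith) (by positivity)
    linarith
  have h2 := hBd ι (N.child K (spCtr K θ)) (N.sub K s θ) c (ν.map (pmap K (spCtr K θ)))
    (2 * (1 + 2 * (𝒦.Rw + Real.sqrt n)) ^ (n : ℝ) * m * K ^ ((n : ℝ) + 1)) rfl hIn
    (by
      show ‖K • N.sh‖ * (N.l / K) ≤ k₀
      rw [norm_smul, Real.norm_of_nonneg hK0.le]
      refine le_trans (le_of_eq ?_) hsh
      field_simp)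
    (by positivity) (inf_grow_push hν hm (by positivity) hK hv₀)
    (by
      have := inf_slab_push hsl hK0 (spCtr K θ)
      rwa [show T * N.l ^ 2 / K ^ 2 = T * (N.l / K) ^ 2 by ring] at this)
    (by
      rw [sp_child_toArr]
      refine sp_tubeMom_mono (inf_tubeMom_push htm hl0 hK0 _) hsub ?_ (by show 0 ≤ N.l / K; positivity) hD
      have : 0 ≤ m * K ^ ((n : ℝ) + 1) := by positivity
      calc m * K ^ ((n : ℝ) + 1) = 1 * (m * K ^ ((n : ℝ) + 1)) := (one_mul _).symm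
        _ ≤ 2 * (1 + 2 * (𝒦.Rw + Real.sqrt n)) ^ (n : ℝ) * (m * K ^ ((n : ℝ) + 1)) := mul_le_mul_of_nonneg_right hc2 this
        _ = _ := by ring)
  have hen : 0 ≤ energy (N.sub K s θ) c := Finset.sum_nonneg fun α _ => by positivity
  refine h1.trans ((mul_le_mul_right h2 _).trans (le_of_eq ?_))
  rw [← ENNReal.ofReal_mul (by positivity)]
  congr 1
  have e1 : (2 * (1 + 2 * (𝒦.Rw + Real.sqrt n)) ^ (n : ℝ) * m * K ^ ((n : ℝ) + 1)) ^ bet n =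
      (2 * (1 + 2 * (𝒦.Rw + Real.sqrt n)) ^ (n : ℝ)) ^ bet n * m ^ bet n * K ^ (((n : ℝ) + 1) * bet n) := by
    rw [Real.mul_rpow (by positivity) (by positivity), Real.mul_rpow (by positivity) hm, ← Real.rpow_mul hK0.le]
  have e2 : (N.l / K) ^ (2 * (n : ℝ) / ((n : ℝ) + 1)) = N.l ^ (2 * (n : ℝ) / ((n : ℝ) + 1)) * K ^ (-(2 * (n : ℝ) / ((n : ℝ) + 1))) := by
    rw [Real.div_rpow hl0.le hK0.le, Real.rpow_neg hK0.le, div_eq_mul_inv]
  rw [e1, e2]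
  calc C₀ * K ^ (((n : ℝ) + 2) * (1 - bet n) - n) * (X * K ^ (2 * ((n : ℝ) + 1)) *
        ((2 * (1 + 2 * (𝒦.Rw + Real.sqrt n)) ^ (n : ℝ)) ^ bet n * m ^ bet n * K ^ (((n : ℝ) + 1) * bet n)) *
        (N.l ^ (2 * (n : ℝ) / ((n : ℝ) + 1)) * K ^ (-(2 * (n : ℝ) / ((n : ℝ) + 1)))) * energy (N.sub K s θ) c)
      = (K ^ (((n : ℝ) + 2) * (1 - bet n) - n) * K ^ (((n : ℝ) + 1) * bet n) * K ^ (-(2 * (n : ℝ) / ((n : ℝ) + 1)))) *
        (C₀ * (2 * (1 + 2 * (𝒦.Rw + Real.sqrt n)) ^ (n : ℝ)) ^ bet n * X * K ^ (2 * ((n : ℝ) + 1)) * m ^ bet n *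
          N.l ^ (2 * (n : ℝ) / ((n : ℝ) + 1)) * energy (N.sub K s θ) c) := by ring
    _ = _ := by rw [sp_N6_pow n hK0, one_mul]

/-- L-257-SP-N7 (~150 l.).  **One transverse tuple.**   `f i = ∑_{α ∈ sub (τ i)} c_α g_α`: `sp_ext_sum`, `sp_dat`, `∫ |f i|² ≤ C₂ energy s c` (`In.bessel`, `energy` monotone), `TransvS (Q₀ K) f` from `τ ∈ N.tup …` and the supports
(as in `sp_pointwise`).   `BrW` with `l₁ = √C₅ l` (`l₁² = C₅ l²`), `l₁^(2n/(n+1) - c) ≤ max 1 C₅^(|…|) l^(…)`, `Q^κ = Q₀^κ K^κ`. -/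
theorem sp_broad_node (n : ℕ) (hn : 2 ≤ n) (𝒦 : XCls) (Ew c κ CB C₅ Q₀ : ℝ) (hC₁ : 0 ≤ 𝒦.C₁) (hC₅ : 1 ≤ C₅) (hQ₀ : 1 ≤ Q₀) (hκ : 0 ≤ κ)
    (hBr : BrW n (𝒦.Rw + 1 + 𝒦.C₁) Ew c κ CB) : ∃ C : ℝ, 0 ≤ C ∧
    ∀ (ι : Type) (N : XArr n ι) (s : Finset ι) (cf : ι → ℂ) (ν : Measure (ST n)) (m K : ℝ) (z₀ : ST n) (τ : Fin (n + 1) → Fin n → ℤ),
      N.In s 𝒦 → ‖N.sh‖ ≤ 1 → 1 ≤ K → K ≤ N.l → 0 ≤ m → Grow ν m n → ν (closedBall z₀ (C₅ * N.l ^ 2))ᶜ = 0 → τ ∈ N.tup K (Real.sqrt n + 𝒦.C₁) (Q₀ * K) s →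
      spB (bet n) (spW Ew (K ^ 2)) (fun i => N.fld (N.sub K s (τ i)) cf) ν ≤
        ENNReal.ofReal (C * K ^ (2 * κ) * m ^ bet n * N.l ^ (2 * (n : ℝ) / ((n : ℝ) + 1) - c) * energy s cf) := by
  classical
  have hC₅0 : 0 < C₅ := by linarith
  have hQ₀0 : 0 < Q₀ := by linarith
  refine ⟨max CB 0 * Q₀ ^ κ * Real.sqrt C₅ ^ (2 * (n : ℝ) / ((n : ℝ) + 1) - c) * max 𝒦.C₂ 0, by positivity, ?_⟩
  intro ι N s cf ν m K z₀ τ hN hsh hK hKl hm hν hν0 hτ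
  have hK0 : 0 < K := by linarith
  have hl : 1 ≤ N.l := hN.dec.one_le
  have hl0 : 0 < N.l := by linarith
  have hsub : ∀ θ, N.sub K s θ ⊆ s := fun θ => Finset.filter_subset _ _
  have hen : 0 ≤ energy s cf := Finset.sum_nonneg fun α _ => by positivity
  have hs5 : 1 ≤ Real.sqrt C₅ := Real.one_le_sqrt.2 hC₅
  have hl1 : (Real.sqrt C₅ * N.l) ^ 2 = C₅ * N.l ^ 2 := by rw [mul_pow, Real.sq_sqrt hC₅0.le]
  have hext : ∀ θ, ext (fun ξ => ∑ α ∈ N.sub K s θ, cf α * N.g α ξ) = N.fld (N.sub K s θ) cf := fun θ => funext (sp_ext_sum hN (hsub θ) cf)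
  have hτ2 := hτ
  unfold XArr.tup at hτ2
  rw [Finset.mem_filter] at hτ2
  have key := hBr K (Real.sqrt C₅ * N.l) (Q₀ * K) m (max 𝒦.C₂ 0 * energy s cf) ν z₀ (fun i ξ => ∑ α ∈ N.sub K s (τ i), cf α * N.g α ξ)
    hK (one_le_mul_of_one_le_of_one_le hs5 hl) (one_le_mul_of_one_le_of_one_le hQ₀ hK) hm (by positivity) hν (by rw [hl1]; exact hν0)
    (fun i => sp_dat hN hsh (hsub _) cf)
    (fun ξ hξ => hτ2.2 ξ fun i => sp_N2_supp hN hC₁ hK hKl cf (τ i) (ξ i) (hξ i))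
    (fun i => by
      refine (hN.bessel _ (hsub (τ i)) cf).trans ?_
      have h1 : energy (N.sub K s (τ i)) cf ≤ energy s cf :=
        Finset.sum_le_sum_of_subset_of_nonneg (hsub _) fun α _ _ => by positivity
      have h0 : 0 ≤ energy (N.sub K s (τ i)) cf := Finset.sum_nonneg fun α _ => by positivity
      calc 𝒦.C₂ * energy (N.sub K s (τ i)) cf ≤ max 𝒦.C₂ 0 * energy (N.sub K s (τ i)) cf :=
            mul_le_mul_of_nonneg_right (le_max_left _ _) h0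
        _ ≤ _ := mul_le_mul_of_nonneg_left h1 (le_max_right _ _))
  simp only [hext] at key
  refine key.trans (ENNReal.ofReal_le_ofReal ?_)
  have hK2 : K ^ (2 * κ) = K ^ κ * K ^ κ := by rw [two_mul, Real.rpow_add hK0]
  rw [Real.mul_rpow hQ₀0.le hK0.le, Real.mul_rpow (Real.sqrt_nonneg _) hl0.le, hK2]
  have h1 : CB ≤ max CB 0 := le_max_left _ _
  calc CB * K ^ κ * (Q₀ ^ κ * K ^ κ) * m ^ bet n * (Real.sqrt C₅ ^ (2 * (n : ℝ) / ((n : ℝ) + 1) - c) * N.l ^ (2 * (n : ℝ) / ((n : ℝ) + 1) - c)) *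
        (max 𝒦.C₂ 0 * energy s cf)
      = CB * (K ^ κ * (Q₀ ^ κ * K ^ κ) * m ^ bet n * (Real.sqrt C₅ ^ (2 * (n : ℝ) / ((n : ℝ) + 1) - c) * N.l ^ (2 * (n : ℝ) / ((n : ℝ) + 1) - c)) *
        (max 𝒦.C₂ 0 * energy s cf)) := by ring
    _ ≤ max CB 0 * (K ^ κ * (Q₀ ^ κ * K ^ κ) * m ^ bet n * (Real.sqrt C₅ ^ (2 * (n : ℝ) / ((n : ℝ) + 1) - c) * N.l ^ (2 * (n : ℝ) / ((n : ℝ) + 1) - c)) *
        (max 𝒦.C₂ 0 * energy s cf)) := mul_le_mul_of_nonneg_right h1 (by positivity)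
    _ = _ := by ring

end Claimed.Agent.R257
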