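import Claimed.Agent.R257.Sp.Fun
import Claimed.Agent.R257.Infra.ArrB

/-!
# R257 / Sp / Bro : THE BROAD ESTIMATE (H sparse.tex l.143-213, Lemma s:broad)        (captain helper7)

FINITE PROOF, no sequences, no pigeonholing of levels.   `β = 2/(n+1)`, `e = n²/(n+1)`, `F_i = ext (f i)`, `s(q) = min_i sup_q |F_i|`, `S = ∑_q ν(q)^β s(q)²` (unit cubes).
(A) `MrSupStmt` + ONE Hölder inequality:  `S ≤ (∑ ν(q)²)^(1/(n+1)) (∑ s(q)^(2(n+1)/n))^(n/(n+1))`,  `β (n+1) = 2`,  `∑ ν(q)² ≤ C m · m l^(2n)`,  `s(q)^(2(n+1)/n) ≤ ∏_i (sup_q |F_i|)^(2/n)`.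
(B) `TrStmt`: split the cubes: `ν(q) < m l^(-δ₁)` (Hölder as in (A) gains `l^(-δ₁/(n+1))`);  `ν(q) ≥ m l^(-δ₁)`, `s(q) < l^(-e-δ₂) En^(1/2)` (at most `C l^(2n+δ₁)` cubes: gain `l^(δ₁ - 2δ₂)`);
    the remaining GOOD cubes: if there are `< l^(2n-c')` of them, Hölder gains `l^(-c'/(n+1))`; otherwise they contradict `TrStmt`.
(C) geometric mean of (A) and (B): a positive power of every input norm, needed to sum the shifts of the weights.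
(D) from unit cubes to the weighted functional `spB`.
Every `sorry` is a LEAF `L-257-SP-B*`.  Statements frozen (tell helper7 at once if one looks false or awkward).  Prove IN PLACE, helper lemmas directly above, prefix `sp_<leaf>_`.
-/

set_option autoImplicit false

namespace Claimed.Agent.R257

open MeasureTheory Metric Set
open scoped ENNReal

variable {n : ℕ} {ι : Type}

/-- the unit cube broad sum -/
noncomputable def spS (n : ℕ) (ν : Measure (ST n)) (f : Fin (n + 1) → E n → ℂ) : ℝ≥0∞ :=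
  ∑' q : (Fin n → ℤ) × ℤ, ν (cube q) ^ bet n * (⨅ i, ⨆ z ∈ cube q, ‖ext (f i) z‖ₑ) ^ 2

/-- (A) with explicit constants -/
def BrA (n : ℕ) (R₀ ε κ C : ℝ) : Prop :=
  ∀ (l Q m : ℝ) (ν : Measure (ST n)) (z₀ : ST n) (f : Fin (n + 1) → E n → ℂ),
    1 ≤ l → 1 ≤ Q → 0 ≤ m → Grow ν m n → ν (closedBall z₀ (l ^ 2))ᶜ = 0 → (∀ i, Dat R₀ (f i)) → TransvS Q f →
    spS n ν f ≤ ENNReal.ofReal (C * Q ^ κ * m ^ bet n * l ^ (2 * (n : ℝ) / ((n : ℝ) + 1) + ε) * ∏ i, (∫ ξ, ‖f i ξ‖ ^ 2) ^ (1 / ((n : ℝ) + 1)))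

/-- (B) with explicit constants -/
def BrG (n : ℕ) (R₀ c κ C : ℝ) : Prop :=
  ∀ (l Q m En : ℝ) (ν : Measure (ST n)) (z₀ : ST n) (f : Fin (n + 1) → E n → ℂ),
    1 ≤ l → 1 ≤ Q → 0 ≤ m → 0 ≤ En → Grow ν m n → ν (closedBall z₀ (l ^ 2))ᶜ = 0 → (∀ i, Dat R₀ (f i)) → TransvS Q f → (∀ i, ∫ ξ, ‖f i ξ‖ ^ 2 ≤ En) →
    spS n ν f ≤ ENNReal.ofReal (C * Q ^ κ * m ^ bet n * l ^ (2 * (n : ℝ) / ((n : ℝ) + 1) - c) * En)

/-! ## cubes and masses      (leaf L-257-SP-B1, ~200 l.) -/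

/-- L-257-SP-B1.  `cube q` lies in the closed ball of radius `√n + 1 ≥ 1` about any of its points (`inf_cube_subset_ball`) -/
theorem sp_cube_mass {ν : Measure (ST n)} {m : ℝ} (h : Grow ν m n) (q : (Fin n → ℤ) × ℤ) : ν (cube q) ≤ ENNReal.ofReal (m * (Real.sqrt n + 1) ^ n) := by
  rcases (cube q : Set (ST n)).eq_empty_or_nonempty with h0 | ⟨z, hz⟩
  · rw [h0, measure_empty]
    exact zero_le
  · have h1 := h z (Real.sqrt n + 1) (by linarith [Real.sqrt_nonneg (n : ℝ)])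
    rw [Real.rpow_natCast] at h1
    exact (measure_mono (inf_cube_subset_ball q hz)).trans h1

theorem sp_B1_finite (z₀ : ST n) (r : ℝ) : {q : (Fin n → ℤ) × ℤ | (cube q ∩ closedBall z₀ r).Nonempty}.Finite := by
  refine Set.Finite.subset (Set.Finite.prod (Set.Finite.pi' fun i => Set.finite_Icc ⌊z₀.1 i - r⌋ ⌊z₀.1 i + r⌋)
    (Set.finite_Icc ⌊z₀.2 - r⌋ ⌊z₀.2 + r⌋)) ?_
  rintro q ⟨y, hy1, hy2⟩
  rw [mem_closedBall, Prod.dist_eq, max_le_iff] at hy2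
  obtain ⟨hq1, hq2, hq3⟩ := hy1
  refine ⟨fun i => ?_, ?_⟩
  · have h1 : |y.1 i - z₀.1 i| ≤ r := by
      have h2 : dist (y.1 i) (z₀.1 i) ≤ dist y.1 z₀.1 := PiLp.dist_apply_le _ _ i
      rw [Real.dist_eq] at h2
      exact h2.trans hy2.1
    rw [abs_le] at h1
    have h3 : q.1 i = ⌊y.1 i⌋ := (Int.floor_eq_iff.2 (hq1 i)).symm
    rw [h3]
    exact ⟨Int.floor_le_floor (by linarith), Int.floor_le_floor (by linarith)⟩
  · have h1 : |y.2 - z₀.2| ≤ r := by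
      rw [← Real.dist_eq]
      exact hy2.2
    rw [abs_le] at h1
    have h3 : q.2 = ⌊y.2⌋ := (Int.floor_eq_iff.2 ⟨hq2, hq3⟩).symm
    rw [h3]
    exact ⟨Int.floor_le_floor (by linarith), Int.floor_le_floor (by linarith)⟩

/-- L-257-SP-B1.  the cubes of positive mass form a finite set of cubes inside the ball of radius `l² + √n + 1` -/
theorem sp_cubes_finite {ν : Measure (ST n)} {z₀ : ST n} {r : ℝ} (h : ν (closedBall z₀ r)ᶜ = 0) :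
    ∃ Y : Finset ((Fin n → ℤ) × ℤ), (∀ q, q ∉ Y → ν (cube q) = 0) ∧ ∀ q ∈ Y, cube q ⊆ closedBall z₀ (r + Real.sqrt n + 1) := by
  refine ⟨(sp_B1_finite z₀ r).toFinset, fun q hq => ?_, fun q hq => ?_⟩
  · rw [Set.Finite.mem_toFinset, Set.mem_ofPred_eq, Set.not_nonempty_iff_eq_empty] at hq
    refine measure_mono_null (t := (closedBall z₀ r)ᶜ) (fun y hy hy' => ?_) h
    have : y ∈ cube q ∩ closedBall z₀ r := ⟨hy, hy'⟩
    rw [hq] at this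
    exact this
  · rw [Set.Finite.mem_toFinset] at hq
    obtain ⟨y, hy1, hy2⟩ := hq
    refine (inf_cube_subset_ball q hy1).trans (closedBall_subset_closedBall' ?_)
    rw [mem_closedBall] at hy2
    linarith

/-- L-257-SP-B1.  disjoint measurable cubes (`inf_cube_partition`, `inf_cube_measurable`) -/
theorem sp_sum_cube_mass (ν : Measure (ST n)) (Y : Finset ((Fin n → ℤ) × ℤ)) (S : Set (ST n)) (h : ∀ q ∈ Y, cube q ⊆ S) : ∑ q ∈ Y, ν (cube q) ≤ ν S := by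
  rw [← measure_biUnion_finset (fun q _ q' _ hqq' => ?_) fun q _ => inf_cube_measurable q]
  · exact measure_mono (Set.iUnion₂_subset h)
  · refine Set.disjoint_left.2 fun z hz hz' => hqq' ?_
    exact (inf_cube_partition z).unique hz hz'

/-- L-257-SP-B1.  Hölder with the exponents `n + 1`, `(n+1)/n` (`ENNReal.inner_le_Lp_mul_Lq`; `β (n+1) = 2`) -/
theorem sp_holder_cubes (n : ℕ) (hn : 1 ≤ n) {J : Type} (Y : Finset J) (a s : J → ℝ≥0∞) :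
    ∑ q ∈ Y, a q ^ bet n * s q ^ 2 ≤ (∑ q ∈ Y, a q ^ 2) ^ (1 / ((n : ℝ) + 1)) * (∑ q ∈ Y, s q ^ (2 * ((n : ℝ) + 1) / n)) ^ ((n : ℝ) / ((n : ℝ) + 1)) := by
  have hn0 : (0 : ℝ) < n := by exact_mod_cast (by omega : 0 < n)
  have hN : (0 : ℝ) < (n : ℝ) + 1 := by positivity
  have hpq : ((n : ℝ) + 1).HolderConjugate (((n : ℝ) + 1) / n) := by
    rw [Real.holderConjugate_iff]
    refine ⟨by linarith, ?_⟩
    field_simp
    ring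
  have h := ENNReal.inner_le_Lp_mul_Lq Y (fun q => a q ^ bet n) (fun q => s q ^ 2) hpq
  have e1 : ∀ q, (a q ^ bet n) ^ ((n : ℝ) + 1) = a q ^ 2 := by
    intro q
    rw [← ENNReal.rpow_mul, bet, div_mul_cancel₀ _ hN.ne', ENNReal.rpow_two]
  have e2 : ∀ q, (s q ^ 2) ^ (((n : ℝ) + 1) / n) = s q ^ (2 * ((n : ℝ) + 1) / n) := by
    intro q
    rw [← ENNReal.rpow_two, ← ENNReal.rpow_mul, mul_div_assoc]
  have e3 : 1 / (((n : ℝ) + 1) / n) = (n : ℝ) / ((n : ℝ) + 1) := by rw [one_div_div]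
  simp only [e1, e2, e3] at h
  exact h

/-- L-257-SP-B1.  `(min_i x_i)^(2(n+1)/n) ≤ ∏_i x_i^(2/n)` -/
theorem sp_iInf_rpow_le (n : ℕ) (hn : 1 ≤ n) (x : Fin (n + 1) → ℝ≥0∞) : (⨅ i, x i) ^ (2 * ((n : ℝ) + 1) / n) ≤ ∏ i, x i ^ (2 / (n : ℝ)) := by
  have hn0 : (0 : ℝ) < n := by exact_mod_cast (by omega : 0 < n)
  calc (⨅ i, x i) ^ (2 * ((n : ℝ) + 1) / n) = ∏ _i : Fin (n + 1), (⨅ i, x i) ^ (2 / (n : ℝ)) := by
        rw [Finset.prod_const, Finset.card_univ, Fintype.card_fin, ← ENNReal.rpow_natCast, ← ENNReal.rpow_mul]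
        congr 1
        push_cast
        ring
    _ ≤ ∏ i, x i ^ (2 / (n : ℝ)) :=
        Finset.prod_le_prod' fun i _ => ENNReal.rpow_le_rpow (iInf_le _ i) (by positivity)

/-! ## (A), (B), (C) -/

/-- abstract Hölder step -/
theorem sp_brG_holder (n : ℕ) (hn : 2 ≤ n) {J : Type} (Y : Finset J) (a : J → ℝ≥0∞) (x : J → Fin (n + 1) → ℝ≥0∞) {V W : ℝ}
    (hV0 : 0 ≤ V) (hW0 : 0 ≤ W)
    (hV : ∑ q ∈ Y, a q ^ 2 ≤ ENNReal.ofReal V) (hW : ∑ q ∈ Y, ∏ i, x q i ^ (2 / (n : ℝ)) ≤ ENNReal.ofReal W) :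
    ∑ q ∈ Y, a q ^ bet n * (⨅ i, x q i) ^ 2 ≤ ENNReal.ofReal (V ^ (1 / ((n : ℝ) + 1)) * W ^ ((n : ℝ) / ((n : ℝ) + 1))) := by
  have hN : (0 : ℝ) < (n : ℝ) + 1 := by positivity
  refine (sp_holder_cubes n (by omega) Y a fun q => ⨅ i, x q i).trans ?_
  rw [ENNReal.ofReal_mul (by positivity), ← ENNReal.ofReal_rpow_of_nonneg hV0 (by positivity),
    ← ENNReal.ofReal_rpow_of_nonneg hW0 (by positivity)]
  refine mul_le_mul' (ENNReal.rpow_le_rpow hV (by positivity)) (ENNReal.rpow_le_rpow (le_trans ?_ hW) (by positivity))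
  exact Finset.sum_le_sum fun q _ => sp_iInf_rpow_le n (by omega) (x q)

/-- the total mass of cubes near the ball of radius `l²` -/
theorem sp_brG_total {ν : Measure (ST n)} {m l : ℝ} (hg : Grow ν m n) (hl : 1 ≤ l) {z₀ : ST n}
    (Y : Finset ((Fin n → ℤ) × ℤ)) (hY : ∀ q ∈ Y, cube q ⊆ closedBall z₀ (l ^ 2 + Real.sqrt n + 1)) :
    ∑ q ∈ Y, ν (cube q) ≤ ENNReal.ofReal (m * ((Real.sqrt n + 2) ^ n * l ^ (2 * (n : ℝ)))) := by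
  have hl0 : 0 < l := by linarith
  have hs : 0 ≤ Real.sqrt n := Real.sqrt_nonneg _
  have hl2 : 1 ≤ l ^ 2 := one_le_pow₀ hl
  have hS1 : l ^ 2 + Real.sqrt n + 1 ≤ (Real.sqrt n + 2) * l ^ 2 := by nlinarith
  have h1 := sp_sum_cube_mass ν Y _ fun q hq => (hY q hq).trans (closedBall_subset_closedBall hS1)
  refine (h1.trans (hg z₀ _ (by linarith))).trans (le_of_eq ?_)
  rw [Real.mul_rpow (by positivity) (by positivity), Real.rpow_natCast, ← Real.rpow_natCast l 2, ← Real.rpow_mul hl0.le]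
  push_cast
  rfl

/-- the Hölder step with the product of the energies -/
theorem sp_brA_piece (n : ℕ) (hn : 2 ≤ n) {R₀ ε C M : ℝ}
    (h : ∀ (S Q : ℝ) (Y : Finset ((Fin n → ℤ) × ℤ)) (z₀ : ST n) (f : Fin (n + 1) → E n → ℂ),
      1 ≤ S → 1 ≤ Q → (∀ q ∈ Y, cube q ⊆ closedBall z₀ S) → (∀ i, Dat R₀ (f i)) → TransvS Q f →
      ∑ q ∈ Y, ∏ i, (⨆ z ∈ cube q, ‖ext (f i) z‖ₑ) ^ (2 / (n : ℝ)) ≤
        ENNReal.ofReal (C * Q ^ M * S ^ ε * ∏ i, (∫ ξ, ‖f i ξ‖ ^ 2) ^ (1 / (n : ℝ))))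
    {l Q m K γ : ℝ} {ν : Measure (ST n)} {Y : Finset ((Fin n → ℤ) × ℤ)} {z₀ : ST n} {f : Fin (n + 1) → E n → ℂ}
    (hε : 0 ≤ ε) (hl : 1 ≤ l) (hQ : 1 ≤ Q) (hm : 0 ≤ m) (hK : 0 ≤ K)
    (hY : ∀ q ∈ Y, cube q ⊆ closedBall z₀ (l ^ 2 + Real.sqrt n + 1)) (hd : ∀ i, Dat R₀ (f i)) (ht : TransvS Q f)
    (hV : ∑ q ∈ Y, ν (cube q) ^ 2 ≤ ENNReal.ofReal (K * m ^ 2 * l ^ γ)) :
    ∑ q ∈ Y, ν (cube q) ^ bet n * (⨅ i, ⨆ z ∈ cube q, ‖ext (f i) z‖ₑ) ^ 2 ≤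
      ENNReal.ofReal (K ^ (1 / ((n : ℝ) + 1)) * ((1 + |C|) * (Real.sqrt n + 2) ^ ε) * Q ^ |M| * m ^ bet n
        * l ^ (γ / ((n : ℝ) + 1) + 2 * ε) * ∏ i, (∫ ξ, ‖f i ξ‖ ^ 2) ^ (1 / ((n : ℝ) + 1))) := by
  have hn0 : (0 : ℝ) < n := by exact_mod_cast (by omega : 0 < n)
  have hN : (0 : ℝ) < (n : ℝ) + 1 := by positivity
  have hl0 : 0 < l := by linarith
  have hs : 0 ≤ Real.sqrt n := Real.sqrt_nonneg _
  have hl2 : 1 ≤ l ^ 2 := one_le_pow₀ hl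
  have h0 : ∀ i, 0 ≤ ∫ ξ, ‖f i ξ‖ ^ 2 := fun i => integral_nonneg fun ξ => by positivity
  obtain ⟨S, hSd⟩ : ∃ S : ℝ, S = (Real.sqrt n + 2) * l ^ 2 := ⟨_, rfl⟩
  have hS1 : l ^ 2 + Real.sqrt n + 1 ≤ S := by rw [hSd]; nlinarith
  have hS : 1 ≤ S := by linarith
  have hY' : ∀ q ∈ Y, cube q ⊆ closedBall z₀ S := fun q hq => (hY q hq).trans (closedBall_subset_closedBall hS1)
  obtain ⟨B, hB⟩ : ∃ B : ℝ, B = (1 + |C|) * Q ^ |M| * S ^ ε := ⟨_, rfl⟩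
  obtain ⟨P, hP⟩ : ∃ P : ℝ, P = ∏ i, (∫ ξ, ‖f i ξ‖ ^ 2) ^ (1 / (n : ℝ)) := ⟨_, rfl⟩
  have hP0 : 0 ≤ P := by rw [hP]; exact Finset.prod_nonneg fun i _ => Real.rpow_nonneg (h0 i) _
  have hCB : C * Q ^ M * S ^ ε ≤ B := by
    rw [hB]
    have h4 : Q ^ M ≤ Q ^ |M| := Real.rpow_le_rpow_of_exponent_le hQ (le_abs_self M)
    have h5 : 0 ≤ Q ^ M := by positivity
    have h6 : 0 ≤ S ^ ε := by positivity
    refine mul_le_mul_of_nonneg_right ?_ h6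
    calc C * Q ^ M ≤ (1 + |C|) * Q ^ M := mul_le_mul_of_nonneg_right (by linarith [le_abs_self C]) h5
      _ ≤ (1 + |C|) * Q ^ |M| := mul_le_mul_of_nonneg_left h4 (by positivity)
  have hW : ∑ q ∈ Y, ∏ i, (⨆ z ∈ cube q, ‖ext (f i) z‖ₑ) ^ (2 / (n : ℝ)) ≤ ENNReal.ofReal (B * P) := by
    refine (h S Q Y z₀ f hS hQ hY' hd ht).trans (ENNReal.ofReal_le_ofReal ?_)
    rw [← hP]
    exact mul_le_mul_of_nonneg_right hCB hP0
  have hB1 : 1 ≤ B := by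
    rw [hB]
    have h1 : 1 ≤ 1 + |C| := by linarith [abs_nonneg C]
    have h2 : 1 ≤ Q ^ |M| := Real.one_le_rpow hQ (abs_nonneg M)
    have h3 : 1 ≤ S ^ ε := Real.one_le_rpow hS hε
    calc (1 : ℝ) = 1 * 1 * 1 := by ring
      _ ≤ (1 + |C|) * Q ^ |M| * S ^ ε := by gcongr
  have hB0 : 0 ≤ B := by linarith
  refine (sp_brG_holder n hn Y (fun q => ν (cube q)) (fun q i => ⨆ z ∈ cube q, ‖ext (f i) z‖ₑ) (by positivity)
    (by positivity) hV hW).trans (ENNReal.ofReal_le_ofReal ?_)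
  have e1 : (K * m ^ 2 * l ^ γ) ^ (1 / ((n : ℝ) + 1)) = K ^ (1 / ((n : ℝ) + 1)) * m ^ bet n * l ^ (γ / ((n : ℝ) + 1)) := by
    rw [Real.mul_rpow (by positivity) (by positivity), Real.mul_rpow hK (by positivity), ← Real.rpow_natCast m 2,
      ← Real.rpow_mul hm, ← Real.rpow_mul hl0.le, bet]
    congr 2
    · congr 1
      push_cast
      ring
    · ring
  have e2 : (B * P) ^ ((n : ℝ) / ((n : ℝ) + 1))
      = B ^ ((n : ℝ) / ((n : ℝ) + 1)) * ∏ i, (∫ ξ, ‖f i ξ‖ ^ 2) ^ (1 / ((n : ℝ) + 1)) := by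
    rw [Real.mul_rpow hB0 hP0, hP, ← Real.finsetProd_rpow _ _ fun i _ => Real.rpow_nonneg (h0 i) _]
    congr 1
    refine Finset.prod_congr rfl fun i _ => ?_
    rw [← Real.rpow_mul (h0 i)]
    congr 1
    field_simp
  have e3 : B ^ ((n : ℝ) / ((n : ℝ) + 1)) ≤ B := by
    have : (n : ℝ) / ((n : ℝ) + 1) ≤ 1 := by rw [div_le_one hN]; linarith
    calc B ^ ((n : ℝ) / ((n : ℝ) + 1)) ≤ B ^ (1 : ℝ) := Real.rpow_le_rpow_of_exponent_le hB1 this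
      _ = B := Real.rpow_one B
  have e4 : S ^ ε = (Real.sqrt n + 2) ^ ε * l ^ (2 * ε) := by
    rw [hSd, Real.mul_rpow (by positivity) (by positivity), ← Real.rpow_natCast l 2, ← Real.rpow_mul hl0.le]
    push_cast
    rfl
  have hP' : 0 ≤ ∏ i, (∫ ξ, ‖f i ξ‖ ^ 2) ^ (1 / ((n : ℝ) + 1)) := Finset.prod_nonneg fun i _ => Real.rpow_nonneg (h0 i) _
  rw [e1, e2, Real.rpow_add hl0]
  calc K ^ (1 / ((n : ℝ) + 1)) * m ^ bet n * l ^ (γ / ((n : ℝ) + 1))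
        * (B ^ ((n : ℝ) / ((n : ℝ) + 1)) * ∏ i, (∫ ξ, ‖f i ξ‖ ^ 2) ^ (1 / ((n : ℝ) + 1)))
      ≤ K ^ (1 / ((n : ℝ) + 1)) * m ^ bet n * l ^ (γ / ((n : ℝ) + 1))
        * (B * ∏ i, (∫ ξ, ‖f i ξ‖ ^ 2) ^ (1 / ((n : ℝ) + 1))) := by gcongr
    _ = _ := by rw [hB, e4]; ring

/-- L-257-SP-B2 (~200 l.).  **(A)**.   `Y` from `sp_cubes_finite` (`r = l²`), `S₁ = (√n + 2) l² ≥ l² + √n + 1`;  `MrSupStmt` with `ε/2`, `S = S₁`;  `∑_Y ν(q)² ≤ (max ν(q)) ν(ball) ≤ C m · m (S₁)^n`. -/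
theorem sp_brA (n : ℕ) (hn : 2 ≤ n) (hMr : MrSupStmt n) (R₀ ε : ℝ) (hε : 0 < ε) : ∃ κ C : ℝ, 0 ≤ κ ∧ 0 ≤ C ∧ BrA n R₀ ε κ C := by
  obtain ⟨CM, MM, hM⟩ := hMr R₀ (ε / 2) (by positivity)
  have hs : 0 ≤ Real.sqrt n := Real.sqrt_nonneg _
  refine ⟨|MM|, ((Real.sqrt n + 1) ^ n * (Real.sqrt n + 2) ^ n) ^ (1 / ((n : ℝ) + 1)) * ((1 + |CM|) * (Real.sqrt n + 2) ^ (ε / 2)),
    abs_nonneg _, by positivity, ?_⟩
  intro l Q m ν z₀ f hl hQ hm hg hsupp hd ht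
  have hβ : 0 < bet n := by unfold bet; positivity
  obtain ⟨Y, hY0, hYb⟩ := sp_cubes_finite hsupp
  have hsum : spS n ν f = ∑ q ∈ Y, ν (cube q) ^ bet n * (⨅ i, ⨆ z ∈ cube q, ‖ext (f i) z‖ₑ) ^ 2 := by
    unfold spS
    refine tsum_eq_sum fun q hq => ?_
    rw [hY0 q hq, ENNReal.zero_rpow_of_pos hβ, zero_mul]
  have hV : ∑ q ∈ Y, ν (cube q) ^ 2 ≤ ENNReal.ofReal ((Real.sqrt n + 1) ^ n * (Real.sqrt n + 2) ^ n * m ^ 2 * l ^ (2 * (n : ℝ))) := by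
    calc ∑ q ∈ Y, ν (cube q) ^ 2 ≤ ∑ q ∈ Y, ENNReal.ofReal (m * (Real.sqrt n + 1) ^ n) * ν (cube q) :=
          Finset.sum_le_sum fun q _ => by rw [sq]; exact mul_le_mul' (sp_cube_mass hg q) le_rfl
      _ = ENNReal.ofReal (m * (Real.sqrt n + 1) ^ n) * ∑ q ∈ Y, ν (cube q) := by rw [Finset.mul_sum]
      _ ≤ ENNReal.ofReal (m * (Real.sqrt n + 1) ^ n) * ENNReal.ofReal (m * ((Real.sqrt n + 2) ^ n * l ^ (2 * (n : ℝ)))) :=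
          mul_le_mul' le_rfl (sp_brG_total hg hl Y hYb)
      _ = _ := by
          rw [← ENNReal.ofReal_mul (by positivity)]
          congr 1
          ring
  have h1 := sp_brA_piece n hn hM (by positivity) hl hQ hm (by positivity) hYb hd ht hV
  rw [hsum]
  refine h1.trans (le_of_eq ?_)
  rw [show 2 * (ε / 2) = ε by ring]

/-- the product of the energies -/
theorem sp_brG_prod_le (n : ℕ) {p En : ℝ} (hp : 0 ≤ p) (e : Fin (n + 1) → ℝ) (h0 : ∀ i, 0 ≤ e i) (h : ∀ i, e i ≤ En) :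
    ∏ i, e i ^ p ≤ En ^ (((n : ℝ) + 1) * p) := by
  have hEn : 0 ≤ En := (h0 0).trans (h 0)
  calc ∏ i, e i ^ p ≤ ∏ _i : Fin (n + 1), En ^ p :=
        Finset.prod_le_prod (fun i _ => Real.rpow_nonneg (h0 i) _) fun i _ => Real.rpow_le_rpow (h0 i) (h i) hp
    _ = En ^ (((n : ℝ) + 1) * p) := by
        rw [Finset.prod_const, Finset.card_univ, Fintype.card_fin, ← Real.rpow_natCast, ← Real.rpow_mul hEn, mul_comm]
        push_cast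
        rfl

/-- `MrSupStmt` with nonnegative constants and a common energy bound -/
theorem sp_brG_mr (n : ℕ) (hn : 2 ≤ n) {R₀ ε C M : ℝ}
    (h : ∀ (S Q : ℝ) (Y : Finset ((Fin n → ℤ) × ℤ)) (z₀ : ST n) (f : Fin (n + 1) → E n → ℂ),
      1 ≤ S → 1 ≤ Q → (∀ q ∈ Y, cube q ⊆ closedBall z₀ S) → (∀ i, Dat R₀ (f i)) → TransvS Q f →
      ∑ q ∈ Y, ∏ i, (⨆ z ∈ cube q, ‖ext (f i) z‖ₑ) ^ (2 / (n : ℝ)) ≤
        ENNReal.ofReal (C * Q ^ M * S ^ ε * ∏ i, (∫ ξ, ‖f i ξ‖ ^ 2) ^ (1 / (n : ℝ))))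
    {S Q En : ℝ} {Y : Finset ((Fin n → ℤ) × ℤ)} {z₀ : ST n} {f : Fin (n + 1) → E n → ℂ}
    (hS : 1 ≤ S) (hQ : 1 ≤ Q) (hY : ∀ q ∈ Y, cube q ⊆ closedBall z₀ S) (hd : ∀ i, Dat R₀ (f i)) (ht : TransvS Q f)
    (hEn : ∀ i, ∫ ξ, ‖f i ξ‖ ^ 2 ≤ En) :
    ∑ q ∈ Y, ∏ i, (⨆ z ∈ cube q, ‖ext (f i) z‖ₑ) ^ (2 / (n : ℝ)) ≤
      ENNReal.ofReal (((1 + |C|) * Q ^ |M| * S ^ ε) * En ^ (((n : ℝ) + 1) * (1 / (n : ℝ)))) := by
  refine (h S Q Y z₀ f hS hQ hY hd ht).trans (ENNReal.ofReal_le_ofReal ?_)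
  have h0 : ∀ i, 0 ≤ ∫ ξ, ‖f i ξ‖ ^ 2 := fun i => integral_nonneg fun ξ => by positivity
  have h1 := sp_brG_prod_le n (p := 1 / (n : ℝ)) (by positivity) (fun i => ∫ ξ, ‖f i ξ‖ ^ 2) h0 hEn
  have h2 : 0 ≤ ∏ i, (∫ ξ, ‖f i ξ‖ ^ 2) ^ (1 / (n : ℝ)) := Finset.prod_nonneg fun i _ => Real.rpow_nonneg (h0 i) _
  have h3 : C * Q ^ M * S ^ ε ≤ (1 + |C|) * Q ^ |M| * S ^ ε := by
    have h4 : Q ^ M ≤ Q ^ |M| := Real.rpow_le_rpow_of_exponent_le hQ (le_abs_self M)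
    have h5 : 0 ≤ Q ^ M := by positivity
    have h6 : 0 ≤ S ^ ε := by positivity
    refine mul_le_mul_of_nonneg_right ?_ h6
    calc C * Q ^ M ≤ (1 + |C|) * Q ^ M := mul_le_mul_of_nonneg_right (by linarith [le_abs_self C]) h5
      _ ≤ (1 + |C|) * Q ^ |M| := mul_le_mul_of_nonneg_left h4 (by positivity)
  exact mul_le_mul h3 h1 h2 (by positivity)

/-- the Hölder piece: `∑ ν(q)² ≤ K m² l^γ` -/
theorem sp_brG_piece (n : ℕ) (hn : 2 ≤ n) {R₀ ε C M : ℝ}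
    (h : ∀ (S Q : ℝ) (Y : Finset ((Fin n → ℤ) × ℤ)) (z₀ : ST n) (f : Fin (n + 1) → E n → ℂ),
      1 ≤ S → 1 ≤ Q → (∀ q ∈ Y, cube q ⊆ closedBall z₀ S) → (∀ i, Dat R₀ (f i)) → TransvS Q f →
      ∑ q ∈ Y, ∏ i, (⨆ z ∈ cube q, ‖ext (f i) z‖ₑ) ^ (2 / (n : ℝ)) ≤
        ENNReal.ofReal (C * Q ^ M * S ^ ε * ∏ i, (∫ ξ, ‖f i ξ‖ ^ 2) ^ (1 / (n : ℝ))))
    {l Q m En K γ : ℝ} {ν : Measure (ST n)} {Y : Finset ((Fin n → ℤ) × ℤ)} {z₀ : ST n} {f : Fin (n + 1) → E n → ℂ}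
    (hε : 0 ≤ ε) (hl : 1 ≤ l) (hQ : 1 ≤ Q) (hm : 0 ≤ m) (hK : 0 ≤ K)
    (hY : ∀ q ∈ Y, cube q ⊆ closedBall z₀ (l ^ 2 + Real.sqrt n + 1)) (hd : ∀ i, Dat R₀ (f i)) (ht : TransvS Q f)
    (hEn : ∀ i, ∫ ξ, ‖f i ξ‖ ^ 2 ≤ En)
    (hV : ∑ q ∈ Y, ν (cube q) ^ 2 ≤ ENNReal.ofReal (K * m ^ 2 * l ^ γ)) :
    ∑ q ∈ Y, ν (cube q) ^ bet n * (⨅ i, ⨆ z ∈ cube q, ‖ext (f i) z‖ₑ) ^ 2 ≤
      ENNReal.ofReal (K ^ (1 / ((n : ℝ) + 1)) * ((1 + |C|) * (Real.sqrt n + 2) ^ ε) * Q ^ |M| * m ^ bet n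
        * l ^ (γ / ((n : ℝ) + 1) + 2 * ε) * En) := by
  have hn0 : (0 : ℝ) < n := by exact_mod_cast (by omega : 0 < n)
  have hN : (0 : ℝ) < (n : ℝ) + 1 := by positivity
  have hl0 : 0 < l := by linarith
  have hs : 0 ≤ Real.sqrt n := Real.sqrt_nonneg _
  have hl2 : 1 ≤ l ^ 2 := one_le_pow₀ hl
  have hEn0 : 0 ≤ En := le_trans (integral_nonneg fun ξ => by positivity) (hEn 0)
  obtain ⟨S, hSd⟩ : ∃ S : ℝ, S = (Real.sqrt n + 2) * l ^ 2 := ⟨_, rfl⟩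
  have hS1 : l ^ 2 + Real.sqrt n + 1 ≤ S := by rw [hSd]; nlinarith
  have hS : 1 ≤ S := by linarith
  have hY' : ∀ q ∈ Y, cube q ⊆ closedBall z₀ S := fun q hq => (hY q hq).trans (closedBall_subset_closedBall hS1)
  have hW := sp_brG_mr n hn h hS hQ hY' hd ht hEn
  obtain ⟨B, hB⟩ : ∃ B : ℝ, B = (1 + |C|) * Q ^ |M| * S ^ ε := ⟨_, rfl⟩
  rw [← hB] at hW
  have hB1 : 1 ≤ B := by
    rw [hB]
    have h1 : 1 ≤ 1 + |C| := by linarith [abs_nonneg C]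
    have h2 : 1 ≤ Q ^ |M| := Real.one_le_rpow hQ (abs_nonneg M)
    have h3 : 1 ≤ S ^ ε := Real.one_le_rpow hS hε
    calc (1 : ℝ) = 1 * 1 * 1 := by ring
      _ ≤ (1 + |C|) * Q ^ |M| * S ^ ε := by gcongr
  have hB0 : 0 ≤ B := by linarith
  refine (sp_brG_holder n hn Y (fun q => ν (cube q)) (fun q i => ⨆ z ∈ cube q, ‖ext (f i) z‖ₑ) (by positivity)
    (by positivity) hV hW).trans (ENNReal.ofReal_le_ofReal ?_)
  have e1 : (K * m ^ 2 * l ^ γ) ^ (1 / ((n : ℝ) + 1)) = K ^ (1 / ((n : ℝ) + 1)) * m ^ bet n * l ^ (γ / ((n : ℝ) + 1)) := by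
    rw [Real.mul_rpow (by positivity) (by positivity), Real.mul_rpow hK (by positivity), ← Real.rpow_natCast m 2,
      ← Real.rpow_mul hm, ← Real.rpow_mul hl0.le, bet]
    congr 2
    · congr 1
      push_cast
      ring
    · ring
  have e2 : (B * En ^ (((n : ℝ) + 1) * (1 / (n : ℝ)))) ^ ((n : ℝ) / ((n : ℝ) + 1)) = B ^ ((n : ℝ) / ((n : ℝ) + 1)) * En := by
    rw [Real.mul_rpow hB0 (by positivity), ← Real.rpow_mul hEn0]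
    have : ((n : ℝ) + 1) * (1 / (n : ℝ)) * ((n : ℝ) / ((n : ℝ) + 1)) = 1 := by field_simp
    rw [this, Real.rpow_one]
  have e3 : B ^ ((n : ℝ) / ((n : ℝ) + 1)) ≤ B := by
    have : (n : ℝ) / ((n : ℝ) + 1) ≤ 1 := by rw [div_le_one hN]; linarith
    calc B ^ ((n : ℝ) / ((n : ℝ) + 1)) ≤ B ^ (1 : ℝ) := Real.rpow_le_rpow_of_exponent_le hB1 this
      _ = B := Real.rpow_one B
  have e4 : S ^ ε = (Real.sqrt n + 2) ^ ε * l ^ (2 * ε) := by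
    rw [hSd, Real.mul_rpow (by positivity) (by positivity), ← Real.rpow_natCast l 2, ← Real.rpow_mul hl0.le]
    push_cast
    rfl
  rw [e1, e2, Real.rpow_add hl0]
  calc K ^ (1 / ((n : ℝ) + 1)) * m ^ bet n * l ^ (γ / ((n : ℝ) + 1)) * (B ^ ((n : ℝ) / ((n : ℝ) + 1)) * En)
      ≤ K ^ (1 / ((n : ℝ) + 1)) * m ^ bet n * l ^ (γ / ((n : ℝ) + 1)) * (B * En) := by gcongr
    _ = _ := by rw [hB, e4]; ring

/-- counting heavy cubes inside a ball -/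
theorem sp_brG_count {ν : Measure (ST n)} {m θ r : ℝ} (hg : Grow ν m n) (hm : 0 ≤ m) (hr : 1 ≤ r) (z : ST n)
    (t : Finset ((Fin n → ℤ) × ℤ)) (hb : ∀ q ∈ t, cube q ⊆ closedBall z r) (hθ : ∀ q ∈ t, ENNReal.ofReal θ ≤ ν (cube q)) :
    (t.card : ℝ) * θ ≤ m * r ^ n := by
  have h1 : ∑ q ∈ t, ν (cube q) ≤ ν (closedBall z r) := sp_sum_cube_mass ν t _ hb
  have h2 : (t.card : ℝ≥0∞) * ENNReal.ofReal θ ≤ ∑ q ∈ t, ν (cube q) := by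
    rw [← nsmul_eq_mul, ← Finset.sum_const]
    exact Finset.sum_le_sum hθ
  have h3 := (h2.trans h1).trans (hg z r hr)
  rw [← ENNReal.ofReal_natCast, ← ENNReal.ofReal_mul (by positivity), ENNReal.ofReal_le_ofReal_iff (by positivity),
    Real.rpow_natCast] at h3
  exact h3

theorem sp_brG_ext_smul (c : ℂ) (g : E n → ℂ) (z : ST n) : ext (fun ξ => c * g ξ) z = c * ext g z := by
  unfold ext
  rw [← integral_const_mul]
  refine integral_congr_ae (Filter.Eventually.of_forall fun ξ => ?_)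
  simp only
  ring

theorem sp_brG_dat_smul {R₀ : ℝ} {g : E n → ℂ} (hg : Dat R₀ g) (c : ℂ) : Dat R₀ fun ξ => c * g ξ where
  meas := measurable_const.mul hg.meas
  supp := fun ξ hξ => hg.supp ξ (right_ne_zero_of_mul hξ)
  l2 := hg.l2.const_mul c

theorem sp_brG_energy_smul (c : ℝ) (g : E n → ℂ) : ∫ ξ, ‖(c : ℂ) * g ξ‖ ^ 2 = c ^ 2 * ∫ ξ, ‖g ξ‖ ^ 2 := by
  rw [← integral_const_mul]
  refine integral_congr_ae (Filter.Eventually.of_forall fun ξ => ?_)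
  simp only [norm_mul, Complex.norm_real, Real.norm_eq_abs, mul_pow, sq_abs]

/-- the GOOD cubes are few -/
theorem sp_brG_good (n : ℕ) (hn : 2 ≤ n) {R₀ cT L₀ : ℝ} (hcT : 0 < cT)
    (hT : ∀ (L : ℝ) (Y : Finset ((Fin n → ℤ) × ℤ)) (z₀ : ST n) (f : Fin (n + 1) → E n → ℂ),
      L₀ ≤ L → (∀ q ∈ Y, cube q ⊆ closedBall z₀ (L ^ 2)) → L ^ (2 * (n : ℝ) - cT) ≤ (Y.card : ℝ) →
      (∀ (z : ST n) (r : ℝ) (t : Finset ((Fin n → ℤ) × ℤ)), 1 ≤ r → t ⊆ Y → (∀ q ∈ t, (cube q ∩ closedBall z r).Nonempty) →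
        (t.card : ℝ) ≤ L ^ cT * r ^ n) →
      (∀ i, Dat R₀ (f i)) → (∀ i, ∫ ξ, ‖f i ξ‖ ^ 2 ≤ 1) →
      (∀ q ∈ Y, ∀ i, ∃ z ∈ cube q, L ^ (-(eex n) - cT) ≤ ‖ext (f i) z‖) →
      TransvS (L ^ cT) f → False)
    {δ l Q m En : ℝ} {ν : Measure (ST n)} {G : Finset ((Fin n → ℤ) × ℤ)} {z₀ : ST n} {f : Fin (n + 1) → E n → ℂ}
    (hδ : δ ≤ cT) (hl : 1 ≤ l) (hl1 : L₀ ≤ 2 * l) (hl2 : Real.sqrt n + 1 ≤ l) (hl3 : (Real.sqrt n + 2) ^ n * l ^ δ ≤ l ^ cT)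
    (hQ : Q ≤ l ^ cT) (hm : 0 < m) (hEn : 0 < En) (hg : Grow ν m n) (hd : ∀ i, Dat R₀ (f i)) (ht : TransvS Q f)
    (hen : ∀ i, ∫ ξ, ‖f i ξ‖ ^ 2 ≤ En)
    (hGb : ∀ q ∈ G, cube q ⊆ closedBall z₀ (l ^ 2 + Real.sqrt n + 1))
    (hGm : ∀ q ∈ G, ENNReal.ofReal (m * l ^ (-δ)) ≤ ν (cube q))
    (hGs : ∀ q ∈ G, ENNReal.ofReal (l ^ (-(eex n) - δ) * Real.sqrt En) ≤ ⨅ i, ⨆ z ∈ cube q, ‖ext (f i) z‖ₑ) :
    (G.card : ℝ) < (2 * l) ^ (2 * (n : ℝ) - cT) := by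
  by_contra hcon
  rw [not_lt] at hcon
  have hl0 : 0 < l := by linarith
  have hs : 0 ≤ Real.sqrt n := Real.sqrt_nonneg _
  obtain ⟨c, hc⟩ : ∃ c : ℝ, c = (Real.sqrt En)⁻¹ := ⟨_, rfl⟩
  have hsq : 0 < Real.sqrt En := Real.sqrt_pos.2 hEn
  have hc0 : 0 < c := by rw [hc]; positivity
  have hll : l ^ cT ≤ (2 * l) ^ cT := Real.rpow_le_rpow hl0.le (by linarith) hcT.le
  refine hT (2 * l) G z₀ (fun i ξ => (c : ℂ) * f i ξ) hl1 ?_ hcon ?_ (fun i => sp_brG_dat_smul (hd i) _) ?_ ?_ ?_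
  · intro q hq
    refine (hGb q hq).trans (closedBall_subset_closedBall ?_)
    nlinarith
  · intro z r t hr hts hne
    have hb : ∀ q ∈ t, cube q ⊆ closedBall z (r + (Real.sqrt n + 1)) := by
      intro q hq
      obtain ⟨y, hy1, hy2⟩ := hne q hq
      refine (inf_cube_subset_ball q hy1).trans (closedBall_subset_closedBall' ?_)
      rw [mem_closedBall] at hy2
      linarith
    have h1 := sp_brG_count hg hm.le (by linarith) z t hb (fun q hq => hGm q (hts hq))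
    have h2 : (r + (Real.sqrt n + 1)) ^ n ≤ (Real.sqrt n + 2) ^ n * r ^ n := by
      rw [← mul_pow]
      refine pow_le_pow_left₀ (by linarith) ?_ n
      nlinarith
    have hlδ : 0 < l ^ δ := Real.rpow_pos_of_pos hl0 _
    have h3 : (t.card : ℝ) = (t.card : ℝ) * (m * l ^ (-δ)) * (m⁻¹ * l ^ δ) := by
      rw [Real.rpow_neg hl0.le]
      field_simp
    have h4 : (t.card : ℝ) ≤ (Real.sqrt n + 2) ^ n * l ^ δ * r ^ n := by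
      rw [h3]
      calc (t.card : ℝ) * (m * l ^ (-δ)) * (m⁻¹ * l ^ δ) ≤ (m * ((Real.sqrt n + 2) ^ n * r ^ n)) * (m⁻¹ * l ^ δ) := by
            refine mul_le_mul_of_nonneg_right (h1.trans ?_) (by positivity)
            exact mul_le_mul_of_nonneg_left h2 hm.le
        _ = (Real.sqrt n + 2) ^ n * l ^ δ * r ^ n := by field_simp
    exact h4.trans (mul_le_mul_of_nonneg_right (hl3.trans hll) (by positivity))
  · intro i
    rw [sp_brG_energy_smul]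
    have h1 : c ^ 2 = En⁻¹ := by rw [hc, inv_pow, Real.sq_sqrt hEn.le]
    rw [h1]
    calc En⁻¹ * ∫ ξ, ‖f i ξ‖ ^ 2 ≤ En⁻¹ * En := mul_le_mul_of_nonneg_left (hen i) (by positivity)
      _ = 1 := inv_mul_cancel₀ hEn.ne'
  · intro q hq i
    obtain ⟨θ, hθ⟩ : ∃ θ : ℝ, θ = l ^ (-(eex n) - δ) * Real.sqrt En := ⟨_, rfl⟩
    have hθ0 : 0 < θ := by rw [hθ]; positivity
    have h1 : ENNReal.ofReal θ ≤ ⨆ z ∈ cube q, ‖ext (f i) z‖ₑ := by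
      rw [hθ]
      exact (hGs q hq).trans (iInf_le _ i)
    have h2 : ENNReal.ofReal (θ / 2) < ⨆ z ∈ cube q, ‖ext (f i) z‖ₑ :=
      lt_of_lt_of_le ((ENNReal.ofReal_lt_ofReal_iff hθ0).2 (by linarith)) h1
    obtain ⟨z, hz⟩ := lt_iSup_iff.1 h2
    obtain ⟨hzq, hz⟩ := lt_iSup_iff.1 hz
    refine ⟨z, hzq, ?_⟩
    rw [← ofReal_norm, ENNReal.ofReal_lt_ofReal_iff_of_nonneg (by positivity)] at hz
    rw [sp_brG_ext_smul, norm_mul, Complex.norm_real, Real.norm_of_nonneg hc0.le]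
    have he : 1 ≤ eex n := by
      have hn2 : (2 : ℝ) ≤ n := by exact_mod_cast hn
      rw [eex, le_div_iff₀ (by positivity)]
      nlinarith
    have h3 : (2 * l) ^ (-(eex n) - cT) ≤ l ^ (-(eex n) - δ) / 2 := by
      rw [Real.mul_rpow (by norm_num) hl0.le]
      have h4 : (2 : ℝ) ^ (-(eex n) - cT) ≤ 2 ^ (-1 : ℝ) := Real.rpow_le_rpow_of_exponent_le (by norm_num) (by linarith)
      have h5 : l ^ (-(eex n) - cT) ≤ l ^ (-(eex n) - δ) := Real.rpow_le_rpow_of_exponent_le hl (by linarith)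
      have h6 : (2 : ℝ) ^ (-1 : ℝ) = 1 / 2 := by rw [Real.rpow_neg_one]; norm_num
      rw [h6] at h4
      calc (2 : ℝ) ^ (-(eex n) - cT) * l ^ (-(eex n) - cT) ≤ 1 / 2 * l ^ (-(eex n) - δ) :=
            mul_le_mul h4 h5 (by positivity) (by norm_num)
        _ = l ^ (-(eex n) - δ) / 2 := by ring
    refine h3.trans ?_
    have h7 : l ^ (-(eex n) - δ) / 2 = c * (θ / 2) := by
      rw [hθ, hc]
      field_simp
    rw [h7]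
    exact mul_le_mul_of_nonneg_left hz.le hc0.le
  · intro ξ hξ t
    have h1 := ht ξ (fun i => right_ne_zero_of_mul (hξ i)) t
    exact h1.trans (mul_le_mul_of_nonneg_right (hQ.trans hll) (by positivity))

/-- the number of heavy cubes near the ball of radius `l²` -/
theorem sp_brG_heavy {ν : Measure (ST n)} {m l δ : ℝ} (hg : Grow ν m n) (hm : 0 < m) (hl : 1 ≤ l) {z₀ : ST n}
    (Y : Finset ((Fin n → ℤ) × ℤ)) (hY : ∀ q ∈ Y, cube q ⊆ closedBall z₀ (l ^ 2 + Real.sqrt n + 1))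
    (hYm : ∀ q ∈ Y, ENNReal.ofReal (m * l ^ (-δ)) ≤ ν (cube q)) :
    (Y.card : ℝ) ≤ (Real.sqrt n + 2) ^ n * l ^ (2 * (n : ℝ) + δ) := by
  have hl0 : 0 < l := by linarith
  have hs : 0 ≤ Real.sqrt n := Real.sqrt_nonneg _
  have h1 : (Y.card : ℝ≥0∞) * ENNReal.ofReal (m * l ^ (-δ)) ≤ ∑ q ∈ Y, ν (cube q) := by
    rw [← nsmul_eq_mul, ← Finset.sum_const]
    exact Finset.sum_le_sum hYm
  have h2 := h1.trans (sp_brG_total hg hl Y hY)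
  rw [← ENNReal.ofReal_natCast, ← ENNReal.ofReal_mul (by positivity), ENNReal.ofReal_le_ofReal_iff (by positivity)] at h2
  have hlδ : 0 < l ^ δ := Real.rpow_pos_of_pos hl0 _
  have h3 : (Y.card : ℝ) = (Y.card : ℝ) * (m * l ^ (-δ)) * (m⁻¹ * l ^ δ) := by
    rw [Real.rpow_neg hl0.le]
    field_simp
  rw [h3, Real.rpow_add hl0]
  calc (Y.card : ℝ) * (m * l ^ (-δ)) * (m⁻¹ * l ^ δ) ≤ (m * ((Real.sqrt n + 2) ^ n * l ^ (2 * (n : ℝ)))) * (m⁻¹ * l ^ δ) :=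
        mul_le_mul_of_nonneg_right h2 (by positivity)
    _ = (Real.sqrt n + 2) ^ n * (l ^ (2 * (n : ℝ)) * l ^ δ) := by field_simp

/-- piece 1: light cubes -/
theorem sp_brG_light {ν : Measure (ST n)} {m l δ : ℝ} (hg : Grow ν m n) (hm : 0 ≤ m) (hl : 1 ≤ l) {z₀ : ST n}
    (Y : Finset ((Fin n → ℤ) × ℤ)) (hY : ∀ q ∈ Y, cube q ⊆ closedBall z₀ (l ^ 2 + Real.sqrt n + 1))
    (hYm : ∀ q ∈ Y, ν (cube q) ≤ ENNReal.ofReal (m * l ^ (-δ))) :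
    ∑ q ∈ Y, ν (cube q) ^ 2 ≤ ENNReal.ofReal ((Real.sqrt n + 2) ^ n * m ^ 2 * l ^ (2 * (n : ℝ) - δ)) := by
  have hl0 : 0 < l := by linarith
  calc ∑ q ∈ Y, ν (cube q) ^ 2 ≤ ∑ q ∈ Y, ENNReal.ofReal (m * l ^ (-δ)) * ν (cube q) :=
        Finset.sum_le_sum fun q hq => by rw [sq]; exact mul_le_mul' (hYm q hq) le_rfl
    _ = ENNReal.ofReal (m * l ^ (-δ)) * ∑ q ∈ Y, ν (cube q) := by rw [Finset.mul_sum]
    _ ≤ ENNReal.ofReal (m * l ^ (-δ)) * ENNReal.ofReal (m * ((Real.sqrt n + 2) ^ n * l ^ (2 * (n : ℝ)))) :=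
        mul_le_mul' le_rfl (sp_brG_total hg hl Y hY)
    _ = ENNReal.ofReal ((Real.sqrt n + 2) ^ n * m ^ 2 * l ^ (2 * (n : ℝ) - δ)) := by
        rw [← ENNReal.ofReal_mul (by positivity), sub_eq_add_neg, Real.rpow_add hl0]
        congr 1
        ring

/-- piece 3: few cubes -/
theorem sp_brG_few {ν : Measure (ST n)} {m X : ℝ} (hg : Grow ν m n) (hm : 0 ≤ m)
    (Y : Finset ((Fin n → ℤ) × ℤ)) (hX : (Y.card : ℝ) ≤ X) :
    ∑ q ∈ Y, ν (cube q) ^ 2 ≤ ENNReal.ofReal (X * (m * (Real.sqrt n + 1) ^ n) ^ 2) := by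
  have hs : 0 ≤ Real.sqrt n := Real.sqrt_nonneg _
  calc ∑ q ∈ Y, ν (cube q) ^ 2 ≤ ∑ _q ∈ Y, ENNReal.ofReal (m * (Real.sqrt n + 1) ^ n) ^ 2 :=
        Finset.sum_le_sum fun q _ => pow_le_pow_left' (sp_cube_mass hg q) 2
    _ = ENNReal.ofReal ((Y.card : ℝ) * (m * (Real.sqrt n + 1) ^ n) ^ 2) := by
        rw [Finset.sum_const, nsmul_eq_mul, ← ENNReal.ofReal_pow (by positivity), ← ENNReal.ofReal_natCast,
          ← ENNReal.ofReal_mul (by positivity)]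
    _ ≤ _ := ENNReal.ofReal_le_ofReal (mul_le_mul_of_nonneg_right hX (by positivity))

/-- piece 2: heavy cubes with a small field -/
theorem sp_brG_small (n : ℕ) {δ l m En : ℝ} {ν : Measure (ST n)} {H : Finset ((Fin n → ℤ) × ℤ)} {z₀ : ST n}
    {s : (Fin n → ℤ) × ℤ → ℝ≥0∞} (hl : 1 ≤ l) (hm : 0 < m) (hEn : 0 ≤ En) (hg : Grow ν m n)
    (hHb : ∀ q ∈ H, cube q ⊆ closedBall z₀ (l ^ 2 + Real.sqrt n + 1))
    (hHm : ∀ q ∈ H, ENNReal.ofReal (m * l ^ (-δ)) ≤ ν (cube q))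
    (hHs : ∀ q ∈ H, s q ≤ ENNReal.ofReal (l ^ (-(eex n) - δ) * Real.sqrt En)) :
    ∑ q ∈ H, ν (cube q) ^ bet n * s q ^ 2 ≤
      ENNReal.ofReal ((Real.sqrt n + 2) ^ n * ((Real.sqrt n + 1) ^ n) ^ bet n * m ^ bet n
        * l ^ (2 * (n : ℝ) / ((n : ℝ) + 1) - δ) * En) := by
  have hl0 : 0 < l := by linarith
  have hs : 0 ≤ Real.sqrt n := Real.sqrt_nonneg _
  have hβ : 0 ≤ bet n := by unfold bet; positivity
  have hcard := sp_brG_heavy hg hm hl H hHb hHm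
  calc ∑ q ∈ H, ν (cube q) ^ bet n * s q ^ 2
      ≤ ∑ _q ∈ H, ENNReal.ofReal (m * (Real.sqrt n + 1) ^ n) ^ bet n * ENNReal.ofReal (l ^ (-(eex n) - δ) * Real.sqrt En) ^ 2 :=
        Finset.sum_le_sum fun q hq =>
          mul_le_mul' (ENNReal.rpow_le_rpow (sp_cube_mass hg q) hβ) (pow_le_pow_left' (hHs q hq) 2)
    _ = ENNReal.ofReal ((H.card : ℝ) * ((m * (Real.sqrt n + 1) ^ n) ^ bet n * (l ^ (-(eex n) - δ) * Real.sqrt En) ^ 2)) := by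
        rw [Finset.sum_const, nsmul_eq_mul, ← ENNReal.ofReal_pow (by positivity),
          ENNReal.ofReal_rpow_of_nonneg (by positivity) hβ, ← ENNReal.ofReal_mul (by positivity),
          ← ENNReal.ofReal_natCast, ← ENNReal.ofReal_mul (by positivity)]
    _ ≤ ENNReal.ofReal (((Real.sqrt n + 2) ^ n * l ^ (2 * (n : ℝ) + δ))
          * ((m * (Real.sqrt n + 1) ^ n) ^ bet n * (l ^ (-(eex n) - δ) * Real.sqrt En) ^ 2)) :=
        ENNReal.ofReal_le_ofReal (mul_le_mul_of_nonneg_right hcard (by positivity))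
    _ = _ := by
        congr 1
        have e1 : (l ^ (-(eex n) - δ) * Real.sqrt En) ^ 2 = l ^ (2 * (-(eex n) - δ)) * En := by
          rw [mul_pow, Real.sq_sqrt hEn, ← Real.rpow_natCast _ 2, ← Real.rpow_mul hl0.le, mul_comm (-(eex n) - δ)]
          push_cast
          rfl
        have e2 : l ^ (2 * (n : ℝ) / ((n : ℝ) + 1) - δ) = l ^ (2 * (n : ℝ) + δ) * l ^ (2 * (-(eex n) - δ)) := by
          rw [← Real.rpow_add hl0]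
          congr 1
          unfold eex
          field_simp
          ring
        rw [e1, e2, Real.mul_rpow hm.le (by positivity)]
        ring

/-- (A) with a common energy bound -/
theorem sp_brG_A (n : ℕ) {R₀ κ C : ℝ} (hC : 0 ≤ C) (hA : BrA n R₀ 1 κ C)
    {l Q m En : ℝ} {ν : Measure (ST n)} {z₀ : ST n} {f : Fin (n + 1) → E n → ℂ}
    (hl : 1 ≤ l) (hQ : 1 ≤ Q) (hm : 0 ≤ m) (hg : Grow ν m n) (hsupp : ν (closedBall z₀ (l ^ 2))ᶜ = 0) (hd : ∀ i, Dat R₀ (f i))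
    (ht : TransvS Q f) (hen : ∀ i, ∫ ξ, ‖f i ξ‖ ^ 2 ≤ En) :
    spS n ν f ≤ ENNReal.ofReal (C * Q ^ κ * m ^ bet n * l ^ (2 * (n : ℝ) / ((n : ℝ) + 1) + 1) * En) := by
  refine (hA l Q m ν z₀ f hl hQ hm hg hsupp hd ht).trans (ENNReal.ofReal_le_ofReal ?_)
  have h0 : ∀ i, 0 ≤ ∫ ξ, ‖f i ξ‖ ^ 2 := fun i => integral_nonneg fun ξ => by positivity
  have h1 := sp_brG_prod_le n (p := 1 / ((n : ℝ) + 1)) (by positivity) (fun i => ∫ ξ, ‖f i ξ‖ ^ 2) h0 hen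
  have h2 : ((n : ℝ) + 1) * (1 / ((n : ℝ) + 1)) = 1 := by field_simp
  rw [h2, Real.rpow_one] at h1
  exact mul_le_mul_of_nonneg_left h1 (by positivity)

/-- small `l` or large `Q`: (A) is enough -/
theorem sp_brG_caseA (n : ℕ) {R₀ κ C : ℝ} (hC : 0 ≤ C) (hA : BrA n R₀ 1 κ C) {c c₀ l₀ : ℝ} (hc : 0 ≤ c) (hc₀ : 0 < c₀) (hl₀ : 1 ≤ l₀)
    {l Q m En : ℝ} {ν : Measure (ST n)} {z₀ : ST n} {f : Fin (n + 1) → E n → ℂ}
    (hl : 1 ≤ l) (hQ : 1 ≤ Q) (hm : 0 ≤ m) (hEn : 0 ≤ En) (hg : Grow ν m n) (hsupp : ν (closedBall z₀ (l ^ 2))ᶜ = 0)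
    (hd : ∀ i, Dat R₀ (f i)) (ht : TransvS Q f) (hen : ∀ i, ∫ ξ, ‖f i ξ‖ ^ 2 ≤ En) (hcase : l ≤ l₀ ∨ l ^ c₀ ≤ Q) :
    spS n ν f ≤ ENNReal.ofReal (C * l₀ ^ (1 + c) * Q ^ (κ + (1 + c) / c₀) * m ^ bet n
      * l ^ (2 * (n : ℝ) / ((n : ℝ) + 1) - c) * En) := by
  refine (sp_brG_A n hC hA hl hQ hm hg hsupp hd ht hen).trans (ENNReal.ofReal_le_ofReal ?_)
  have hl0 : 0 < l := by linarith
  have hQ0 : 0 < Q := by linarith
  have hQ1 : 1 ≤ Q ^ (1 / c₀) := Real.one_le_rpow hQ (by positivity)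
  have h1 : l ≤ l₀ * Q ^ (1 / c₀) := by
    rcases hcase with h | h
    · calc l ≤ l₀ := h
        _ = l₀ * 1 := (mul_one _).symm
        _ ≤ _ := by gcongr
    · have : l = (l ^ c₀) ^ (1 / c₀) := by rw [← Real.rpow_mul hl0.le, mul_one_div_cancel hc₀.ne', Real.rpow_one]
      calc l = (l ^ c₀) ^ (1 / c₀) := this
        _ ≤ Q ^ (1 / c₀) := Real.rpow_le_rpow (by positivity) h (by positivity)
        _ = 1 * Q ^ (1 / c₀) := (one_mul _).symm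
        _ ≤ _ := by gcongr
  have h2 : l ^ (1 + c) ≤ l₀ ^ (1 + c) * Q ^ ((1 + c) / c₀) := by
    calc l ^ (1 + c) ≤ (l₀ * Q ^ (1 / c₀)) ^ (1 + c) := Real.rpow_le_rpow hl0.le h1 (by linarith)
      _ = _ := by
        rw [Real.mul_rpow (by linarith) (by positivity), ← Real.rpow_mul hQ0.le]
        congr 2
        ring
  have h3 : l ^ (2 * (n : ℝ) / ((n : ℝ) + 1) + 1) = l ^ (2 * (n : ℝ) / ((n : ℝ) + 1) - c) * l ^ (1 + c) := by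
    rw [← Real.rpow_add hl0]
    congr 1
    ring
  rw [h3, Real.rpow_add hQ0]
  calc C * Q ^ κ * m ^ bet n * (l ^ (2 * (n : ℝ) / ((n : ℝ) + 1) - c) * l ^ (1 + c)) * En
      ≤ C * Q ^ κ * m ^ bet n * (l ^ (2 * (n : ℝ) / ((n : ℝ) + 1) - c) * (l₀ ^ (1 + c) * Q ^ ((1 + c) / c₀))) * En := by
        gcongr
    _ = _ := by ring

/-- the main case: `l` large, `Q ≤ l^c_T`, `m > 0`, `En > 0` -/
theorem sp_brG_main (n : ℕ) (hn : 2 ≤ n) {R₀ cT L₀ ε CM MM : ℝ} (hcT : 0 < cT)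
    (hT : ∀ (L : ℝ) (Y : Finset ((Fin n → ℤ) × ℤ)) (z₀ : ST n) (f : Fin (n + 1) → E n → ℂ),
      L₀ ≤ L → (∀ q ∈ Y, cube q ⊆ closedBall z₀ (L ^ 2)) → L ^ (2 * (n : ℝ) - cT) ≤ (Y.card : ℝ) →
      (∀ (z : ST n) (r : ℝ) (t : Finset ((Fin n → ℤ) × ℤ)), 1 ≤ r → t ⊆ Y → (∀ q ∈ t, (cube q ∩ closedBall z r).Nonempty) →
        (t.card : ℝ) ≤ L ^ cT * r ^ n) →
      (∀ i, Dat R₀ (f i)) → (∀ i, ∫ ξ, ‖f i ξ‖ ^ 2 ≤ 1) →
      (∀ q ∈ Y, ∀ i, ∃ z ∈ cube q, L ^ (-(eex n) - cT) ≤ ‖ext (f i) z‖) →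
      TransvS (L ^ cT) f → False)
    (hM : ∀ (S Q : ℝ) (Y : Finset ((Fin n → ℤ) × ℤ)) (z₀ : ST n) (f : Fin (n + 1) → E n → ℂ),
      1 ≤ S → 1 ≤ Q → (∀ q ∈ Y, cube q ⊆ closedBall z₀ S) → (∀ i, Dat R₀ (f i)) → TransvS Q f →
      ∑ q ∈ Y, ∏ i, (⨆ z ∈ cube q, ‖ext (f i) z‖ₑ) ^ (2 / (n : ℝ)) ≤
        ENNReal.ofReal (CM * Q ^ MM * S ^ ε * ∏ i, (∫ ξ, ‖f i ξ‖ ^ 2) ^ (1 / (n : ℝ))))
    {δ c : ℝ} (hε : 0 ≤ ε) (hδ : δ ≤ cT) (hcδ : c ≤ δ)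
    (hexp : (2 * (n : ℝ) - δ) / ((n : ℝ) + 1) + 2 * ε = 2 * (n : ℝ) / ((n : ℝ) + 1) - c)
    {l Q m En : ℝ} {ν : Measure (ST n)} {z₀ : ST n} {f : Fin (n + 1) → E n → ℂ}
    (hl : 1 ≤ l) (hl1 : L₀ ≤ 2 * l) (hl2 : Real.sqrt n + 1 ≤ l) (hl3 : (Real.sqrt n + 2) ^ n * l ^ δ ≤ l ^ cT)
    (hQ : 1 ≤ Q) (hQl : Q ≤ l ^ cT) (hm : 0 < m) (hEn : 0 < En) (hg : Grow ν m n) (hsupp : ν (closedBall z₀ (l ^ 2))ᶜ = 0)
    (hd : ∀ i, Dat R₀ (f i)) (ht : TransvS Q f) (hen : ∀ i, ∫ ξ, ‖f i ξ‖ ^ 2 ≤ En) :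
    spS n ν f ≤ ENNReal.ofReal ((((Real.sqrt n + 2) ^ n) ^ (1 / ((n : ℝ) + 1)) * ((1 + |CM|) * (Real.sqrt n + 2) ^ ε)
      + (Real.sqrt n + 2) ^ n * ((Real.sqrt n + 1) ^ n) ^ bet n
      + (4 ^ n * ((Real.sqrt n + 1) ^ n) ^ 2) ^ (1 / ((n : ℝ) + 1)) * ((1 + |CM|) * (Real.sqrt n + 2) ^ ε))
      * Q ^ |MM| * m ^ bet n * l ^ (2 * (n : ℝ) / ((n : ℝ) + 1) - c) * En) := by
  classical
  have hl0 : 0 < l := by linarith
  have hs : 0 ≤ Real.sqrt n := Real.sqrt_nonneg _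
  have hβ : 0 < bet n := by unfold bet; positivity
  obtain ⟨Y, hY0, hYb⟩ := sp_cubes_finite hsupp
  have hsum : spS n ν f = ∑ q ∈ Y, ν (cube q) ^ bet n * (⨅ i, ⨆ z ∈ cube q, ‖ext (f i) z‖ₑ) ^ 2 := by
    unfold spS
    refine tsum_eq_sum fun q hq => ?_
    rw [hY0 q hq, ENNReal.zero_rpow_of_pos hβ, zero_mul]
  obtain ⟨Y₁, hY₁⟩ : ∃ Y₁, Y₁ = Y.filter fun q => ν (cube q) < ENNReal.ofReal (m * l ^ (-δ)) := ⟨_, rfl⟩
  obtain ⟨Y', hY'⟩ : ∃ Y', Y' = Y.filter fun q => ¬ ν (cube q) < ENNReal.ofReal (m * l ^ (-δ)) := ⟨_, rfl⟩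
  obtain ⟨Y₂, hY₂⟩ : ∃ Y₂, Y₂ = Y'.filter fun q =>
    (⨅ i, ⨆ z ∈ cube q, ‖ext (f i) z‖ₑ) < ENNReal.ofReal (l ^ (-(eex n) - δ) * Real.sqrt En) := ⟨_, rfl⟩
  obtain ⟨Y₃, hY₃⟩ : ∃ Y₃, Y₃ = Y'.filter fun q =>
    ¬ (⨅ i, ⨆ z ∈ cube q, ‖ext (f i) z‖ₑ) < ENNReal.ofReal (l ^ (-(eex n) - δ) * Real.sqrt En) := ⟨_, rfl⟩
  have hsplit : spS n ν f = ∑ q ∈ Y₁, ν (cube q) ^ bet n * (⨅ i, ⨆ z ∈ cube q, ‖ext (f i) z‖ₑ) ^ 2
      + (∑ q ∈ Y₂, ν (cube q) ^ bet n * (⨅ i, ⨆ z ∈ cube q, ‖ext (f i) z‖ₑ) ^ 2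
        + ∑ q ∈ Y₃, ν (cube q) ^ bet n * (⨅ i, ⨆ z ∈ cube q, ‖ext (f i) z‖ₑ) ^ 2) := by
    rw [hsum, hY₁, hY₂, hY₃, Finset.sum_filter_add_sum_filter_not, hY', Finset.sum_filter_add_sum_filter_not]
  have hb1 : ∀ q ∈ Y₁, cube q ⊆ closedBall z₀ (l ^ 2 + Real.sqrt n + 1) := fun q hq =>
    hYb q (Finset.mem_filter.1 (hY₁ ▸ hq)).1
  have hb' : ∀ q ∈ Y', cube q ⊆ closedBall z₀ (l ^ 2 + Real.sqrt n + 1) := fun q hq =>
    hYb q (Finset.mem_filter.1 (hY' ▸ hq)).1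
  have hm' : ∀ q ∈ Y', ENNReal.ofReal (m * l ^ (-δ)) ≤ ν (cube q) := by
    intro q hq
    rw [hY', Finset.mem_filter] at hq
    exact not_lt.1 hq.2
  have hs3 : ∀ q ∈ Y₃, ENNReal.ofReal (l ^ (-(eex n) - δ) * Real.sqrt En) ≤ ⨅ i, ⨆ z ∈ cube q, ‖ext (f i) z‖ₑ := by
    intro q hq
    rw [hY₃, Finset.mem_filter] at hq
    exact not_lt.1 hq.2
  have h2' : ∀ q ∈ Y₂, q ∈ Y' := fun q hq => (Finset.mem_filter.1 (hY₂ ▸ hq)).1
  have h3' : ∀ q ∈ Y₃, q ∈ Y' := fun q hq => (Finset.mem_filter.1 (hY₃ ▸ hq)).1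
  -- piece 1
  have p1 := sp_brG_piece n hn hM hε hl hQ hm.le (by positivity) hb1 hd ht hen
    (sp_brG_light hg hm.le hl Y₁ hb1 fun q hq => (Finset.mem_filter.1 (hY₁ ▸ hq)).2.le)
  -- piece 2
  have p2 := sp_brG_small n (s := fun q => ⨅ i, ⨆ z ∈ cube q, ‖ext (f i) z‖ₑ) hl hm hEn.le hg
    (fun q hq => hb' q (h2' q hq)) (fun q hq => hm' q (h2' q hq)) fun q hq => (Finset.mem_filter.1 (hY₂ ▸ hq)).2.le
  -- piece 3
  have hcard := sp_brG_good n hn hcT hT hδ hl hl1 hl2 hl3 hQl hm hEn hg hd ht hen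
    (fun q hq => hb' q (h3' q hq)) (fun q hq => hm' q (h3' q hq)) hs3
  have hcard' : (Y₃.card : ℝ) ≤ 4 ^ n * l ^ (2 * (n : ℝ) - δ) := by
    refine hcard.le.trans ?_
    rw [Real.mul_rpow (by norm_num) hl0.le]
    have h4 : (2 : ℝ) ^ (2 * (n : ℝ) - cT) ≤ 4 ^ n := by
      calc (2 : ℝ) ^ (2 * (n : ℝ) - cT) ≤ 2 ^ (2 * (n : ℝ)) := Real.rpow_le_rpow_of_exponent_le (by norm_num) (by linarith)
        _ = 4 ^ n := by
          rw [show (2 * (n : ℝ)) = ((2 * n : ℕ) : ℝ) by push_cast; ring, Real.rpow_natCast, pow_mul]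
          norm_num
    exact mul_le_mul h4 (Real.rpow_le_rpow_of_exponent_le hl (by linarith)) (by positivity) (by positivity)
  have hV3 : ∑ q ∈ Y₃, ν (cube q) ^ 2 ≤ ENNReal.ofReal (4 ^ n * ((Real.sqrt n + 1) ^ n) ^ 2 * m ^ 2 * l ^ (2 * (n : ℝ) - δ)) := by
    refine (sp_brG_few hg hm.le Y₃ hcard').trans (le_of_eq ?_)
    congr 1
    ring
  have p3 := sp_brG_piece n hn hM hε hl hQ hm.le (by positivity) (fun q hq => hb' q (h3' q hq)) hd ht hen hV3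
  rw [hexp] at p1 p3
  rw [hsplit]
  refine (add_le_add p1 (add_le_add p2 p3)).trans ?_
  rw [← ENNReal.ofReal_add (by positivity) (by positivity), ← ENNReal.ofReal_add (by positivity) (by positivity)]
  refine ENNReal.ofReal_le_ofReal ?_
  have hQM : 1 ≤ Q ^ |MM| := Real.one_le_rpow hQ (abs_nonneg _)
  have hlc : l ^ (2 * (n : ℝ) / ((n : ℝ) + 1) - δ) ≤ l ^ (2 * (n : ℝ) / ((n : ℝ) + 1) - c) :=
    Real.rpow_le_rpow_of_exponent_le hl (by linarith)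
  have hmid : (Real.sqrt n + 2) ^ n * ((Real.sqrt n + 1) ^ n) ^ bet n * m ^ bet n * l ^ (2 * (n : ℝ) / ((n : ℝ) + 1) - δ) * En
      ≤ (Real.sqrt n + 2) ^ n * ((Real.sqrt n + 1) ^ n) ^ bet n * Q ^ |MM| * m ^ bet n * l ^ (2 * (n : ℝ) / ((n : ℝ) + 1) - c) * En := by
    calc (Real.sqrt n + 2) ^ n * ((Real.sqrt n + 1) ^ n) ^ bet n * m ^ bet n * l ^ (2 * (n : ℝ) / ((n : ℝ) + 1) - δ) * En
        = (Real.sqrt n + 2) ^ n * ((Real.sqrt n + 1) ^ n) ^ bet n * 1 * m ^ bet n * l ^ (2 * (n : ℝ) / ((n : ℝ) + 1) - δ) * En := by ring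
      _ ≤ _ := by gcongr
  linarith

/-- L-257-SP-B3 (~500 l.; may be cut).  **(B)**.   PLAN.  `(c_T, L₀)` from `TrStmt R₀`.  Homogeneity: `m = 1`, `En = 1` (if `m = 0` or `En = 0` the sum vanishes; replace `ν` by `m⁻¹ • ν`, `f i` by `En^(-1/2) f i`).
Put `δ₁ = c_T/4`, `δ₂ = c_T/4 · …` with `δ₁ < 2 δ₂ ≤ c_T/2`, `c' = c_T/2`, and `ε` (for `sp_brA`/`MrSupStmt`) `≤ min(δ₁, c')/(8 (n+1))`.
If `Q > l^(c_T/2)`: use (A): `l^(2n/(n+1)+ε) ≤ l^(2n/(n+1) - c) Q^((ε + c) 2/c_T)`.   If `l` is below a constant `l₀(L₀, n, c_T)`: (A) again, the constant absorbs `l₀^(ε+c)`.   Otherwise use `L = 2 l` in `TrStmt`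
(`cube q ⊆ closedBall z₀ (l² + √n + 1) ⊆ closedBall z₀ (L²)`):
 1. cubes with `ν(q) < l^(-δ₁)`: `sp_holder_cubes`, `∑ ν(q)² ≤ l^(-δ₁) C l^(2n)`;
 2. cubes with `ν(q) ≥ l^(-δ₁)` (at most `C l^(2n+δ₁)`, `sp_sum_cube_mass`) and `s(q) < l^(-e-δ₂)`: `∑ ≤ C l^(2n+δ₁) l^(-2e-2δ₂)`, `2n - 2e = 2n/(n+1)`;
 3. GOOD cubes `G`: counts `#{q ∈ G : q ∩ B(z,r) ≠ ∅} ≤ l^δ₁ ν(B(z, r + √n + 1)) ≤ C l^δ₁ r^n ≤ L^c_T r^n`; witnesses `∃ z ∈ q, |F_i z| ≥ l^(-e-δ₂)/2 ≥ L^(-e-c_T)`; `TransvS Q f`, `Q ≤ L^c_T` (`Transv` is monotone in `Q`).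
    `TrStmt` ⟹ `#G < L^(2n - c_T)`; then `sp_holder_cubes` with `∑_G ν(q)² ≤ C #G`. -/
theorem sp_brG (n : ℕ) (hn : 2 ≤ n) (hTr : TrStmt n) (hMr : MrSupStmt n) (R₀ : ℝ) : ∃ c κ C : ℝ, 0 < c ∧ c ≤ 1 ∧ 0 ≤ κ ∧ 0 ≤ C ∧ BrG n R₀ c κ C := by
  obtain ⟨cT, L₀, hcT, hT⟩ := hTr R₀
  have hN : (0 : ℝ) < (n : ℝ) + 1 := by positivity
  have hs : 0 ≤ Real.sqrt n := Real.sqrt_nonneg _
  obtain ⟨c₀, hc₀⟩ : ∃ c₀ : ℝ, c₀ = min cT 1 := ⟨_, rfl⟩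
  have hc₀0 : 0 < c₀ := by rw [hc₀]; exact lt_min hcT one_pos
  have hc₀T : c₀ ≤ cT := by rw [hc₀]; exact min_le_left _ _
  have hc₀1 : c₀ ≤ 1 := by rw [hc₀]; exact min_le_right _ _
  obtain ⟨δ, hδ⟩ : ∃ δ : ℝ, δ = c₀ / 2 := ⟨_, rfl⟩
  obtain ⟨ε, hε⟩ : ∃ ε : ℝ, ε = c₀ / (8 * ((n : ℝ) + 1)) := ⟨_, rfl⟩
  obtain ⟨c, hc⟩ : ∃ c : ℝ, c = c₀ / (4 * ((n : ℝ) + 1)) := ⟨_, rfl⟩
  have hε0 : 0 < ε := by rw [hε]; positivity
  have hc0 : 0 < c := by rw [hc]; positivity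
  have hcδ : c ≤ δ := by
    rw [hc, hδ]
    exact div_le_div_of_nonneg_left hc₀0.le (by norm_num) (by linarith [(Nat.cast_nonneg n : (0 : ℝ) ≤ n)])
  have hδT : δ < cT := by rw [hδ]; linarith
  have hc1 : c ≤ 1 := by rw [hδ] at hcδ; linarith
  have hexp : (2 * (n : ℝ) - δ) / ((n : ℝ) + 1) + 2 * ε = 2 * (n : ℝ) / ((n : ℝ) + 1) - c := by
    rw [hδ, hε, hc]
    field_simp
    ring
  obtain ⟨CM, MM, hM⟩ := hMr R₀ ε hε0
  obtain ⟨κA, CA, hκA, hCA, hA⟩ := sp_brA n hn hMr R₀ 1 one_pos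
  obtain ⟨l₀, hl₀⟩ : ∃ l₀ : ℝ,
    l₀ = max (max 1 L₀) (max (Real.sqrt n + 1) (((Real.sqrt n + 2) ^ n) ^ (1 / (cT - δ)))) := ⟨_, rfl⟩
  have hl₀1 : 1 ≤ l₀ := by rw [hl₀]; exact le_max_of_le_left (le_max_left _ _)
  have hl₀2 : L₀ ≤ l₀ := by rw [hl₀]; exact le_max_of_le_left (le_max_right _ _)
  have hl₀3 : Real.sqrt n + 1 ≤ l₀ := by rw [hl₀]; exact le_max_of_le_right (le_max_left _ _)
  have hl₀4 : ((Real.sqrt n + 2) ^ n) ^ (1 / (cT - δ)) ≤ l₀ := by rw [hl₀]; exact le_max_of_le_right (le_max_right _ _)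
  obtain ⟨K, hK⟩ : ∃ K : ℝ, K = ((Real.sqrt n + 2) ^ n) ^ (1 / ((n : ℝ) + 1)) * ((1 + |CM|) * (Real.sqrt n + 2) ^ ε)
      + (Real.sqrt n + 2) ^ n * ((Real.sqrt n + 1) ^ n) ^ bet n
      + (4 ^ n * ((Real.sqrt n + 1) ^ n) ^ 2) ^ (1 / ((n : ℝ) + 1)) * ((1 + |CM|) * (Real.sqrt n + 2) ^ ε) := ⟨_, rfl⟩
  have hK0 : 0 ≤ K := by rw [hK]; positivity
  obtain ⟨κ, hκ⟩ : ∃ κ : ℝ, κ = max (κA + (1 + c) / c₀) |MM| := ⟨_, rfl⟩
  have hκ1 : κA + (1 + c) / c₀ ≤ κ := by rw [hκ]; exact le_max_left _ _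
  have hκ2 : |MM| ≤ κ := by rw [hκ]; exact le_max_right _ _
  refine ⟨c, κ, CA * l₀ ^ (1 + c) + K, hc0, hc1, (abs_nonneg _).trans hκ2, by positivity, ?_⟩
  intro l Q m En ν z₀ f hl hQ hm hEn hg hsupp hd ht hen
  have hl0 : 0 < l := by linarith
  have hβ : bet n ≠ 0 := by unfold bet; positivity
  by_cases hcase : l ≤ l₀ ∨ l ^ c₀ ≤ Q
  · refine (sp_brG_caseA n hCA hA hc0.le hc₀0 hl₀1 hl hQ hm hEn hg hsupp hd ht hen hcase).trans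
      (ENNReal.ofReal_le_ofReal ?_)
    have h1 : Q ^ (κA + (1 + c) / c₀) ≤ Q ^ κ := Real.rpow_le_rpow_of_exponent_le hQ hκ1
    have h2 : CA * l₀ ^ (1 + c) ≤ CA * l₀ ^ (1 + c) + K := by linarith
    gcongr
  · rw [not_or, not_le, not_le] at hcase
    obtain ⟨hll₀, hQl⟩ := hcase
    rcases hm.eq_or_lt with hm0 | hm0
    · refine (sp_brG_A n hCA hA hl hQ hm hg hsupp hd ht hen).trans ?_
      rw [← hm0, Real.zero_rpow hβ]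
      simp
    rcases hEn.eq_or_lt with hE0 | hE0
    · refine (sp_brG_A n hCA hA hl hQ hm hg hsupp hd ht hen).trans ?_
      rw [← hE0]
      simp
    have hl3 : (Real.sqrt n + 2) ^ n * l ^ δ ≤ l ^ cT := by
      have h1 : (Real.sqrt n + 2) ^ n ≤ l ^ (cT - δ) := by
        calc (Real.sqrt n + 2) ^ n = (((Real.sqrt n + 2) ^ n) ^ (1 / (cT - δ))) ^ (cT - δ) := by
              rw [← Real.rpow_mul (by positivity), one_div_mul_cancel (by linarith), Real.rpow_one]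
          _ ≤ l ^ (cT - δ) := Real.rpow_le_rpow (by positivity) (hl₀4.trans hll₀.le) (by linarith)
      calc (Real.sqrt n + 2) ^ n * l ^ δ ≤ l ^ (cT - δ) * l ^ δ := by gcongr
        _ = l ^ cT := by rw [← Real.rpow_add hl0]; congr 1; ring
    have hQl' : Q ≤ l ^ cT := hQl.le.trans (Real.rpow_le_rpow_of_exponent_le hl hc₀T)
    refine (sp_brG_main n hn hcT hT hM hε0.le hδT.le hcδ hexp hl (by linarith) (by linarith) hl3 hQ hQl' hm0 hE0 hg hsupp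
      hd ht hen).trans (ENNReal.ofReal_le_ofReal ?_)
    rw [← hK]
    have h1 : Q ^ |MM| ≤ Q ^ κ := Real.rpow_le_rpow_of_exponent_le hQ hκ2
    have h2 : K ≤ CA * l₀ ^ (1 + c) + K := by
      have : 0 ≤ CA * l₀ ^ (1 + c) := by positivity
      linarith
    gcongr


/-- (A) under the hypotheses of `BrMinWith` -/
theorem sp_B4_A {n : ℕ} {R₀ ε κ C : ℝ} (hC : 0 ≤ C) (hA : BrA n R₀ ε κ C)
    {l Q m En : ℝ} {ν : Measure (ST n)} {z₀ : ST n} {f : Fin (n + 1) → E n → ℂ} {lam : Fin (n + 1) → ℝ}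
    (hl : 1 ≤ l) (hQ : 1 ≤ Q) (hm : 0 ≤ m) (hEn : 0 ≤ En) (hg : Grow ν m n) (hsupp : ν (closedBall z₀ (l ^ 2))ᶜ = 0)
    (hd : ∀ i, Dat R₀ (f i)) (ht : TransvS Q f) (hlam : ∀ i, 0 ≤ lam i ∧ lam i ≤ 1) (hen : ∀ i, ∫ ξ, ‖f i ξ‖ ^ 2 ≤ lam i * En) :
    spS n ν f ≤ ENNReal.ofReal (C * Q ^ κ * m ^ bet n * l ^ (2 * (n : ℝ) / ((n : ℝ) + 1) + ε) * (En * (∏ i, lam i) ^ (1 / ((n : ℝ) + 1)))) := by
  refine (hA l Q m ν z₀ f hl hQ hm hg hsupp hd ht).trans (ENNReal.ofReal_le_ofReal ?_)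
  have hN : (0 : ℝ) < (n : ℝ) + 1 := by positivity
  have h0 : ∀ i, 0 ≤ ∫ ξ, ‖f i ξ‖ ^ 2 := fun i => integral_nonneg fun ξ => by positivity
  have h1 : ∏ i, (∫ ξ, ‖f i ξ‖ ^ 2) ^ (1 / ((n : ℝ) + 1)) ≤ En * (∏ i, lam i) ^ (1 / ((n : ℝ) + 1)) := by
    calc ∏ i, (∫ ξ, ‖f i ξ‖ ^ 2) ^ (1 / ((n : ℝ) + 1)) ≤ ∏ i, (lam i * En) ^ (1 / ((n : ℝ) + 1)) :=
          Finset.prod_le_prod (fun i _ => Real.rpow_nonneg (h0 i) _) fun i _ => Real.rpow_le_rpow (h0 i) (hen i) (by positivity)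
      _ = ∏ i, (lam i ^ (1 / ((n : ℝ) + 1)) * En ^ (1 / ((n : ℝ) + 1))) :=
          Finset.prod_congr rfl fun i _ => Real.mul_rpow (hlam i).1 hEn
      _ = En * (∏ i, lam i) ^ (1 / ((n : ℝ) + 1)) := by
          rw [Finset.prod_mul_distrib, Real.finsetProd_rpow _ _ fun i _ => (hlam i).1, Finset.prod_const, Finset.card_univ,
            Fintype.card_fin, ← Real.rpow_natCast, ← Real.rpow_mul hEn]
          have : 1 / ((n : ℝ) + 1) * ((n + 1 : ℕ) : ℝ) = 1 := by push_cast; field_simp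
          rw [this, Real.rpow_one, mul_comm]
  exact mul_le_mul_of_nonneg_left h1 (by positivity)

/-- the geometric mean of two bounds -/
theorem sp_B4_geo {S : ℝ≥0∞} {x y T : ℝ} (hx : 0 ≤ x) (hy : 0 ≤ y) (hT : 0 ≤ T) (h : x * y ≤ T ^ 2)
    (h1 : S ≤ ENNReal.ofReal x) (h2 : S ≤ ENNReal.ofReal y) : S ≤ ENNReal.ofReal T := by
  rcases le_total x y with hxy | hxy
  · refine h1.trans (ENNReal.ofReal_le_ofReal ?_)
    refine (pow_le_pow_iff_left₀ hx hT two_ne_zero).1 (le_trans ?_ h)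
    nlinarith
  · refine h2.trans (ENNReal.ofReal_le_ofReal ?_)
    refine (pow_le_pow_iff_left₀ hy hT two_ne_zero).1 (le_trans ?_ h)
    nlinarith

/-- L-257-SP-B4 (~120 l.).  **(C)**.   `S = S^(1/2) S^(1/2)`;  (A) with `∫|f i|² ≤ lam i En`: `∏ (lam i En)^(1/(n+1)) = En (∏ lam i)^(1/(n+1))`;  (B) with `En`.   Result: gain `(c - ε)/2`, exponent `(κ + κ')/2`, constant `(C C')^(1/2)`. -/
theorem sp_brMin_of {n : ℕ} (hn : 2 ≤ n) {R₀ ε κ C c κ' C' : ℝ} (hC : 0 ≤ C) (hC' : 0 ≤ C') (hA : BrA n R₀ ε κ C) (hG : BrG n R₀ c κ' C') :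
    BrMinWith n R₀ ((c - ε) / 2) ((κ + κ') / 2) (Real.sqrt (C * C')) := by
  intro l Q m En ν z₀ f lam hl hQ hm hEn hg hsupp hd ht hlam hen
  have hl0 : 0 < l := by linarith
  have hQ0 : 0 < Q := by linarith
  have hΛ : 0 ≤ ∏ i, lam i := Finset.prod_nonneg fun i _ => (hlam i).1
  have h1 := sp_B4_A hC hA hl hQ hm hEn hg hsupp hd ht hlam hen
  have h2 := hG l Q m En ν z₀ f hl hQ hm hEn hg hsupp hd ht fun i =>
    (hen i).trans (by nlinarith [(hlam i).1, (hlam i).2])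
  refine sp_B4_geo (by positivity) (by positivity) (by positivity) (le_of_eq ?_) h1 h2
  have e1 : (Q ^ ((κ + κ') / 2)) ^ 2 = Q ^ κ * Q ^ κ' := by
    rw [← Real.rpow_natCast, ← Real.rpow_mul hQ0.le, ← Real.rpow_add hQ0]
    congr 1
    push_cast
    ring
  have e2 : (l ^ (2 * (n : ℝ) / ((n : ℝ) + 1) - (c - ε) / 2)) ^ 2
      = l ^ (2 * (n : ℝ) / ((n : ℝ) + 1) + ε) * l ^ (2 * (n : ℝ) / ((n : ℝ) + 1) - c) := by
    rw [← Real.rpow_natCast, ← Real.rpow_mul hl0.le, ← Real.rpow_add hl0]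
    congr 1
    push_cast
    ring
  have e3 : ((∏ i, lam i) ^ (1 / (2 * ((n : ℝ) + 1)))) ^ 2 = (∏ i, lam i) ^ (1 / ((n : ℝ) + 1)) := by
    rw [← Real.rpow_natCast, ← Real.rpow_mul hΛ]
    congr 1
    push_cast
    field_simp
  have e4 : Real.sqrt (C * C') ^ 2 = C * C' := Real.sq_sqrt (by positivity)
  simp only [mul_pow]
  rw [e1, e2, e3, e4]
  ring

/-- L-257-SP-B4 (~60 l.).  (A) alone: `lam i ≤ 1`, so `(∏ lam i)^(1/(n+1)) ≤ (∏ lam i)^(1/(2(n+1)))` -/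
theorem sp_brMin_of_A {n : ℕ} (hn : 2 ≤ n) {R₀ ε κ C : ℝ} (hC : 0 ≤ C) (hA : BrA n R₀ ε κ C) : BrMinWith n R₀ (-ε) κ C := by
  intro l Q m En ν z₀ f lam hl hQ hm hEn hg hsupp hd ht hlam hen
  have hN : (0 : ℝ) < (n : ℝ) + 1 := by positivity
  have hΛ : 0 ≤ ∏ i, lam i := Finset.prod_nonneg fun i _ => (hlam i).1
  have hΛ1 : ∏ i, lam i ≤ 1 := Finset.prod_le_one (fun i _ => (hlam i).1) fun i _ => (hlam i).2
  refine (sp_B4_A hC hA hl hQ hm hEn hg hsupp hd ht hlam hen).trans (ENNReal.ofReal_le_ofReal ?_)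
  have h1 : (∏ i, lam i) ^ (1 / ((n : ℝ) + 1)) ≤ (∏ i, lam i) ^ (1 / (2 * ((n : ℝ) + 1))) :=
    Real.rpow_le_rpow_of_exponent_ge' hΛ hΛ1 (by positivity) (one_div_le_one_div_of_le hN (by linarith))
  rw [sub_neg_eq_add, mul_assoc _ En]
  gcongr

/-! ## (D) the weighted functional -/

/-- lattice point -/
noncomputable def spPt (o : (Fin n → ℤ) × ℤ) : ST n := (zvec o.1, (o.2 : ℝ))

theorem sp_B5_zvec_apply (k : Fin n → ℤ) (i : Fin n) : zvec k i = (k i : ℝ) := rfl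

theorem sp_B5_pt_add (a b : (Fin n → ℤ) × ℤ) : spPt (a + b) = spPt a + spPt b := by
  refine Prod.ext ?_ ?_
  · ext i
    simp [spPt, sp_B5_zvec_apply]
  · simp [spPt]

theorem sp_B5_pt_mem (k : (Fin n → ℤ) × ℤ) : spPt k ∈ cube k := by
  refine ⟨fun i => ⟨le_rfl, ?_⟩, le_rfl, ?_⟩
  · show ((k.1 i : ℤ) : ℝ) < k.1 i + 1
    linarith
  · show ((k.2 : ℤ) : ℝ) < k.2 + 1
    linarith

theorem sp_B5_dist {k : (Fin n → ℤ) × ℤ} {z : ST n} (hz : z ∈ cube k) : ‖z - spPt k‖ ≤ Real.sqrt n + 1 := by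
  have := inf_cube_subset_ball k (sp_B5_pt_mem k) hz
  rwa [mem_closedBall, dist_eq_norm] at this

theorem sp_B5_mem_add (k o : (Fin n → ℤ) × ℤ) (z : ST n) : z + spPt o ∈ cube (k + o) ↔ z ∈ cube k := by
  unfold cube
  simp only [Set.mem_ofPred_eq, Prod.fst_add, Prod.snd_add, Pi.add_apply, spPt, PiLp.add_apply, sp_B5_zvec_apply, Int.cast_add]
  constructor
  · rintro ⟨h1, h2, h3⟩
    exact ⟨fun i => ⟨by linarith [(h1 i).1], by linarith [(h1 i).2]⟩, by linarith, by linarith⟩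
  · rintro ⟨h1, h2, h3⟩
    exact ⟨fun i => ⟨by linarith [(h1 i).1], by linarith [(h1 i).2]⟩, by linarith, by linarith⟩

theorem sp_B5_lintegral_cubes (μ : Measure (ST n)) (φ : ST n → ℝ≥0∞) :
    ∫⁻ y, φ y ∂μ = ∑' q : (Fin n → ℤ) × ℤ, ∫⁻ y in cube q, φ y ∂μ := by
  have hd : Pairwise (Function.onFun Disjoint fun q : (Fin n → ℤ) × ℤ => (cube q : Set (ST n))) := by
    intro a b hab
    rw [Function.onFun, Set.disjoint_left]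
    intro z ha hb
    exact hab ((inf_cube_partition z).unique ha hb)
  have hu : (⋃ q : (Fin n → ℤ) × ℤ, (cube q : Set (ST n))) = univ :=
    Set.eq_univ_of_forall fun z => Set.mem_iUnion.2 (inf_cube_partition z).exists
  rw [← lintegral_iUnion (fun q => inf_cube_measurable q) hd, hu, Measure.restrict_univ]

/-- comparison of the weight at two points at distance `≤ r` (`ρ ≥ 1`) -/
theorem sp_B5_W_le {a ρ r : ℝ} (ha : 0 ≤ a) (hρ : 1 ≤ ρ) {u v : ST n} (h : ‖u - v‖ ≤ r) :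
    spW a ρ v ≤ ENNReal.ofReal ((1 + r) ^ a) * spW a ρ u := by
  have hr : 0 ≤ r := (norm_nonneg _).trans h
  have hρ0 : 0 < ρ := by linarith
  unfold spW
  rw [← ENNReal.ofReal_mul (by positivity)]
  refine ENNReal.ofReal_le_ofReal ?_
  have h1 : (0 : ℝ) < 1 + ‖u‖ / ρ := by positivity
  have h2 : (0 : ℝ) < 1 + ‖v‖ / ρ := by positivity
  have h3 : 1 + ‖u‖ / ρ ≤ (1 + r) * (1 + ‖v‖ / ρ) := by
    have h4 : ‖u‖ ≤ ‖v‖ + r := by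
      have := norm_add_le (u - v) v
      rw [sub_add_cancel] at this
      linarith
    have h5 : ‖u‖ / ρ ≤ ‖v‖ / ρ + r := by
      rw [div_le_iff₀ hρ0, add_mul, div_mul_cancel₀ _ hρ0.ne']
      nlinarith
    nlinarith [div_nonneg (norm_nonneg v) hρ0.le]
  have h6 : (1 + ‖u‖ / ρ) ^ a ≤ (1 + r) ^ a * (1 + ‖v‖ / ρ) ^ a := by
    rw [← Real.mul_rpow (by positivity) h2.le]
    exact Real.rpow_le_rpow h1.le h3 ha
  rw [Real.rpow_neg h1.le, Real.rpow_neg h2.le, ← div_eq_mul_inv, le_div_iff₀ (Real.rpow_pos_of_pos h1 _),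
    inv_mul_le_iff₀ (Real.rpow_pos_of_pos h2 _)]
  linarith [h6, mul_comm ((1 + r) ^ a) ((1 + ‖v‖ / ρ) ^ a)]

/-- L-257-SP-B5 (~60 l.).  lattice sum of the weight: `∑_{o ∈ ℤ^(n+1)} (1 + |o|/ρ)^(-a) ≤ C ρ^(n+1)`, `a ≥ n + 2`, `ρ ≥ 1` (compare with the integral, or group `o` by `⌊o/ρ⌋`) -/
theorem sp_lattice_W (n : ℕ) (a : ℝ) (ha : (n : ℝ) + 2 ≤ a) : ∃ C : ℝ, 0 ≤ C ∧ ∀ ρ : ℝ, 1 ≤ ρ →
    ∑' o : (Fin n → ℤ) × ℤ, ENNReal.ofReal ((1 + ‖((zvec o.1, (o.2 : ℝ)) : ST n)‖ / ρ) ^ (-a)) ≤ ENNReal.ofReal (C * ρ ^ ((n : ℝ) + 1)) := by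
  obtain ⟨C, hC, h⟩ := sp_lintegral_spW n a (by linarith)
  have ha0 : 0 ≤ a := by have : (0 : ℝ) ≤ n := Nat.cast_nonneg n; linarith
  refine ⟨(1 + (Real.sqrt n + 1)) ^ a * C, by positivity, fun ρ hρ => ?_⟩
  have hρ0 : 0 < ρ := by linarith
  calc ∑' o : (Fin n → ℤ) × ℤ, ENNReal.ofReal ((1 + ‖((zvec o.1, (o.2 : ℝ)) : ST n)‖ / ρ) ^ (-a))
      = ∑' o : (Fin n → ℤ) × ℤ, ∫⁻ _ in cube o, spW a ρ (spPt o) := by
        refine tsum_congr fun o => ?_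
        rw [setLIntegral_const, inf_cube_volume, mul_one]
        rfl
    _ ≤ ∑' o : (Fin n → ℤ) × ℤ, ∫⁻ u in cube o, ENNReal.ofReal ((1 + (Real.sqrt n + 1)) ^ a) * spW a ρ u :=
        ENNReal.tsum_le_tsum fun o => setLIntegral_mono' (inf_cube_measurable o) fun u hu => sp_B5_W_le ha0 hρ (sp_B5_dist hu)
    _ = ∫⁻ u, ENNReal.ofReal ((1 + (Real.sqrt n + 1)) ^ a) * spW a ρ u := (sp_B5_lintegral_cubes _ _).symm
    _ = ENNReal.ofReal ((1 + (Real.sqrt n + 1)) ^ a) * ENNReal.ofReal (C * ρ ^ ((n : ℝ) + 1)) := by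
        rw [lintegral_const_mul' _ _ ENNReal.ofReal_ne_top, h ρ hρ0]
    _ = _ := by rw [← ENNReal.ofReal_mul (by positivity), mul_assoc]

/-- a sum over tuples of a product is at most the power of the sum -/
theorem sp_B6_tsum_pi {J I : Type*} [Fintype I] (ω : J → ℝ≥0∞) :
    ∑' g : I → J, ∏ i, ω (g i) ≤ (∑' j, ω j) ^ Fintype.card I := by
  classical
  rw [ENNReal.tsum_eq_iSup_sum]
  refine iSup_le fun T => ?_
  set s : Finset J := T.biUnion fun g => Finset.univ.image g with hs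
  have hT : T ⊆ Fintype.piFinset fun _ : I => s := by
    intro g hg
    rw [Fintype.mem_piFinset]
    intro i
    rw [hs, Finset.mem_biUnion]
    exact ⟨g, hg, Finset.mem_image_of_mem g (Finset.mem_univ i)⟩
  calc ∑ g ∈ T, ∏ i, ω (g i) ≤ ∑ g ∈ Fintype.piFinset fun _ : I => s, ∏ i, ω (g i) := Finset.sum_le_sum_of_subset hT
    _ = ∏ _i : I, ∑ j ∈ s, ω j := (Finset.prod_univ_sum (fun _ : I => s) fun _ j => ω j).symm
    _ ≤ ∏ _i : I, ∑' j, ω j := Finset.prod_le_prod' fun _ _ => ENNReal.sum_le_tsum s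
    _ = _ := by rw [Finset.prod_const, Finset.card_univ]

theorem sp_B6_iInf_iSup_le {I J : Type*} (x : I → J → ℝ≥0∞) : ⨅ i, ⨆ o, x i o ≤ ∑' g : I → J, ⨅ i, x i (g i) := by
  rw [iInf_iSup_eq]
  exact iSup_le fun g => ENNReal.le_tsum g

theorem sp_B6_iInf_mul_le {I : Type*} [Finite I] [Nonempty I] (c : ℝ≥0∞) (y : I → ℝ≥0∞) : ⨅ i, c * y i ≤ c * ⨅ i, y i := by
  obtain ⟨i₀, h⟩ := exists_eq_ciInf_of_finite (f := y)
  rw [← h]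
  exact iInf_le _ i₀

theorem sp_B6_iInf_sq_le {I : Type*} [Finite I] [Nonempty I] (y : I → ℝ≥0∞) : ⨅ i, y i ^ 2 ≤ (⨅ i, y i) ^ 2 := by
  obtain ⟨i₀, h⟩ := exists_eq_ciInf_of_finite (f := y)
  rw [← h]
  exact iInf_le _ i₀

/-- the combinatorial core of (D) -/
theorem sp_B6_core {J I : Type*} [AddCommGroup J] [Fintype I] (W₁ W₂ ω a : J → ℝ≥0∞) (x : I → J → ℝ≥0∞) (D : ℝ≥0∞)
    (H : ∀ (o : J) (g : I → J), ∑' q, a q * ⨅ i, W₂ (g i) * x i (q - o + g i) ≤ D * ∏ i, ω (g i)) :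
    ∑' k, (∑' o, W₁ o * a (k + o)) * (⨅ i, ⨆ o, W₂ o * x i (k + o)) ≤ (∑' o, W₁ o) * (D * (∑' j, ω j) ^ Fintype.card I) := by
  calc ∑' k, (∑' o, W₁ o * a (k + o)) * (⨅ i, ⨆ o, W₂ o * x i (k + o))
      ≤ ∑' k, (∑' o, W₁ o * a (k + o)) * ∑' g : I → J, ⨅ i, W₂ (g i) * x i (k + g i) :=
        ENNReal.tsum_le_tsum fun k => mul_le_mul_right (sp_B6_iInf_iSup_le fun i o => W₂ o * x i (k + o)) _
    _ = ∑' k, ∑' o, ∑' g : I → J, W₁ o * (a (k + o) * ⨅ i, W₂ (g i) * x i (k + g i)) := by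
        refine tsum_congr fun k => ?_
        rw [← ENNReal.tsum_mul_right]
        refine tsum_congr fun o => ?_
        rw [← ENNReal.tsum_mul_left]
        refine tsum_congr fun g => ?_
        rw [mul_assoc]
    _ = ∑' o, ∑' g : I → J, ∑' k, W₁ o * (a (k + o) * ⨅ i, W₂ (g i) * x i (k + g i)) := by
        rw [ENNReal.tsum_comm]
        refine tsum_congr fun o => ?_
        rw [ENNReal.tsum_comm]
    _ = ∑' o, W₁ o * ∑' g : I → J, ∑' q, a q * ⨅ i, W₂ (g i) * x i (q - o + g i) := by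
        refine tsum_congr fun o => ?_
        rw [← ENNReal.tsum_mul_left]
        refine tsum_congr fun g => ?_
        rw [ENNReal.tsum_mul_left]
        congr 1
        rw [← (Equiv.addRight o).tsum_eq fun q => a q * ⨅ i, W₂ (g i) * x i (q - o + g i)]
        refine tsum_congr fun k => ?_
        simp only [Equiv.coe_addRight, add_sub_cancel_right]
    _ ≤ ∑' o, W₁ o * ∑' g : I → J, D * ∏ i, ω (g i) :=
        ENNReal.tsum_le_tsum fun o => mul_le_mul_right (ENNReal.tsum_le_tsum fun g => H o g) _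
    _ = (∑' o, W₁ o) * (D * ∑' g : I → J, ∏ i, ω (g i)) := by
        rw [ENNReal.tsum_mul_right, ENNReal.tsum_mul_left]
    _ ≤ _ := mul_le_mul_right (mul_le_mul_right (sp_B6_tsum_pi ω) _) _


theorem sp_B6_W_pow {a ρ t : ℝ} (hρ : 0 < ρ) (ht : 0 ≤ t) (u : ST n) : spW a ρ u ^ t = spW (a * t) ρ u := by
  have h : (0 : ℝ) < 1 + ‖u‖ / ρ := by positivity
  unfold spW
  rw [ENNReal.ofReal_rpow_of_nonneg (Real.rpow_nonneg h.le _) ht, ← Real.rpow_mul h.le, neg_mul]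

theorem sp_B6_W_mul {a b ρ : ℝ} (hρ : 0 < ρ) (u : ST n) : spW a ρ u * spW b ρ u = spW (a + b) ρ u := by
  have h : (0 : ℝ) < 1 + ‖u‖ / ρ := by positivity
  unfold spW
  rw [← ENNReal.ofReal_mul (Real.rpow_nonneg h.le _), ← Real.rpow_add h, neg_add]

/-- the weight between two cubes -/
theorem sp_B6_W_cubes {a ρ : ℝ} (ha : 0 ≤ a) (hρ : 1 ≤ ρ) {k o : (Fin n → ℤ) × ℤ} {z y : ST n} (hz : z ∈ cube k) (hy : y ∈ cube (k + o)) :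
    spW a ρ (y - z) ≤ ENNReal.ofReal ((1 + 2 * (Real.sqrt n + 1)) ^ a) * spW a ρ (spPt o) := by
  refine sp_B5_W_le ha hρ ?_
  have e : spPt o - (y - z) = (z - spPt k) - (y - spPt (k + o)) := by
    rw [sp_B5_pt_add]
    abel
  rw [e]
  refine (norm_sub_le _ _).trans ?_
  linarith [sp_B5_dist hz, sp_B5_dist hy]

/-- mass around a point of the cube `k` -/
theorem sp_B6_mass {a ρ : ℝ} (ha : 0 ≤ a) (hρ : 1 ≤ ρ) (ν : Measure (ST n)) {k : (Fin n → ℤ) × ℤ} {z : ST n} (hz : z ∈ cube k) :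
    spMass (spW a ρ) ν z ≤ ENNReal.ofReal ((1 + 2 * (Real.sqrt n + 1)) ^ a) * ∑' o, spW a ρ (spPt o) * ν (cube (k + o)) := by
  unfold spMass
  rw [sp_B5_lintegral_cubes, ← (Equiv.addLeft k).tsum_eq, ← ENNReal.tsum_mul_left]
  refine ENNReal.tsum_le_tsum fun o => ?_
  simp only [Equiv.coe_addLeft]
  calc ∫⁻ y in cube (k + o), spW a ρ (y - z) ∂ν
      ≤ ∫⁻ _ in cube (k + o), ENNReal.ofReal ((1 + 2 * (Real.sqrt n + 1)) ^ a) * spW a ρ (spPt o) ∂ν :=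
        setLIntegral_mono' (inf_cube_measurable _) fun y hy => sp_B6_W_cubes ha hρ hz hy
    _ = _ := by rw [setLIntegral_const, mul_assoc]

/-- local norm around a point of the cube `k` -/
theorem sp_B6_loc {a ρ P : ℝ} (ha : 0 ≤ a) (hρ : 1 ≤ ρ) (hP : 0 ≤ P) (F : ST n → ℂ) {k : (Fin n → ℤ) × ℤ} {z : ST n} (hz : z ∈ cube k) :
    spLoc P (spW a ρ) F z ≤ ENNReal.ofReal ((1 + 2 * (Real.sqrt n + 1)) ^ a) *
      ∑' o, spW a ρ (spPt o) * (⨆ y ∈ cube (k + o), ‖F y‖ₑ) ^ P := by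
  unfold spLoc
  rw [sp_B5_lintegral_cubes, ← (Equiv.addLeft k).tsum_eq, ← ENNReal.tsum_mul_left]
  refine ENNReal.tsum_le_tsum fun o => ?_
  simp only [Equiv.coe_addLeft]
  calc ∫⁻ y in cube (k + o), ‖F y‖ₑ ^ P * spW a ρ (y - z)
      ≤ ∫⁻ _ in cube (k + o), (⨆ y ∈ cube (k + o), ‖F y‖ₑ) ^ P *
          (ENNReal.ofReal ((1 + 2 * (Real.sqrt n + 1)) ^ a) * spW a ρ (spPt o)) :=
        setLIntegral_mono' (inf_cube_measurable _) fun y hy =>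
          mul_le_mul' (ENNReal.rpow_le_rpow (le_iSup₂ (f := fun y (_ : y ∈ cube (k + o)) => ‖F y‖ₑ) y hy) hP) (sp_B6_W_cubes ha hρ hz hy)
    _ = _ := by
        rw [setLIntegral_const, inf_cube_volume, mul_one]
        ring

/-- powers `≤ 1` of a weighted sum -/
theorem sp_B6_pow_sum {J : Type*} (c : ℝ≥0∞) (A B : J → ℝ≥0∞) {t : ℝ} (h0 : 0 < t) (h1 : t ≤ 1) :
    (c * ∑' o, A o * B o) ^ t ≤ c ^ t * ∑' o, A o ^ t * B o ^ t := by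
  rw [ENNReal.mul_rpow_of_nonneg _ _ h0.le]
  refine mul_le_mul_right ((sp_tsum_rpow_le _ h0 h1).trans (le_of_eq (tsum_congr fun o => ?_))) _
  rw [ENNReal.mul_rpow_of_nonneg _ _ h0.le]

/-- the integrand of `spB` on the cube `k` -/
theorem sp_B6_integrand {b a ρ : ℝ} (hb0 : 0 < b) (hb1 : b < 1) (ha : 0 ≤ a) (hρ : 1 ≤ ρ) (ν : Measure (ST n)) (F : Fin (n + 1) → ST n → ℂ)
    {k : (Fin n → ℤ) × ℤ} {z : ST n} (hz : z ∈ cube k) :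
    spMass (spW a ρ) ν z ^ b * ⨅ i, spLoc (spP b) (spW a ρ) (F i) z ^ (1 - b) ≤
      (ENNReal.ofReal ((1 + 2 * (Real.sqrt n + 1)) ^ a) * ∑' o : (Fin n → ℤ) × ℤ, spW (a * ((1 - b) / 2)) ρ (spPt o)) *
        ((∑' o, spW (a * b) ρ (spPt o) * ν (cube (k + o)) ^ b) *
          ⨅ i, ⨆ o, spW (a * ((1 - b) / 2)) ρ (spPt o) * (⨆ y ∈ cube (k + o), ‖F i y‖ₑ) ^ 2) := by
  have hρ0 : 0 < ρ := by linarith
  have hP : 0 ≤ spP b := by unfold spP; exact div_nonneg (by norm_num) (by linarith)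
  have hPb : spP b * (1 - b) = 2 := by unfold spP; exact div_mul_cancel₀ _ (by linarith : (1 - b) ≠ 0)
  set c : ℝ≥0∞ := ENNReal.ofReal ((1 + 2 * (Real.sqrt n + 1)) ^ a) with hc
  have h1 : spMass (spW a ρ) ν z ^ b ≤ c ^ b * ∑' o, spW (a * b) ρ (spPt o) * ν (cube (k + o)) ^ b := by
    refine (ENNReal.rpow_le_rpow (sp_B6_mass ha hρ ν hz) hb0.le).trans ((sp_B6_pow_sum _ _ _ hb0 hb1.le).trans (le_of_eq ?_))
    simp only [sp_B6_W_pow hρ0 hb0.le, hc]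
  have h2 : ∀ i, spLoc (spP b) (spW a ρ) (F i) z ^ (1 - b) ≤ (c ^ (1 - b) * ∑' o : (Fin n → ℤ) × ℤ, spW (a * ((1 - b) / 2)) ρ (spPt o)) *
      ⨆ o, spW (a * ((1 - b) / 2)) ρ (spPt o) * (⨆ y ∈ cube (k + o), ‖F i y‖ₑ) ^ 2 := by
    intro i
    refine (ENNReal.rpow_le_rpow (sp_B6_loc ha hρ hP (F i) hz) (by linarith)).trans
      ((sp_B6_pow_sum _ _ _ (by linarith) (by linarith)).trans ?_)
    rw [mul_assoc]
    refine mul_le_mul_right ?_ _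
    rw [← ENNReal.tsum_mul_right]
    refine ENNReal.tsum_le_tsum fun o => ?_
    have e1 : spW a ρ (spPt o) ^ (1 - b) = spW (a * ((1 - b) / 2)) ρ (spPt o) * spW (a * ((1 - b) / 2)) ρ (spPt o) := by
      rw [sp_B6_W_pow hρ0 (by linarith), sp_B6_W_mul hρ0]
      congr 1
      ring
    have e2 : ((⨆ y ∈ cube (k + o), ‖F i y‖ₑ) ^ spP b) ^ (1 - b) = (⨆ y ∈ cube (k + o), ‖F i y‖ₑ) ^ 2 := by
      rw [← ENNReal.rpow_mul, hPb, ENNReal.rpow_two]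
    rw [e1, e2, mul_assoc]
    exact mul_le_mul_right (le_iSup (fun o => spW (a * ((1 - b) / 2)) ρ (spPt o) * (⨆ y ∈ cube (k + o), ‖F i y‖ₑ) ^ 2) o) _
  have hcc : c ^ b * c ^ (1 - b) = c := by
    rw [← ENNReal.rpow_add_of_nonneg _ _ hb0.le (by linarith)]
    simp
  calc spMass (spW a ρ) ν z ^ b * ⨅ i, spLoc (spP b) (spW a ρ) (F i) z ^ (1 - b)
      ≤ (c ^ b * ∑' o, spW (a * b) ρ (spPt o) * ν (cube (k + o)) ^ b) *
        ⨅ i, (c ^ (1 - b) * ∑' o : (Fin n → ℤ) × ℤ, spW (a * ((1 - b) / 2)) ρ (spPt o)) *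
          ⨆ o, spW (a * ((1 - b) / 2)) ρ (spPt o) * (⨆ y ∈ cube (k + o), ‖F i y‖ₑ) ^ 2 := mul_le_mul' h1 (iInf_mono h2)
    _ ≤ (c ^ b * ∑' o, spW (a * b) ρ (spPt o) * ν (cube (k + o)) ^ b) *
        ((c ^ (1 - b) * ∑' o : (Fin n → ℤ) × ℤ, spW (a * ((1 - b) / 2)) ρ (spPt o)) *
          ⨅ i, ⨆ o, spW (a * ((1 - b) / 2)) ρ (spPt o) * (⨆ y ∈ cube (k + o), ‖F i y‖ₑ) ^ 2) :=
        mul_le_mul_right (sp_B6_iInf_mul_le _ _) _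
    _ = _ := by
        conv_rhs => rw [← hcc]
        ring

theorem sp_B6_dat_const_mul {R₀ : ℝ} {g : E n → ℂ} (hg : Dat R₀ g) (c : ℂ) : Dat R₀ fun ξ => c * g ξ where
  meas := measurable_const.mul hg.meas
  supp := fun ξ h => hg.supp ξ (right_ne_zero_of_mul h)
  l2 := hg.l2.const_mul c

theorem sp_B6_ext_mod (g : E n → ℂ) (c : ℂ) (w z : ST n) : ext (fun ξ => c * (car ξ w * g ξ)) z = c * ext g (z + w) := by
  rw [inf_ext_translate]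
  unfold ext
  rw [← integral_const_mul]
  refine integral_congr_ae (Filter.Eventually.of_forall fun ξ => ?_)
  show car ξ z * (c * (car ξ w * g ξ)) = c * (car ξ z * (car ξ w * g ξ))
  ring

/-- suprema over translated cubes -/
theorem sp_B6_sup_mod (g : E n → ℂ) {μ : ℝ} (hμ : 0 ≤ μ) (q d : (Fin n → ℤ) × ℤ) :
    ENNReal.ofReal μ * (⨆ y ∈ cube (q + d), ‖ext g y‖ₑ) ≤ ⨆ z ∈ cube q, ‖ext (fun ξ => (μ : ℂ) * (car ξ (spPt d) * g ξ)) z‖ₑ := by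
  simp only [ENNReal.mul_iSup]
  refine iSup₂_le fun y hy => ?_
  have hz : y - spPt d ∈ cube q := by
    rw [← sp_B5_mem_add q d, sub_add_cancel]
    exact hy
  refine le_trans (le_of_eq ?_) (le_iSup₂ (f := fun z (_ : z ∈ cube q) => ‖ext (fun ξ => (μ : ℂ) * (car ξ (spPt d) * g ξ)) z‖ₑ) _ hz)
  rw [sp_B6_ext_mod, sub_add_cancel, enorm_mul]
  congr 1
  rw [← ofReal_norm, Complex.norm_real, Real.norm_of_nonneg hμ]

/-- one tuple of shifts: the unit cube estimate for the modulated data -/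
theorem sp_B6_apply {R₀ c κ C : ℝ} (hC : 0 ≤ C) (h : BrMinWith n R₀ c κ C) {ρ a l Q m En : ℝ} (hρ : 0 < ρ) (ha : 0 ≤ a) {ν : Measure (ST n)} {z₀ : ST n}
    {f : Fin (n + 1) → E n → ℂ} (hl : 1 ≤ l) (hQ : 1 ≤ Q) (hm : 0 ≤ m) (hEn : 0 ≤ En) (hν : Grow ν m n) (hν0 : ν (closedBall z₀ (l ^ 2))ᶜ = 0)
    (hf : ∀ i, Dat R₀ (f i)) (hT : TransvS Q f) (hfE : ∀ i, ∫ ξ, ‖f i ξ‖ ^ 2 ≤ En) (o : (Fin n → ℤ) × ℤ) (g : Fin (n + 1) → (Fin n → ℤ) × ℤ) :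
    ∑' q : (Fin n → ℤ) × ℤ, ν (cube q) ^ bet n * ⨅ i, spW a ρ (spPt (g i)) * (⨆ y ∈ cube (q - o + g i), ‖ext (f i) y‖ₑ) ^ 2 ≤
      ENNReal.ofReal (C * Q ^ κ * m ^ bet n * l ^ (2 * (n : ℝ) / ((n : ℝ) + 1) - c) * En) *
        ∏ i, spW (a / (2 * ((n : ℝ) + 1))) ρ (spPt (g i)) := by
  have hb : ∀ i, (0 : ℝ) < 1 + ‖spPt (g i)‖ / ρ := fun i => by positivity
  have hb1 : ∀ i, (1 : ℝ) ≤ 1 + ‖spPt (g i)‖ / ρ := fun i => by
    have : 0 ≤ ‖spPt (g i)‖ / ρ := by positivity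
    linarith
  have hμ0 : ∀ i, 0 ≤ (1 + ‖spPt (g i)‖ / ρ) ^ (-(a / 2)) := fun i => Real.rpow_nonneg (hb i).le _
  have hμ2 : ∀ i, ((1 + ‖spPt (g i)‖ / ρ) ^ (-(a / 2))) ^ 2 = (1 + ‖spPt (g i)‖ / ρ) ^ (-a) := fun i => by
    rw [← Real.rpow_natCast, ← Real.rpow_mul (hb i).le]
    congr 1
    push_cast
    ring
  have key := h l Q m En ν z₀ (fun i ξ => (((1 + ‖spPt (g i)‖ / ρ) ^ (-(a / 2)) : ℝ) : ℂ) * (car ξ (spPt (g i - o)) * f i ξ))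
    (fun i => (1 + ‖spPt (g i)‖ / ρ) ^ (-a)) hl hQ hm hEn hν hν0
    (fun i => sp_B6_dat_const_mul (inf_dat_modulate (hf i) _) _)
    (fun ξ hξ => hT ξ fun i => right_ne_zero_of_mul (right_ne_zero_of_mul (hξ i)))
    (fun i => ⟨Real.rpow_nonneg (hb i).le _, Real.rpow_le_one_of_one_le_of_nonpos (hb1 i) (by linarith)⟩)
    (fun i => by
      have e : ∀ ξ, ‖(((1 + ‖spPt (g i)‖ / ρ) ^ (-(a / 2)) : ℝ) : ℂ) * (car ξ (spPt (g i - o)) * f i ξ)‖ ^ 2 =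
          (1 + ‖spPt (g i)‖ / ρ) ^ (-a) * ‖f i ξ‖ ^ 2 := fun ξ => by
        rw [norm_mul, norm_mul, inf_car_norm, one_mul, Complex.norm_real, Real.norm_of_nonneg (hμ0 i), mul_pow, hμ2]
      simp only [e]
      rw [integral_const_mul]
      exact mul_le_mul_of_nonneg_left (hfE i) (Real.rpow_nonneg (hb i).le _))
  have hl0 : 0 < l := by linarith
  have hQ0 : 0 < Q := by linarith
  refine le_trans (ENNReal.tsum_le_tsum fun q => mul_le_mul_right ?_ _) (key.trans (le_of_eq ?_))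
  · refine le_trans (iInf_mono fun i => ?_) (sp_B6_iInf_sq_le _)
    have e1 : spW a ρ (spPt (g i)) = ENNReal.ofReal ((1 + ‖spPt (g i)‖ / ρ) ^ (-(a / 2))) ^ 2 := by
      rw [← ENNReal.ofReal_pow (hμ0 i), hμ2]
      rfl
    have e2 : q - o + g i = q + (g i - o) := by abel
    rw [e1, ← mul_pow, e2]
    exact pow_le_pow_left' (sp_B6_sup_mod (f i) (hμ0 i) q (g i - o)) 2
  · rw [ENNReal.ofReal_mul (by positivity), ← Real.finsetProd_rpow _ _ fun i _ => Real.rpow_nonneg (hb i).le _,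
      ENNReal.ofReal_prod_of_nonneg fun i _ => Real.rpow_nonneg (Real.rpow_nonneg (hb i).le _) _]
    congr 1
    refine Finset.prod_congr rfl fun i _ => ?_
    rw [← Real.rpow_mul (hb i).le]
    unfold spW
    congr 2
    rw [neg_mul, mul_one_div]

/-- L-257-SP-B6 (~400 l.; may be cut).  **(D)**.   PLAN.  `ρ = K²`, `W(o) = (1 + |o|/ρ)^(-Ew)`, `o ∈ ℤ^(n+1)`, `k(z)` = the cube of `z`, `S_i(k) = sup_{cube k} |F_i|`, `P = spP β ≤ 6`.   For `z ∈ cube k` (Peetre, `ρ ≥ 1`):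
 `spMass z ≤ C ∑_o W(o) ν(cube (k+o))`,   `spLoc P (F_i) z ≤ C ∑_o W(o) S_i(k+o)^P`.   With `x^β`, `x^(2/P)` subadditive (`sp_tsum_rpow_le`):
 `spMass^β ≤ C ∑_o W(o)^β ν(k+o)^β`,   `spLoc^(1-β) ≤ C ∑_o W(o)^(2/P) S_i(k+o)² ≤ C [∑_o W(o)^(1/P)] sup_o W(o)^(1/P) S_i(k+o)²`,   `∑_o W(o)^(1/P) ≤ C ρ^(n+1)` (`sp_lattice_W`, `Ew/P ≥ n+2`).
 `min_i sup_{o_i} x_i(o_i) ≤ ∑_{(o_i)} min_i x_i(o_i)`.   Hence `spB ≤ C ρ^(n+1) ∑_o W(o)^β ∑_{(o_i)} ∑_k ν(k+o)^β min_i W(o_i)^(1/P) S_i(k+o_i)²`.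
 Re-index `k → k - o`: the inner sum is `spS n ν f̃`, `f̃ i = W(o_i)^(1/(2P)) · (modulation of f i by the translation o_i - o)` (`inf_ext_translate`, `inf_dat_modulate`, `inf_norm_modulate`; supports unchanged, so `TransvS` unchanged),
 `∫ |f̃ i|² ≤ lam i En`, `lam i = W(o_i)^(1/P) ≤ 1`.   `BrMinWith` gives the factor `∏_i W(o_i)^(1/(2P(n+1)))`, summable: `Ew/(2P(n+1)) ≥ n+2` (`spEmin`), each sum `≤ C ρ^(n+1)`; `∑_o W(o)^β ≤ C ρ^(n+1)`.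
 Total power of `K`: `2 (n+1)(n+3)`. -/
theorem sp_broad (n : ℕ) (hn : 2 ≤ n) (R₀ c κ C Ew : ℝ) (hC : 0 ≤ C) (hκ : 0 ≤ κ) (hE : spEmin n 0 ≤ Ew) (h : BrMinWith n R₀ c κ C) :
    ∃ C' : ℝ, 0 ≤ C' ∧ BrW n R₀ Ew c (max κ (2 * ((n : ℝ) + 1) * ((n : ℝ) + 3))) C' := by
  have hn2 : (2 : ℝ) ≤ n := by exact_mod_cast hn
  have hb0 : 0 < bet n := by unfold bet; positivity
  have hb1 : bet n ≤ 2 / 3 := by
    unfold bet
    rw [div_le_div_iff₀ (by positivity) (by norm_num)]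
    linarith
  have hE' : 20 * ((n : ℝ) + 2) * ((n : ℝ) + 2) ≤ Ew := by
    have : spEmin n 0 = 20 * ((n : ℝ) + 2) * ((n : ℝ) + 2) := by unfold spEmin; push_cast; ring
    linarith
  have hE0 : 0 ≤ Ew := le_trans (by positivity) hE'
  have ha1 : (n : ℝ) + 2 ≤ Ew * ((1 - bet n) / 2) := by
    have : (1 : ℝ) / 6 ≤ (1 - bet n) / 2 := by linarith
    nlinarith
  have ha2 : (n : ℝ) + 2 ≤ Ew * bet n := by
    unfold bet
    rw [mul_div_assoc', le_div_iff₀ (by positivity)]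
    nlinarith
  have ha3 : (n : ℝ) + 2 ≤ Ew * ((1 - bet n) / 2) / (2 * ((n : ℝ) + 1)) := by
    have : (1 : ℝ) / 6 ≤ (1 - bet n) / 2 := by linarith
    rw [le_div_iff₀ (by positivity)]
    nlinarith
  obtain ⟨C₁, hC₁, H₁⟩ := sp_lattice_W n _ ha1
  obtain ⟨C₂, hC₂, H₂⟩ := sp_lattice_W n _ ha2
  obtain ⟨C₃, hC₃, H₃⟩ := sp_lattice_W n _ ha3
  refine ⟨(1 + 2 * (Real.sqrt n + 1)) ^ Ew * C₁ * C₂ * C₃ ^ (n + 1) * C, by positivity, ?_⟩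
  intro K l Q m En ν z₀ f hK hl hQ hm hEn hν hν0 hf hT hfE
  have hK0 : 0 < K := by linarith
  have hl0 : 0 < l := by linarith
  have hQ0 : 0 < Q := by linarith
  have hρ : (1 : ℝ) ≤ K ^ 2 := one_le_pow₀ hK
  have hρ0 : (0 : ℝ) < K ^ 2 := by positivity
  have core := sp_B6_core (I := Fin (n + 1)) (fun o : (Fin n → ℤ) × ℤ => spW (Ew * bet n) (K ^ 2) (spPt o))
    (fun o => spW (Ew * ((1 - bet n) / 2)) (K ^ 2) (spPt o)) (fun o => spW (Ew * ((1 - bet n) / 2) / (2 * ((n : ℝ) + 1))) (K ^ 2) (spPt o))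
    (fun q => ν (cube q) ^ bet n) (fun i q => (⨆ y ∈ cube q, ‖ext (f i) y‖ₑ) ^ 2)
    (ENNReal.ofReal (C * Q ^ κ * m ^ bet n * l ^ (2 * (n : ℝ) / ((n : ℝ) + 1) - c) * En))
    (fun o g => sp_B6_apply hC h hρ0 (le_trans (by positivity) ha1) hl hQ hm hEn hν hν0 hf hT hfE o g)
  rw [Fintype.card_fin] at core
  have hX : ((K ^ 2) ^ ((n : ℝ) + 1)) ^ (n + 3) = K ^ (2 * ((n : ℝ) + 1) * ((n : ℝ) + 3)) := by
    rw [← Real.rpow_natCast K 2, ← Real.rpow_mul hK0.le, ← Real.rpow_natCast _ (n + 3), ← Real.rpow_mul hK0.le]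
    congr 1
    push_cast
    ring
  calc spB (bet n) (spW Ew (K ^ 2)) (fun i => ext (f i)) ν
      = ∑' k : (Fin n → ℤ) × ℤ, ∫⁻ z in cube k, spMass (spW Ew (K ^ 2)) ν z ^ bet n *
          ⨅ i, spLoc (spP (bet n)) (spW Ew (K ^ 2)) (ext (f i)) z ^ (1 - bet n) := by
        unfold spB
        rw [sp_B5_lintegral_cubes]
    _ ≤ ∑' k : (Fin n → ℤ) × ℤ, (ENNReal.ofReal ((1 + 2 * (Real.sqrt n + 1)) ^ Ew) *
          ∑' o : (Fin n → ℤ) × ℤ, spW (Ew * ((1 - bet n) / 2)) (K ^ 2) (spPt o)) *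
        ((∑' o, spW (Ew * bet n) (K ^ 2) (spPt o) * ν (cube (k + o)) ^ bet n) *
          ⨅ i, ⨆ o, spW (Ew * ((1 - bet n) / 2)) (K ^ 2) (spPt o) * (⨆ y ∈ cube (k + o), ‖ext (f i) y‖ₑ) ^ 2) := by
        refine ENNReal.tsum_le_tsum fun k => ?_
        refine (setLIntegral_mono' (inf_cube_measurable k) fun z hz =>
          sp_B6_integrand hb0 (by linarith) hE0 hρ ν (fun i => ext (f i)) hz).trans (le_of_eq ?_)
        rw [setLIntegral_const, inf_cube_volume, mul_one]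
    _ ≤ (ENNReal.ofReal ((1 + 2 * (Real.sqrt n + 1)) ^ Ew) * ENNReal.ofReal (C₁ * (K ^ 2) ^ ((n : ℝ) + 1))) *
        (ENNReal.ofReal (C₂ * (K ^ 2) ^ ((n : ℝ) + 1)) *
          (ENNReal.ofReal (C * Q ^ κ * m ^ bet n * l ^ (2 * (n : ℝ) / ((n : ℝ) + 1) - c) * En) *
            ENNReal.ofReal (C₃ * (K ^ 2) ^ ((n : ℝ) + 1)) ^ (n + 1))) := by
        rw [ENNReal.tsum_mul_left]
        refine mul_le_mul' (mul_le_mul_right (H₁ _ hρ) _) (core.trans ?_)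
        exact mul_le_mul' (H₂ _ hρ) (mul_le_mul_right (pow_le_pow_left' (H₃ _ hρ) _) _)
    _ = ENNReal.ofReal (((1 + 2 * (Real.sqrt n + 1)) ^ Ew * (C₁ * (K ^ 2) ^ ((n : ℝ) + 1))) *
        ((C₂ * (K ^ 2) ^ ((n : ℝ) + 1)) * ((C * Q ^ κ * m ^ bet n * l ^ (2 * (n : ℝ) / ((n : ℝ) + 1) - c) * En) *
            (C₃ * (K ^ 2) ^ ((n : ℝ) + 1)) ^ (n + 1)))) := by
        rw [← ENNReal.ofReal_pow (by positivity), ← ENNReal.ofReal_mul (by positivity), ← ENNReal.ofReal_mul (by positivity),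
          ← ENNReal.ofReal_mul (by positivity), ← ENNReal.ofReal_mul (by positivity)]
    _ ≤ _ := by
        refine ENNReal.ofReal_le_ofReal ?_
        have h1 : K ^ (2 * ((n : ℝ) + 1) * ((n : ℝ) + 3)) ≤ K ^ (max κ (2 * ((n : ℝ) + 1) * ((n : ℝ) + 3))) :=
          Real.rpow_le_rpow_of_exponent_le hK (le_max_right _ _)
        have h2 : Q ^ κ ≤ Q ^ (max κ (2 * ((n : ℝ) + 1) * ((n : ℝ) + 3))) :=
          Real.rpow_le_rpow_of_exponent_le hQ (le_max_left _ _)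
        calc ((1 + 2 * (Real.sqrt n + 1)) ^ Ew * (C₁ * (K ^ 2) ^ ((n : ℝ) + 1))) *
            ((C₂ * (K ^ 2) ^ ((n : ℝ) + 1)) * ((C * Q ^ κ * m ^ bet n * l ^ (2 * (n : ℝ) / ((n : ℝ) + 1) - c) * En) *
              (C₃ * (K ^ 2) ^ ((n : ℝ) + 1)) ^ (n + 1)))
            = ((1 + 2 * (Real.sqrt n + 1)) ^ Ew * C₁ * C₂ * C₃ ^ (n + 1) * C) * ((K ^ 2) ^ ((n : ℝ) + 1)) ^ (n + 3) * Q ^ κ *
                m ^ bet n * l ^ (2 * (n : ℝ) / ((n : ℝ) + 1) - c) * En := by ring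
          _ ≤ _ := by
              rw [hX]
              gcongr

end Claimed.Agent.R257
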