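import Claimed.Agent.R257.Sp.Maj
import Claimed.Agent.R257.Sp.Nar
import Claimed.Agent.R257.Sp.Bro

/-!
# R257 / Sp / Root : FROM THE UNIT CUBE FUNCTIONAL `supN` TO `spT`, SUM OVER THE LAYERS        (captain helper7)        (H sparse.tex l.42-100)

No Sobolev inequality and no derivatives of the array: the layers are taken FIRST (at the level of `supN`), and exact fields are locally constant (`LcStmt`).   No Minkowski inequality: Cauchy-Schwarz with the summable weights.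
Every `sorry` is a LEAF `L-257-SP-R*`.  Statements frozen (tell helper7 at once if one looks false or awkward).  Prove IN PLACE, helper lemmas directly above, prefix `sp_<leaf>_`.
-/

set_option autoImplicit false

namespace Claimed.Agent.R257

open MeasureTheory Metric Set
open scoped ENNReal

variable {n : ℕ} {ι : Type}

/-- the mass of a cube is controlled by the weighted mass about any of its points -/
theorem sp_R1_mass {Ew : ℝ} (hE : 0 ≤ Ew) (ν : Measure (ST n)) (k : (Fin n → ℤ) × ℤ) {z : ST n} (hz : z ∈ cube k) :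
    ν (cube k) ≤ ENNReal.ofReal ((Real.sqrt n + 2) ^ Ew) * spMass (spW Ew 1) ν z := by
  have hs : 0 ≤ Real.sqrt n := Real.sqrt_nonneg _
  have h1 : ENNReal.ofReal ((Real.sqrt n + 2) ^ (-Ew)) * ν (cube k) ≤ spMass (spW Ew 1) ν z := by
    unfold spMass
    calc ENNReal.ofReal ((Real.sqrt n + 2) ^ (-Ew)) * ν (cube k)
        = ∫⁻ _y in cube k, ENNReal.ofReal ((Real.sqrt n + 2) ^ (-Ew)) ∂ν := by rw [setLIntegral_const]
      _ ≤ ∫⁻ y in cube k, spW Ew 1 (y - z) ∂ν := by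
          refine setLIntegral_mono' (inf_cube_measurable k) fun y hy => ?_
          unfold spW
          refine ENNReal.ofReal_le_ofReal ?_
          have h2 : ‖y - z‖ ≤ Real.sqrt n + 1 := by
            have := inf_cube_subset_ball k hz hy
            rwa [mem_closedBall, dist_eq_norm] at this
          rw [div_one]
          exact Real.rpow_le_rpow_of_nonpos (by positivity) (by linarith) (by linarith)
      _ ≤ ∫⁻ y, spW Ew 1 (y - z) ∂ν := setLIntegral_le_lintegral _ _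
  calc ν (cube k) = ENNReal.ofReal ((Real.sqrt n + 2) ^ Ew) * (ENNReal.ofReal ((Real.sqrt n + 2) ^ (-Ew)) * ν (cube k)) := by
        rw [← mul_assoc, ← ENNReal.ofReal_mul (by positivity), ← Real.rpow_add (by positivity)]
        simp
    _ ≤ _ := mul_le_mul' le_rfl h1

/-- L-257-SP-R1 (~150 l.).  **`supN ≤ C spT` at unit scale.**   For `z ∈ cube k` (`inf_cube_subset_ball`, `r = √n + 1`): `ν (cube k) ≤ (√n + 2)^Ew spMass (spW Ew 1) ν z`, and `LcStmt` (`P = spP β ≥ 1`):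
`(sup_{cube k} |F|)² = ((sup |F|)^P)^(1-β) ≤ (C spLoc P (spW Ew 1) F z)^(1-β)`.   `volume (cube k) = 1`, so `ν(cube k)^β sup² ≤ C ∫_{cube k} spMass^β spLoc^(1-β)`; `lintegral_iUnion` (disjoint measurable cubes). -/
theorem sp_supN_le_spT (n : ℕ) (hn : 2 ≤ n) (hLc : LcStmt n) (R₀ Ew : ℝ) (hE : 0 ≤ Ew) : ∃ C : ℝ, 0 ≤ C ∧ ∀ (g : E n → ℂ) (ν : Measure (ST n)), Dat R₀ g →
    supN (bet n) ν (ext g) ≤ ENNReal.ofReal C * spT (bet n) (spW Ew 1) (ext g) ν := by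
  have hn2 : (2 : ℝ) ≤ n := by exact_mod_cast hn
  have hs : 0 ≤ Real.sqrt n := Real.sqrt_nonneg _
  have hβ0 : 0 < bet n := by unfold bet; positivity
  have hβ1 : 0 < 1 - bet n := by
    unfold bet
    rw [sub_pos, div_lt_one (by positivity)]
    linarith
  have hP : 1 ≤ spP (bet n) := by
    unfold spP
    rw [le_div_iff₀ hβ1]
    linarith
  have hP0 : 0 < spP (bet n) := by linarith
  have hP2 : spP (bet n) * (1 - bet n) = 2 := by
    unfold spP
    field_simp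
  obtain ⟨CL, hCL⟩ := hLc R₀ (spP (bet n)) Ew (Real.sqrt n + 1) hP
  refine ⟨((Real.sqrt n + 2) ^ Ew) ^ bet n * (max CL 0) ^ (1 - bet n), by positivity, ?_⟩
  intro g ν hg
  have key : ∀ (k : (Fin n → ℤ) × ℤ) (z : ST n), z ∈ cube k → ν (cube k) ^ bet n * (⨆ y ∈ cube k, ‖ext g y‖ₑ) ^ 2 ≤
      ENNReal.ofReal (((Real.sqrt n + 2) ^ Ew) ^ bet n * (max CL 0) ^ (1 - bet n)) *
        (spMass (spW Ew 1) ν z ^ bet n * spLoc (spP (bet n)) (spW Ew 1) (ext g) z ^ (1 - bet n)) := by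
    intro k z hz
    have h1 : ν (cube k) ^ bet n ≤ ENNReal.ofReal (((Real.sqrt n + 2) ^ Ew) ^ bet n) * spMass (spW Ew 1) ν z ^ bet n := by
      rw [← ENNReal.ofReal_rpow_of_nonneg (by positivity) hβ0.le, ← ENNReal.mul_rpow_of_nonneg _ _ hβ0.le]
      exact ENNReal.rpow_le_rpow (sp_R1_mass hE ν k hz) hβ0.le
    have h2 : (⨆ y ∈ cube k, ‖ext g y‖ₑ) ≤
        (ENNReal.ofReal (max CL 0) * spLoc (spP (bet n)) (spW Ew 1) (ext g) z) ^ (1 / spP (bet n)) := by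
      refine iSup₂_le fun y hy => ?_
      have h3 : ‖y - z‖ ≤ Real.sqrt n + 1 := by
        have := inf_cube_subset_ball k hz hy
        rwa [mem_closedBall, dist_eq_norm] at this
      have h4 := (hCL g z y hg h3).trans (mul_le_mul' (ENNReal.ofReal_le_ofReal (le_max_left CL 0)) le_rfl)
      calc ‖ext g y‖ₑ = (‖ext g y‖ₑ ^ spP (bet n)) ^ (1 / spP (bet n)) := by
            rw [← ENNReal.rpow_mul, mul_one_div_cancel hP0.ne', ENNReal.rpow_one]
        _ ≤ _ := ENNReal.rpow_le_rpow h4 (by positivity)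
    have h5 : (⨆ y ∈ cube k, ‖ext g y‖ₑ) ^ 2 ≤
        ENNReal.ofReal ((max CL 0) ^ (1 - bet n)) * spLoc (spP (bet n)) (spW Ew 1) (ext g) z ^ (1 - bet n) := by
      refine (pow_le_pow_left' h2 2).trans (le_of_eq ?_)
      rw [← ENNReal.rpow_two, ← ENNReal.rpow_mul, ← ENNReal.ofReal_rpow_of_nonneg (le_max_right _ _) hβ1.le,
        ← ENNReal.mul_rpow_of_nonneg _ _ hβ1.le]
      congr 1
      rw [← hP2]
      field_simp
    calc ν (cube k) ^ bet n * (⨆ y ∈ cube k, ‖ext g y‖ₑ) ^ 2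
        ≤ (ENNReal.ofReal (((Real.sqrt n + 2) ^ Ew) ^ bet n) * spMass (spW Ew 1) ν z ^ bet n)
          * (ENNReal.ofReal ((max CL 0) ^ (1 - bet n)) * spLoc (spP (bet n)) (spW Ew 1) (ext g) z ^ (1 - bet n)) :=
          mul_le_mul' h1 h5
      _ = _ := by
          rw [ENNReal.ofReal_mul (by positivity)]
          ring
  have hU : (⋃ k : (Fin n → ℤ) × ℤ, (cube k : Set (ST n))) = univ := by
    refine Set.eq_univ_of_forall fun z => ?_
    obtain ⟨k, hk, _⟩ := inf_cube_partition z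
    exact Set.mem_iUnion.2 ⟨k, hk⟩
  have hdisj : Pairwise (Function.onFun Disjoint fun k : (Fin n → ℤ) × ℤ => (cube k : Set (ST n))) := by
    intro k k' hkk'
    refine Set.disjoint_left.2 fun z hz hz' => hkk' ?_
    exact (inf_cube_partition z).unique hz hz'
  unfold supN spT
  rw [← lintegral_const_mul' _ _ ENNReal.ofReal_ne_top, ← setLIntegral_univ, ← hU,
    lintegral_iUnion (fun k => inf_cube_measurable k) hdisj]
  refine ENNReal.tsum_le_tsum fun k => ?_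
  calc ν (cube k) ^ bet n * (⨆ y ∈ cube k, ‖ext g y‖ₑ) ^ 2
      = ∫⁻ _z in cube k, ν (cube k) ^ bet n * (⨆ y ∈ cube k, ‖ext g y‖ₑ) ^ 2 := by
        rw [setLIntegral_const, inf_cube_volume, mul_one]
    _ ≤ _ := setLIntegral_mono' (inf_cube_measurable k) fun z hz => key k z hz

/-- L-257-SP-R2 (~120 l.).  **Root of the tree.**   `fld = ext (∑ c g)` (`sp_ext_sum`, `sp_dat`, `‖sh‖ ≤ k₀/l ≤ 1`), `sp_supN_le_spT`, `spT_coarsen` with `ρ = K²`, the hypothesis;  `(K²)^(-(n+1)) K^(2(n+1)) = 1`. -/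
theorem sp_root (n : ℕ) (hn : 2 ≤ n) (hLc : LcStmt n) (𝒦 : XCls) (M : ℕ) (T Ew : ℝ) (hE : (n : ℝ) + 2 ≤ Ew) : ∃ C : ℝ, 0 ≤ C ∧
    ∀ k₀ K D l X : ℝ, 1 ≤ K → k₀ ≤ l → 0 ≤ X → SpBd n 𝒦 M T (Ew - ((n : ℝ) + 2)) k₀ K D l X →
    ∀ (ι : Type) (N : XArr n ι) (s : Finset ι) (c : ι → ℂ) (ν : Measure (ST n)) (m : ℝ),
      N.l = l → N.In s 𝒦 → ‖N.sh‖ * l ≤ k₀ → 0 ≤ m → Grow ν m n → Slab ν (T * l ^ 2) → TubeMom ν N.toArr s m D M →
      supN (bet n) ν (N.fld s c) ≤ ENNReal.ofReal (C * X * m ^ bet n * l ^ (2 * (n : ℝ) / ((n : ℝ) + 1)) * energy s c) := by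
  have hn2 : (2 : ℝ) ≤ n := by exact_mod_cast hn
  have hβ0 : 0 < bet n := by unfold bet; positivity
  have hβ1 : bet n < 1 := by
    unfold bet
    rw [div_lt_one (by positivity)]
    linarith
  obtain ⟨C₁, hC₁, h1⟩ := sp_supN_le_spT n hn hLc (𝒦.Rw + 1 + 𝒦.C₁) Ew (by linarith)
  obtain ⟨C₂, hC₂, h2⟩ := spT_coarsen n (bet n) Ew hβ0 hβ1 hE
  refine ⟨C₁ * C₂, by positivity, ?_⟩
  intro k₀ K D l X hK hkl hX hBd ι N s c ν m hNl hIn hsh hm hg hslab htm
  have hl1 : 1 ≤ l := hNl ▸ hIn.dec.one_le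
  have hl0 : 0 < l := by linarith
  have hK0 : 0 < K := by linarith
  have hsh1 : ‖N.sh‖ ≤ 1 := by
    have : ‖N.sh‖ * l ≤ 1 * l := by linarith
    exact le_of_mul_le_mul_right this hl0
  have hdat := sp_dat hIn hsh1 (Finset.Subset.refl s) c
  have hext : ext (fun ξ => ∑ α ∈ s, c α * N.g α ξ) = N.fld s c := funext (sp_ext_sum hIn (Finset.Subset.refl s) c)
  have hσ : SigmaFinite ν := sp_grow_sigmaFinite hg
  have h3 := h1 _ ν hdat
  have h4 := h2 (K ^ 2) (ext fun ξ => ∑ α ∈ s, c α * N.g α ξ) ν (one_le_pow₀ hK) (inf_ext_continuous hdat).measurable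
  have h5 := hBd ι N s c ν m hNl hIn hsh hm hg hslab htm
  rw [hext] at h3 h4
  have he : 0 ≤ energy s c := Finset.sum_nonneg fun _ _ => by positivity
  calc supN (bet n) ν (N.fld s c) ≤ ENNReal.ofReal C₁ * spT (bet n) (spW Ew 1) (N.fld s c) ν := h3
    _ ≤ ENNReal.ofReal C₁ * (ENNReal.ofReal (C₂ * (K ^ 2) ^ (-((n : ℝ) + 1)))
          * ENNReal.ofReal (X * K ^ (2 * ((n : ℝ) + 1)) * m ^ bet n * l ^ (2 * (n : ℝ) / ((n : ℝ) + 1)) * energy s c)) :=
        mul_le_mul' le_rfl (h4.trans (mul_le_mul' le_rfl h5))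
    _ = _ := by
        rw [← ENNReal.ofReal_mul (by positivity), ← ENNReal.ofReal_mul hC₁]
        congr 1
        have e1 : (K ^ 2) ^ (-((n : ℝ) + 1)) * K ^ (2 * ((n : ℝ) + 1)) = 1 := by
          rw [← Real.rpow_natCast K 2, ← Real.rpow_mul hK0.le, ← Real.rpow_add hK0]
          have : ((2 : ℕ) : ℝ) * (-((n : ℝ) + 1)) + 2 * ((n : ℝ) + 1) = 0 := by push_cast; ring
          rw [this, Real.rpow_zero]
        calc C₁ * (C₂ * (K ^ 2) ^ (-((n : ℝ) + 1)) * (X * K ^ (2 * ((n : ℝ) + 1)) * m ^ bet n * l ^ (2 * (n : ℝ) / ((n : ℝ) + 1)) * energy s c))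
            = C₁ * C₂ * X * m ^ bet n * l ^ (2 * (n : ℝ) / ((n : ℝ) + 1)) * energy s c * ((K ^ 2) ^ (-((n : ℝ) + 1)) * K ^ (2 * ((n : ℝ) + 1))) := by ring
          _ = _ := by rw [e1, mul_one]

/-- Cauchy-Schwarz with weights, finite sums -/
theorem sp_R3_cs_fin {J : Type} (s : Finset J) (α X : J → ℝ≥0∞) :
    ∑ j ∈ s, α j * X j ≤ (∑ j ∈ s, α j) ^ (1 / (2 : ℝ)) * (∑ j ∈ s, α j * X j ^ 2) ^ (1 / (2 : ℝ)) := by
  have h := ENNReal.inner_le_Lp_mul_Lq s (fun j => α j ^ (1 / (2 : ℝ))) (fun j => α j ^ (1 / (2 : ℝ)) * X j)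
    Real.HolderConjugate.two_two
  have e1 : ∀ j, α j ^ (1 / (2 : ℝ)) * (α j ^ (1 / (2 : ℝ)) * X j) = α j * X j := by
    intro j
    rw [← mul_assoc, ← ENNReal.rpow_add_of_nonneg _ _ (by norm_num) (by norm_num)]
    norm_num
  have e2 : ∀ j, (α j ^ (1 / (2 : ℝ))) ^ (2 : ℝ) = α j := by
    intro j
    rw [← ENNReal.rpow_mul]
    norm_num
  have e3 : ∀ j, (α j ^ (1 / (2 : ℝ)) * X j) ^ (2 : ℝ) = α j * X j ^ 2 := by
    intro j
    rw [ENNReal.mul_rpow_of_nonneg _ _ (by norm_num), e2, ENNReal.rpow_two]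
  simp only [e1, e2, e3] at h
  exact h

/-- Cauchy-Schwarz with weights -/
theorem sp_R3_cs {J : Type} (α X : J → ℝ≥0∞) : (∑' j, α j * X j) ^ 2 ≤ (∑' j, α j) * ∑' j, α j * X j ^ 2 := by
  have h1 : ∑' j, α j * X j ≤ ((∑' j, α j) * ∑' j, α j * X j ^ 2) ^ (1 / (2 : ℝ)) := by
    rw [ENNReal.tsum_eq_iSup_sum]
    refine iSup_le fun s => (sp_R3_cs_fin s α X).trans ?_
    rw [ENNReal.mul_rpow_of_nonneg _ _ (by norm_num)]
    exact mul_le_mul' (ENNReal.rpow_le_rpow (ENNReal.sum_le_tsum s) (by norm_num))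
      (ENNReal.rpow_le_rpow (ENNReal.sum_le_tsum s) (by norm_num))
  calc (∑' j, α j * X j) ^ 2 ≤ (((∑' j, α j) * ∑' j, α j * X j ^ 2) ^ (1 / (2 : ℝ))) ^ 2 := pow_le_pow_left' h1 2
    _ = (∑' j, α j) * ∑' j, α j * X j ^ 2 := by
        rw [← ENNReal.rpow_two, ← ENNReal.rpow_mul]
        norm_num

/-- L-257-SP-R3 (~150 l.).  **Countable sums.**   A cube of positive mass meets the slab, so `|t| ≤ T' + 1` on it.  There `‖U z‖ₑ ≤ ∑' a_j ‖F_j z‖ₑ` and (Cauchy-Schwarz, e.g. `ENNReal.lintegral_mul_le_Lp_mul_Lq` for the counting measure, or finite sums + `iSup`)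
`(∑' a_j x_j)² ≤ (∑' a_j)(∑' a_j x_j²)`;  `sup_q` of a sum `≤` sum of the `sup_q`;  `ENNReal.tsum_comm`.   (`0 < b` is needed: for `b ≤ 0` the cubes of mass zero outside the slab count.) -/
theorem sp_supN_tsum {J : Type} [Countable J] (b : ℝ) (hb : 0 < b) (a : J → ℝ) (ha : ∀ j, 0 ≤ a j) (F : J → ST n → ℂ) (U : ST n → ℂ) (ν : Measure (ST n)) (T' : ℝ) (hν : Slab ν T')
    (h : ∀ z : ST n, |z.2| ≤ T' + 1 → HasSum (fun j => (a j : ℂ) * F j z) (U z)) :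
    supN b ν U ≤ (∑' j, ENNReal.ofReal (a j)) * ∑' j, ENNReal.ofReal (a j) * supN b ν (F j) := by
  have key : ∀ k : (Fin n → ℤ) × ℤ, ν (cube k) ^ b * (⨆ z ∈ cube k, ‖U z‖ₑ) ^ 2 ≤
      (∑' j, ENNReal.ofReal (a j)) * ∑' j, ENNReal.ofReal (a j) * (ν (cube k) ^ b * (⨆ z ∈ cube k, ‖F j z‖ₑ) ^ 2) := by
    intro k
    by_cases h0 : ν (cube k) = 0
    · rw [h0, ENNReal.zero_rpow_of_pos hb, zero_mul]
      exact zero_le
    · have hy : ∃ y ∈ (cube k : Set (ST n)), |y.2| ≤ T' := by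
        by_contra hcon
        push Not at hcon
        exact h0 (measure_mono_null (fun y hy => hcon y hy) hν)
      obtain ⟨y, hyk, hyT⟩ := hy
      have hsup : (⨆ z ∈ cube k, ‖U z‖ₑ) ≤ ∑' j, ENNReal.ofReal (a j) * ⨆ z ∈ cube k, ‖F j z‖ₑ := by
        refine iSup₂_le fun z hz => ?_
        have hzT : |z.2| ≤ T' + 1 := by
          have h1 := hz.2
          have h2 := hyk.2
          rw [abs_le] at hyT ⊢
          constructor <;> linarith [h1.1, h1.2, h2.1, h2.2, hyT.1, hyT.2]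
        refine (h z hzT).enorm_le_of_bounded ENNReal.summable.hasSum fun j => ?_
        rw [enorm_mul]
        refine mul_le_mul' (le_of_eq ?_) (le_iSup₂ (f := fun z (_ : z ∈ cube k) => ‖F j z‖ₑ) z hz)
        rw [← ofReal_norm, Complex.norm_real, Real.norm_of_nonneg (ha j)]
      calc ν (cube k) ^ b * (⨆ z ∈ cube k, ‖U z‖ₑ) ^ 2
          ≤ ν (cube k) ^ b * (∑' j, ENNReal.ofReal (a j) * ⨆ z ∈ cube k, ‖F j z‖ₑ) ^ 2 :=
            mul_le_mul' le_rfl (pow_le_pow_left' hsup 2)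
        _ ≤ ν (cube k) ^ b * ((∑' j, ENNReal.ofReal (a j)) * ∑' j, ENNReal.ofReal (a j) * (⨆ z ∈ cube k, ‖F j z‖ₑ) ^ 2) :=
            mul_le_mul' le_rfl (sp_R3_cs _ _)
        _ = _ := by
            rw [mul_left_comm, ← ENNReal.tsum_mul_left]
            congr 1
            refine tsum_congr fun j => ?_
            ring
  unfold supN
  calc ∑' k : (Fin n → ℤ) × ℤ, ν (cube k) ^ b * (⨆ z ∈ cube k, ‖U z‖ₑ) ^ 2
      ≤ ∑' k : (Fin n → ℤ) × ℤ, (∑' j, ENNReal.ofReal (a j)) * ∑' j, ENNReal.ofReal (a j) * (ν (cube k) ^ b * (⨆ z ∈ cube k, ‖F j z‖ₑ) ^ 2) :=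
        ENNReal.tsum_le_tsum key
    _ = _ := by
        rw [ENNReal.tsum_mul_left, ENNReal.tsum_comm]
        congr 1
        refine tsum_congr fun j => ?_
        rw [ENNReal.tsum_mul_left]

/-- L-257-SP-R3 (~20 l.) -/
theorem sp_supN_unimod (b : ℝ) (ν : Measure (ST n)) (u F : ST n → ℂ) (hu : ∀ z, ‖u z‖ = 1) : supN b ν (fun z => u z * F z) = supN b ν F := by
  unfold supN
  have h : ∀ z, ‖u z * F z‖ₑ = ‖F z‖ₑ := by
    intro z
    rw [enorm_mul, ← ofReal_norm (u z), hu z, ENNReal.ofReal_one, one_mul]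
  simp only [h]

/-- L-257-SP-R4 (~80 l.).  `∑_{κ ∈ ℤⁿ × ℤ} (1 + |κ|)^(-(n+2)) < ∞` -/
theorem sp_layer_sum (n : ℕ) : ∃ C : ℝ, 0 ≤ C ∧ ∑' κ : (Fin n → ℤ) × ℤ, ENNReal.ofReal ((1 + spKn κ) ^ (-((n : ℝ) + 2))) ≤ ENNReal.ofReal C := by
  obtain ⟨C, hC, h⟩ := sp_lattice_W n ((n : ℝ) + 2) le_rfl
  refine ⟨C, hC, ?_⟩
  have h1 := h 1 le_rfl
  rw [Real.one_rpow, mul_one] at h1
  refine le_trans (ENNReal.tsum_le_tsum fun κ => ENNReal.ofReal_le_ofReal ?_) h1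
  rw [div_one]
  refine Real.rpow_le_rpow_of_nonpos (by positivity) ?_ (by linarith [(Nat.cast_nonneg n : (0 : ℝ) ≤ n)])
  have h2 : ‖((zvec κ.1, (κ.2 : ℝ)) : ST n)‖ ≤ spKn κ := by
    rw [Prod.norm_def, spKn]
    refine max_le (le_add_of_nonneg_right (abs_nonneg _)) ?_
    rw [Real.norm_eq_abs]
    exact le_add_of_nonneg_left (norm_nonneg _)
  linarith

end Claimed.Agent.R257
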