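import Claimed.Agent.R257.Sp.Step
import Claimed.Agent.R257.Sp.Root
import Claimed.Agent.R257.Sp.Bro

/-!
# R257 / Sp / Main : ITERATION, ORDER OF THE PARAMETERS, EXITS        (captain helper7)        (H sparse.tex l.398-460)

ORDER.  `C₁` (LayStmt) → `R₀ = max Rw √n + 1 + C₁` → `(c, κ)` broad gain and exponent (`sp_brG`, `sp_brA`, `sp_brMin_of`, `sp_broad`) → `cs = β c/(8n)`.   Then `τ, M` → depth `Jd`, `ε = τ β c/(8n)`, decay order `A` →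
weight exponents `E₀ + j (n+2)` → derivative order `J` (LayStmt) → `B` → constants.
`a₀ = β/(2n)`, `l₀ = D^a₀` terminal scale, `K = (L/l₀)^(1/Jd)`, near layers `|k| ≤ l₀`.
THIS FILE IS COMPLETE: `sp_sparse`, `sp_powerloss` are proved from the exits of `Step`, `Root`, `Bro`, `Maj`.
-/

set_option autoImplicit false

namespace Claimed.Agent.R257

open MeasureTheory Metric Set
open scoped ENNReal

variable {n : ℕ} {ι : Type}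

theorem sp_energy_nonneg (s : Finset ι) (c : ι → ℂ) : 0 ≤ energy s c :=
  Finset.sum_nonneg fun _ _ => by positivity

theorem SpBd.mono {𝒦 : XCls} {M : ℕ} {T Ew k₀ K D l X X' : ℝ} (h : SpBd n 𝒦 M T Ew k₀ K D l X) (hX : X ≤ X') (hK : 0 ≤ K) (hl : 0 ≤ l) :
    SpBd n 𝒦 M T Ew k₀ K D l X' := by
  intro ι N s c ν m h1 h2 h3 hm h5 h6 h7
  refine (h ι N s c ν m h1 h2 h3 hm h5 h6 h7).trans (ENNReal.ofReal_le_ofReal ?_)
  have e := sp_energy_nonneg s c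
  gcongr

theorem sp_spEmin_mono (n : ℕ) {A A' : ℕ} (h : A ≤ A') : spEmin n A ≤ spEmin n A' := by
  unfold spEmin
  have : (A : ℝ) ≤ A' := by exact_mod_cast h
  gcongr

/-- **Iteration of `sp_step`**: `j` steps from the scale `l₀` up to `l₀ K^j`. -/
theorem sp_iter (n : ℕ) (hn : 2 ≤ n) (hSd : SdStmt n) (𝒦 : XCls) (M : ℕ) (T E₀ ε c κ : ℝ) (hT : 0 ≤ T) (hC₁ : 0 ≤ 𝒦.C₁) (hRw : Real.sqrt n ≤ 𝒦.Rw)
    (hA : 2 * (n + 1) ^ 2 + n + 1 ≤ 𝒦.A) (hE : spEmin n 𝒦.A ≤ E₀) (hε : 0 < ε) (hκ : 0 ≤ κ)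
    (hBr : ∀ Ew : ℝ, spEmin n 0 ≤ Ew → ∃ CB : ℝ, BrW n (𝒦.Rw + 1 + 𝒦.C₁) Ew c κ CB) (j : ℕ) : ∃ C : ℝ, 0 ≤ C ∧
    ∀ k₀ K D l₀ X₀ Y : ℝ, 1 ≤ K → K ^ 2 ≤ l₀ → k₀ ≤ l₀ → 0 ≤ X₀ → 0 ≤ Y → 0 < D →
      (∀ i : ℕ, i ≤ j → K ^ ((n : ℝ) ^ 2 + 5 * n + 2 * κ) * (l₀ * K ^ i) ^ (-c) + (l₀ * K ^ i) ^ (-1 : ℝ) ≤ Y) →
      SpBd n 𝒦 M T E₀ k₀ K D l₀ X₀ → SpBd n 𝒦 M T (E₀ + j * ((n : ℝ) + 2)) k₀ K D (l₀ * K ^ j) (C * K ^ (ε * j) * (X₀ + Y)) := by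
  induction j with
  | zero =>
    refine ⟨1, zero_le_one, ?_⟩
    intro k₀ K D l₀ X₀ Y hK hKl hk hX hY hD _ h
    have hl0 : 0 ≤ l₀ := le_trans (by positivity) hKl
    have e1 : E₀ + ((0 : ℕ) : ℝ) * ((n : ℝ) + 2) = E₀ := by simp
    have e2 : l₀ * K ^ 0 = l₀ := by simp
    rw [e1, e2]
    refine h.mono ?_ (by linarith) hl0
    simp
    exact hY
  | succ j ih =>
    obtain ⟨Cj, hCj, ih⟩ := ih
    have hn0 : (0 : ℝ) ≤ n := Nat.cast_nonneg n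
    have hEw : spEmin n 𝒦.A ≤ E₀ + ((j + 1 : ℕ) : ℝ) * ((n : ℝ) + 2) := by
      have : 0 ≤ ((j + 1 : ℕ) : ℝ) * ((n : ℝ) + 2) := by positivity
      linarith
    obtain ⟨CB, hCB⟩ := hBr (E₀ + ((j + 1 : ℕ) : ℝ) * ((n : ℝ) + 2)) ((sp_spEmin_mono n (Nat.zero_le _)).trans hEw)
    obtain ⟨Cs, hCs, hstep⟩ := sp_step n hn hSd 𝒦 M T (E₀ + ((j + 1 : ℕ) : ℝ) * ((n : ℝ) + 2)) ε c κ CB hT hC₁ hRw hA hEw hε hκ hCB
    refine ⟨Cs * Cj + Cs, by positivity, ?_⟩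
    intro k₀ K D l₀ X₀ Y hK hKl hk hX hY hD hYi h
    have hK0 : 0 < K := by linarith
    have hl0 : 0 < l₀ := lt_of_lt_of_le (by positivity) hKl
    have hKj : 1 ≤ K ^ (j + 1) := one_le_pow₀ hK
    have hll : l₀ ≤ l₀ * K ^ (j + 1) := le_mul_of_one_le_right hl0.le hKj
    have h1 := ih k₀ K D l₀ X₀ Y hK hKl hk hX hY hD (fun i hi => hYi i (by omega)) h
    have e1 : E₀ + ((j + 1 : ℕ) : ℝ) * ((n : ℝ) + 2) - ((n : ℝ) + 2) = E₀ + (j : ℝ) * ((n : ℝ) + 2) := by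
      push_cast; ring
    have e2 : l₀ * K ^ (j + 1) / K = l₀ * K ^ j := by
      rw [pow_succ]; field_simp
    have hXj : 0 ≤ Cj * K ^ (ε * j) * (X₀ + Y) := by positivity
    have h2 := hstep k₀ K D (l₀ * K ^ (j + 1)) (Cj * K ^ (ε * j) * (X₀ + Y)) hK (hKl.trans hll) (hk.trans hll) hXj hD
      (by rw [e1, e2]; exact h1)
    refine h2.mono ?_ hK0.le (by positivity)
    have h3 := hYi (j + 1) le_rfl
    have e3 : K ^ (ε * ((j + 1 : ℕ) : ℝ)) = K ^ ε * K ^ (ε * j) := by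
      rw [← Real.rpow_add hK0]; congr 1; push_cast; ring
    have h4 : 1 ≤ K ^ (ε * ((j + 1 : ℕ) : ℝ)) := Real.one_le_rpow hK (by positivity)
    have h5 : Cs * K ^ ((n : ℝ) ^ 2 + 5 * n + 2 * κ) * (l₀ * K ^ (j + 1)) ^ (-c) + Cs * (l₀ * K ^ (j + 1)) ^ (-1 : ℝ) ≤ Cs * Y := by
      calc _ = Cs * (K ^ ((n : ℝ) ^ 2 + 5 * n + 2 * κ) * (l₀ * K ^ (j + 1)) ^ (-c) + (l₀ * K ^ (j + 1)) ^ (-1 : ℝ)) := by ring
        _ ≤ Cs * Y := mul_le_mul_of_nonneg_left h3 hCs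
    have h6 : Cs * Y ≤ Cs * K ^ (ε * ((j + 1 : ℕ) : ℝ)) * (X₀ + Y) := by
      calc Cs * Y ≤ Cs * (X₀ + Y) := mul_le_mul_of_nonneg_left (by linarith) hCs
        _ = Cs * 1 * (X₀ + Y) := by ring
        _ ≤ Cs * K ^ (ε * ((j + 1 : ℕ) : ℝ)) * (X₀ + Y) := by gcongr
    calc Cs * K ^ ε * (Cj * K ^ (ε * j) * (X₀ + Y)) + Cs * K ^ ((n : ℝ) ^ 2 + 5 * n + 2 * κ) * (l₀ * K ^ (j + 1)) ^ (-c) + Cs * (l₀ * K ^ (j + 1)) ^ (-1 : ℝ)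
        ≤ Cs * K ^ ε * (Cj * K ^ (ε * j) * (X₀ + Y)) + Cs * K ^ (ε * ((j + 1 : ℕ) : ℝ)) * (X₀ + Y) := by linarith
      _ = (Cs * Cj + Cs) * K ^ (ε * ((j + 1 : ℕ) : ℝ)) * (X₀ + Y) := by rw [e3]; ring

/-- the numerology of the sparse tree -/
theorem sp_num_sparse {β a₀ c τ κ' γ ε nn l D : ℝ} {Jd : ℕ} (_hβ : 0 < β) (ha₀ : 0 < a₀) (ha₀1 : a₀ ≤ 1) (hna : nn * a₀ = β / 2) (hc : 0 < c) (hc1 : c ≤ 1) (hτ : 0 < τ)
    (hκ' : 0 ≤ κ') (hγ : γ = a₀ * c / 2) (hγβ : γ ≤ β / 2) (hε : ε = τ * γ / 2) (hJ0 : 0 < Jd) (hJ1 : 2 / (τ * a₀) ≤ Jd) (hJ2 : 2 * κ' / (τ * a₀ * c) ≤ Jd)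
    (hl : 1 ≤ l) (hlD : l ^ τ ≤ D) (hDl : D ≤ l) :
    ∃ K : ℝ, 1 ≤ K ∧ K ^ 2 ≤ D ^ a₀ ∧ D ^ a₀ * K ^ Jd = l ∧ K ^ (ε * Jd) ≤ D ^ (γ / 2) ∧ (D ^ a₀) ^ nn * D ^ (-β) ≤ D ^ (-γ) ∧
      ∀ i : ℕ, K ^ κ' * (D ^ a₀ * K ^ i) ^ (-c) + (D ^ a₀ * K ^ i) ^ (-1 : ℝ) ≤ 2 * D ^ (-γ) := by
  have hD1 : 1 ≤ D := (Real.one_le_rpow hl hτ.le).trans hlD
  have hD0 : 0 < D := by linarith
  have hl0 : 0 < l := by linarith
  have hJr : (0 : ℝ) < Jd := by exact_mod_cast hJ0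
  set l₀ := D ^ a₀ with hl₀
  have hl₀1 : 1 ≤ l₀ := Real.one_le_rpow hD1 ha₀.le
  have hl₀0 : 0 < l₀ := by linarith
  have hl₀D : l₀ ≤ D := by
    calc l₀ ≤ D ^ (1 : ℝ) := Real.rpow_le_rpow_of_exponent_le hD1 ha₀1
      _ = D := Real.rpow_one D
  have hq1 : 1 ≤ l / l₀ := by rw [le_div_iff₀ hl₀0]; linarith
  have hq0 : 0 < l / l₀ := by linarith
  have hlτ : l ≤ D ^ (1 / τ) := by
    calc l = (l ^ τ) ^ (1 / τ) := by rw [← Real.rpow_mul hl0.le]; field_simp; simp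
      _ ≤ D ^ (1 / τ) := Real.rpow_le_rpow (by positivity) hlD (by positivity)
  have hql : l / l₀ ≤ l := div_le_self hl0.le hl₀1
  obtain ⟨K, hK⟩ : ∃ K : ℝ, K = (l / l₀) ^ (1 / (Jd : ℝ)) := ⟨_, rfl⟩
  have hK1 : 1 ≤ K := by rw [hK]; exact Real.one_le_rpow hq1 (by positivity)
  have hK0 : 0 < K := by linarith
  have hKD : K ≤ D ^ (1 / (τ * Jd)) := by
    calc K ≤ (D ^ (1 / τ)) ^ (1 / (Jd : ℝ)) := by rw [hK]; exact Real.rpow_le_rpow hq0.le (hql.trans hlτ) (by positivity)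
      _ = D ^ (1 / (τ * Jd)) := by rw [← Real.rpow_mul hD0.le]; congr 1; field_simp
  refine ⟨K, hK1, ?_, ?_, ?_, ?_, ?_⟩
  · -- K² ≤ l₀
    calc K ^ 2 ≤ (D ^ (1 / (τ * Jd))) ^ 2 := by gcongr
      _ = D ^ (2 / (τ * Jd)) := by
        rw [← Real.rpow_natCast, ← Real.rpow_mul hD0.le]; congr 1; push_cast; ring
      _ ≤ D ^ a₀ := by
        apply Real.rpow_le_rpow_of_exponent_le hD1
        rw [div_le_iff₀ (by positivity)]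
        rw [div_le_iff₀ (by positivity)] at hJ1
        nlinarith
  · -- l₀ K^Jd = l
    have : K ^ Jd = l / l₀ := by
      rw [hK, ← Real.rpow_natCast, ← Real.rpow_mul hq0.le]
      rw [one_div, inv_mul_cancel₀ hJr.ne', Real.rpow_one]
    rw [this]; field_simp
  · -- K^(ε Jd) ≤ D^(γ/2)
    have hε0 : 0 ≤ ε := by rw [hε, hγ]; positivity
    calc K ^ (ε * Jd) = (l / l₀) ^ ε := by
          rw [hK, ← Real.rpow_mul hq0.le]; congr 1; field_simp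
      _ ≤ (D ^ (1 / τ)) ^ ε := Real.rpow_le_rpow hq0.le (hql.trans hlτ) hε0
      _ = D ^ (γ / 2) := by rw [← Real.rpow_mul hD0.le]; congr 1; rw [hε]; field_simp
  · -- terminal
    calc l₀ ^ nn * D ^ (-β) = D ^ (a₀ * nn + -β) := by
          rw [hl₀, ← Real.rpow_mul hD0.le, ← Real.rpow_add hD0]
      _ ≤ D ^ (-γ) := by
        apply Real.rpow_le_rpow_of_exponent_le hD1
        nlinarith
  · intro i
    have hKi : 1 ≤ K ^ i := one_le_pow₀ hK1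
    have hli : l₀ ≤ l₀ * K ^ i := le_mul_of_one_le_right hl₀0.le hKi
    have h1 : (l₀ * K ^ i) ^ (-c) ≤ l₀ ^ (-c) := Real.rpow_le_rpow_of_nonpos hl₀0 hli (by linarith)
    have h2 : (l₀ * K ^ i) ^ (-1 : ℝ) ≤ l₀ ^ (-1 : ℝ) := Real.rpow_le_rpow_of_nonpos hl₀0 hli (by norm_num)
    have h3 : K ^ κ' ≤ D ^ (a₀ * c / 2) := by
      calc K ^ κ' ≤ (D ^ (1 / (τ * Jd))) ^ κ' := Real.rpow_le_rpow hK0.le hKD hκ'
        _ = D ^ (κ' / (τ * Jd)) := by rw [← Real.rpow_mul hD0.le]; congr 1; ring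
        _ ≤ D ^ (a₀ * c / 2) := by
          apply Real.rpow_le_rpow_of_exponent_le hD1
          rw [div_le_iff₀ (by positivity)]
          rw [div_le_iff₀ (by positivity)] at hJ2
          nlinarith
    have h4 : K ^ κ' * (l₀ * K ^ i) ^ (-c) ≤ D ^ (-γ) := by
      calc K ^ κ' * (l₀ * K ^ i) ^ (-c) ≤ D ^ (a₀ * c / 2) * l₀ ^ (-c) := by gcongr
        _ = D ^ (-γ) := by
          rw [hl₀, ← Real.rpow_mul hD0.le, ← Real.rpow_add hD0]; congr 1; rw [hγ]; ring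
    have h5 : l₀ ^ (-1 : ℝ) ≤ D ^ (-γ) := by
      rw [hl₀, ← Real.rpow_mul hD0.le]
      apply Real.rpow_le_rpow_of_exponent_le hD1
      rw [hγ]; nlinarith
    linarith

theorem sp_bet_pos (n : ℕ) : 0 < bet n := by unfold bet; positivity

theorem sp_bet_le_one {n : ℕ} (hn : 1 ≤ n) : bet n ≤ 1 := by
  unfold bet
  have : (1 : ℝ) ≤ n := by exact_mod_cast hn
  rw [div_le_one (by positivity)]; linarith

/-- **The sparse estimate for exact arrays.** -/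
theorem sp_node_sparse (n : ℕ) (hn : 2 ≤ n) (hSd : SdStmt n) (hLc : LcStmt n) (𝒦 : XCls) (M : ℕ) (T c κ τ : ℝ) (hT : 0 ≤ T) (hC₁ : 0 ≤ 𝒦.C₁) (hRw : Real.sqrt n ≤ 𝒦.Rw)
    (hA : 2 * (n + 1) ^ 2 + n + 1 ≤ 𝒦.A) (hAM : M + n + 1 ≤ 𝒦.A) (hc : 0 < c) (hc1 : c ≤ 1) (hκ : 0 ≤ κ) (hτ : 0 < τ)
    (hBr : ∀ Ew : ℝ, spEmin n 0 ≤ Ew → ∃ CB : ℝ, BrW n (𝒦.Rw + 1 + 𝒦.C₁) Ew c κ CB) : ∃ C : ℝ, 0 ≤ C ∧
    ∀ (ι : Type) (N : XArr n ι) (s : Finset ι) (cf : ι → ℂ) (ν : Measure (ST n)) (m D : ℝ),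
      N.In s 𝒦 → ‖N.sh‖ * N.l ≤ D ^ (bet n / (2 * n)) → 0 ≤ m → N.l ^ τ ≤ D → D ≤ N.l → Grow ν m n → Slab ν (T * N.l ^ 2) → TubeMom ν N.toArr s m D M →
      supN (bet n) ν (N.fld s cf) ≤
        ENNReal.ofReal (C * m ^ bet n * N.l ^ (2 * (n : ℝ) / ((n : ℝ) + 1)) * D ^ (-(bet n * c / (8 * n))) * energy s cf) := by
  have hn1 : (1 : ℝ) ≤ n := by exact_mod_cast (by omega : 1 ≤ n)
  have hn0 : (0 : ℝ) < n := by linarith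
  have hβ := sp_bet_pos n
  have hβ1 := sp_bet_le_one (by omega : 1 ≤ n)
  obtain ⟨β, hβdef⟩ : ∃ β : ℝ, β = bet n := ⟨_, rfl⟩
  rw [← hβdef] at hβ hβ1 ⊢
  obtain ⟨a₀, ha₀def⟩ : ∃ a₀ : ℝ, a₀ = β / (2 * n) := ⟨_, rfl⟩
  have ha₀ : 0 < a₀ := by rw [ha₀def]; positivity
  have ha₀1 : a₀ ≤ 1 := by
    rw [ha₀def, div_le_one (by positivity)]; linarith
  have hna : (n : ℝ) * a₀ = β / 2 := by rw [ha₀def]; field_simp
  obtain ⟨γ, hγ⟩ : ∃ γ : ℝ, γ = a₀ * c / 2 := ⟨_, rfl⟩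
  have hγ0 : 0 < γ := by rw [hγ]; positivity
  have hγβ : γ ≤ β / 2 := by
    rw [hγ, ← hna]
    nlinarith [mul_pos ha₀ hc]
  obtain ⟨κ', hκ'def⟩ : ∃ κ' : ℝ, κ' = (n : ℝ) ^ 2 + 5 * n + 2 * κ := ⟨_, rfl⟩
  have hκ' : 0 ≤ κ' := by rw [hκ'def]; positivity
  obtain ⟨ε, hε⟩ : ∃ ε : ℝ, ε = τ * γ / 2 := ⟨_, rfl⟩
  have hε0 : 0 < ε := by rw [hε]; positivity
  obtain ⟨Jd, hJd⟩ := exists_nat_ge (2 / (τ * a₀) + 2 * κ' / (τ * a₀ * c) + 1)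
  have hq1 : 0 ≤ 2 / (τ * a₀) := by positivity
  have hq2 : 0 ≤ 2 * κ' / (τ * a₀ * c) := by positivity
  have hJ0 : 0 < Jd := by
    have : (0 : ℝ) < Jd := by linarith
    exact_mod_cast this
  obtain ⟨Ct, hCt, hterm⟩ := sp_term n hn 𝒦 M T (spEmin n 𝒦.A) hT hAM le_rfl
  obtain ⟨Ci, hCi, hiter⟩ := sp_iter n hn hSd 𝒦 M T (spEmin n 𝒦.A) ε c κ hT hC₁ hRw hA le_rfl hε0 hκ hBr Jd
  have hEpos : 0 ≤ spEmin n 𝒦.A := by unfold spEmin; positivity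
  obtain ⟨Cr, hCr, hroot⟩ := sp_root n hn hLc 𝒦 M T (spEmin n 𝒦.A + Jd * ((n : ℝ) + 2) + ((n : ℝ) + 2)) (by
    have : 0 ≤ (Jd : ℝ) * ((n : ℝ) + 2) := by positivity
    linarith)
  refine ⟨Cr * (Ci * (Ct + 2)), by positivity, ?_⟩
  intro ι N s cf ν m D hIn hsh hm hlD hDl hG hS hTm
  have hl := hIn.dec.one_le
  have hl0 : 0 < N.l := by linarith
  have hD1 : 1 ≤ D := (Real.one_le_rpow hl hτ.le).trans hlD
  have hD0 : 0 < D := by linarith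
  obtain ⟨K, hK1, hK2, hKl, hKε, hterm', hY⟩ := sp_num_sparse (nn := (n : ℝ)) (Jd := Jd) hβ ha₀ ha₀1 hna hc hc1 hτ hκ' hγ hγβ hε hJ0
    (by linarith) (by linarith) hl hlD hDl
  rw [← ha₀def] at hsh
  have hl₀l : D ^ a₀ ≤ N.l := by
    rw [← hKl]; exact le_mul_of_one_le_right (by positivity) (one_le_pow₀ hK1)
  have h0 := hterm (D ^ a₀) K D (D ^ a₀) hK1 hK2 hD0
  rw [← hβdef] at h0
  have h1 := hiter (D ^ a₀) K D (D ^ a₀) (Ct * (D ^ a₀) ^ (n : ℝ) * D ^ (-β)) (2 * D ^ (-γ)) hK1 hK2 le_rfl (by positivity) (by positivity) hD0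
    (fun i _ => by rw [← hκ'def]; exact hY i) h0
  rw [hKl] at h1
  have h2 := hroot (D ^ a₀) K D N.l (Ci * K ^ (ε * Jd) * (Ct * (D ^ a₀) ^ (n : ℝ) * D ^ (-β) + 2 * D ^ (-γ))) hK1 hl₀l (by positivity) (by
    have e : spEmin n 𝒦.A + Jd * ((n : ℝ) + 2) + ((n : ℝ) + 2) - ((n : ℝ) + 2) = spEmin n 𝒦.A + Jd * ((n : ℝ) + 2) := by ring
    rw [e]; exact h1) ι N s cf ν m rfl hIn hsh hm hG hS hTm
  rw [← hβdef] at h2
  refine h2.trans (ENNReal.ofReal_le_ofReal ?_)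
  have e := sp_energy_nonneg s cf
  have hX : Ci * K ^ (ε * Jd) * (Ct * (D ^ a₀) ^ (n : ℝ) * D ^ (-β) + 2 * D ^ (-γ)) ≤ Ci * (Ct + 2) * D ^ (-(β * c / (8 * n))) := by
    have h3 : Ct * (D ^ a₀) ^ (n : ℝ) * D ^ (-β) + 2 * D ^ (-γ) ≤ (Ct + 2) * D ^ (-γ) := by
      have : Ct * ((D ^ a₀) ^ (n : ℝ) * D ^ (-β)) ≤ Ct * D ^ (-γ) := mul_le_mul_of_nonneg_left hterm' hCt
      nlinarith
    have h4 : D ^ (γ / 2) * D ^ (-γ) = D ^ (-(β * c / (8 * n))) := by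
      rw [← Real.rpow_add hD0]; congr 1; rw [hγ, ha₀def]; field_simp; ring
    calc Ci * K ^ (ε * Jd) * (Ct * (D ^ a₀) ^ (n : ℝ) * D ^ (-β) + 2 * D ^ (-γ))
        ≤ Ci * D ^ (γ / 2) * ((Ct + 2) * D ^ (-γ)) := by gcongr
      _ = Ci * (Ct + 2) * (D ^ (γ / 2) * D ^ (-γ)) := by ring
      _ = _ := by rw [h4]
  calc Cr * (Ci * K ^ (ε * Jd) * (Ct * (D ^ a₀) ^ (n : ℝ) * D ^ (-β) + 2 * D ^ (-γ))) * m ^ β * N.l ^ (2 * (n : ℝ) / ((n : ℝ) + 1)) * energy s cf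
      ≤ Cr * (Ci * (Ct + 2) * D ^ (-(β * c / (8 * n)))) * m ^ β * N.l ^ (2 * (n : ℝ) / ((n : ℝ) + 1)) * energy s cf := by gcongr
    _ = _ := by ring

/-- **The broad estimate with gain, all weight exponents.** -/
theorem sp_brW_gain (n : ℕ) (hn : 2 ≤ n) (hTr : TrStmt n) (hMr : MrSupStmt n) (R₀ : ℝ) : ∃ c κ : ℝ, 0 < c ∧ c ≤ 1 ∧ 0 ≤ κ ∧
    ∀ Ew : ℝ, spEmin n 0 ≤ Ew → ∃ CB : ℝ, BrW n R₀ Ew c κ CB := by
  obtain ⟨c, κ', C', hc, hc1, hκ', hC', hG⟩ := sp_brG n hn hTr hMr R₀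
  obtain ⟨κ, C, hκ, hC, hA⟩ := sp_brA n hn hMr R₀ (c / 2) (by linarith)
  have hmin := sp_brMin_of hn hC hC' hA hG
  refine ⟨(c - c / 2) / 2, max ((κ + κ') / 2) (2 * ((n : ℝ) + 1) * ((n : ℝ) + 3)), by linarith, by linarith,
    le_max_of_le_left (by positivity), fun Ew hEw => ?_⟩
  obtain ⟨CB, -, h⟩ := sp_broad n hn R₀ _ _ _ Ew (Real.sqrt_nonneg _) (by positivity) hEw hmin
  exact ⟨CB, h⟩

/-- **The broad estimate with `ε`-loss, all weight exponents.** -/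
theorem sp_brW_loss (n : ℕ) (hn : 2 ≤ n) (hMr : MrSupStmt n) (R₀ ε : ℝ) (hε : 0 < ε) : ∃ κ : ℝ, 0 ≤ κ ∧
    ∀ Ew : ℝ, spEmin n 0 ≤ Ew → ∃ CB : ℝ, BrW n R₀ Ew (-ε) κ CB := by
  obtain ⟨κ, C, hκ, hC, hA⟩ := sp_brA n hn hMr R₀ ε hε
  have hmin := sp_brMin_of_A hn hC hA
  refine ⟨max κ (2 * ((n : ℝ) + 1) * ((n : ℝ) + 3)), le_max_of_le_left hκ, fun Ew hEw => ?_⟩
  obtain ⟨CB, -, h⟩ := sp_broad n hn R₀ _ _ _ Ew hC hκ hEw hmin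
  exact ⟨CB, h⟩

theorem sp_slab_mono {μ : Measure (ST n)} {T T' : ℝ} (h : Slab μ T) (hT : T ≤ T') : Slab μ T' :=
  measure_mono_null (fun z (hz : T' < |z.2|) => (lt_of_le_of_lt hT hz : T < |z.2|)) h

theorem sp_spKn_nonneg (κ : (Fin n → ℤ) × ℤ) : 0 ≤ spKn κ := by unfold spKn; positivity

/-- the weight of a layer in `rpow` form -/
theorem sp_wgt_eq (x : ℝ) (A : ℕ) : (1 + x) ^ (-(A : ℤ)) = (1 + x) ^ (-(A : ℝ)) := by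
  rw [← Real.rpow_intCast]; push_cast; rfl

theorem sp_num_far {a₀ cs τ β nn Aq L D x : ℝ} (hD1 : 1 ≤ D) (hL : 1 ≤ L) (hLD : L ^ τ ≤ D) (hτ : 0 < τ) (ha₀ : 0 < a₀) (hβ : 0 ≤ β) (hcs : 0 ≤ cs)
    (hAq : (nn / τ + cs) / a₀ ≤ Aq) (hnn : 0 ≤ nn) (hx : D ^ a₀ ≤ 1 + x) : (1 + x) ^ (-Aq) * (L ^ nn * D ^ (-β)) ≤ D ^ (-cs) := by
  have hD0 : 0 < D := by linarith
  have hL0 : 0 < L := by linarith
  have hAq0 : 0 ≤ Aq := le_trans (by positivity) hAq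
  have h1 : (1 + x) ^ (-Aq) ≤ D ^ (-(a₀ * Aq)) := by
    calc (1 + x) ^ (-Aq) ≤ (D ^ a₀) ^ (-Aq) := Real.rpow_le_rpow_of_nonpos (by positivity) hx (by linarith)
      _ = D ^ (-(a₀ * Aq)) := by rw [← Real.rpow_mul hD0.le]; congr 1; ring
  have h2 : L ^ nn ≤ D ^ (nn / τ) := by
    calc L ^ nn = (L ^ τ) ^ (nn / τ) := by rw [← Real.rpow_mul hL0.le]; congr 1; field_simp
      _ ≤ D ^ (nn / τ) := Real.rpow_le_rpow (by positivity) hLD (by positivity)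
  have h3 : D ^ (-β) ≤ 1 := Real.rpow_le_one_of_one_le_of_nonpos hD1 (by linarith)
  calc (1 + x) ^ (-Aq) * (L ^ nn * D ^ (-β)) ≤ D ^ (-(a₀ * Aq)) * (D ^ (nn / τ) * 1) := by gcongr
    _ = D ^ (-(a₀ * Aq) + nn / τ) := by rw [mul_one, ← Real.rpow_add hD0]
    _ ≤ D ^ (-cs) := by
      apply Real.rpow_le_rpow_of_exponent_le hD1
      rw [div_le_iff₀ ha₀] at hAq
      nlinarith

/-- the array is the sum of its layers -/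
theorem sp_hasSum_fld {Ar : Arr n ι} {s : Finset ι} (cf : ι → ℂ) {A : ℕ} {g : (Fin n → ℤ) × ℤ → ι → E n → ℂ} {u : (Fin n → ℤ) × ℤ → ST n → ℂ} {z : ST n}
    (h : ∀ α ∈ s, HasSum (fun κ => (((1 + spKn κ) ^ (-(A : ℤ)) : ℝ) : ℂ) * u κ z * ext (g κ α) z) (Ar.atom α z)) :
    HasSum (fun κ => (((1 + spKn κ) ^ (-(A : ℤ)) : ℝ) : ℂ) * (u κ z * (XArr.mk Ar.L Ar.om Ar.y (Ar.L⁻¹ • zvec κ.1) (g κ)).fld s cf z)) (Ar.fld s cf z) := by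
  have h1 : HasSum (fun κ => ∑ α ∈ s, cf α * ((((1 + spKn κ) ^ (-(A : ℤ)) : ℝ) : ℂ) * u κ z * ext (g κ α) z)) (∑ α ∈ s, cf α * Ar.atom α z) :=
    hasSum_sum fun α hα => (h α hα).mul_left (cf α)
  have e : (fun κ => (((1 + spKn κ) ^ (-(A : ℤ)) : ℝ) : ℂ) * (u κ z * (XArr.mk Ar.L Ar.om Ar.y (Ar.L⁻¹ • zvec κ.1) (g κ)).fld s cf z))
      = fun κ => ∑ α ∈ s, cf α * ((((1 + spKn κ) ^ (-(A : ℤ)) : ℝ) : ℂ) * u κ z * ext (g κ α) z) := by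
    funext κ
    unfold XArr.fld
    rw [Finset.mul_sum, Finset.mul_sum]
    refine Finset.sum_congr rfl fun α _ => ?_
    ring
  rw [e]
  exact h1

/-- **EXIT: Proposition s:sparse.** -/
theorem sp_sparse (n : ℕ) (hn : 2 ≤ n) (hTr : TrStmt n) (hMr : MrSupStmt n) (hSd : SdStmt n) (hLay : LayStmt n) (hLc : LcStmt n) : SpSparse n := by
  intro R Rw T₀ m₀
  obtain ⟨C₁, hC₁, hLay⟩ := hLay
  have hn1 : (1 : ℝ) ≤ n := by exact_mod_cast (by omega : 1 ≤ n)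
  have hn0 : (0 : ℝ) < n := by linarith
  have hβ := sp_bet_pos n
  obtain ⟨c, κ, hc, hc1, hκ, hBr⟩ := sp_brW_gain n hn hTr hMr (max Rw (Real.sqrt n) + 1 + C₁)
  refine ⟨bet n * c / (8 * n), by positivity, ?_⟩
  intro τ M hτ
  obtain ⟨A₃, hA₃⟩ := exists_nat_ge (((n : ℝ) / τ + bet n * c / (8 * n)) / (bet n / (2 * n)))
  obtain ⟨A, hAdef⟩ : ∃ A : ℕ, A = (2 * (n + 1) ^ 2 + n + 1) + (M + n + 1) + (n + 2 + A₃) := ⟨_, rfl⟩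
  obtain ⟨J, hJ⟩ := hLay R (max Rw (Real.sqrt n)) (max T₀ 0 + 1) m₀ A
  refine ⟨J, fun B => ?_⟩
  obtain ⟨C₂, C₃, hL⟩ := hJ B
  obtain ⟨Cn, hCn, hnode⟩ := sp_node_sparse n hn hSd hLc ⟨A, max Rw (Real.sqrt n), C₁, C₂, C₃, m₀⟩ M (max T₀ 0) c κ τ (le_max_right _ _) hC₁ (le_max_right _ _)
    (by show 2 * (n + 1) ^ 2 + n + 1 ≤ A; omega) (by show M + n + 1 ≤ A; omega) hc hc1 hκ hτ hBr
  obtain ⟨Cf, hCf, hfar⟩ := sp_supN_triv n A M hn (max Rw (Real.sqrt n)) C₃ m₀ (max T₀ 0) (le_max_right _ _) (by omega)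
  obtain ⟨Cw, hCw, hw⟩ := sp_layer_sum n
  refine ⟨Cw * (Cw * (Cn + Cf)), ?_⟩
  intro ι Ar s cf μ m D hIn htc hm hLD hDL hG hS hTm
  have hL1 : 1 ≤ Ar.L := hIn.one_le
  have hL0 : 0 < Ar.L := by linarith
  have hD1 : 1 ≤ D := (Real.one_le_rpow hL1 hτ.le).trans hLD
  have hD0 : 0 < D := by linarith
  have hIn' : Ar.In s ⟨J, R, B, max Rw (Real.sqrt n), m₀⟩ := inf_in_mono hIn (Finset.Subset.refl _) le_rfl le_rfl le_rfl (le_max_left _ _) le_rfl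
  obtain ⟨g, u, hu, hcls, hsum⟩ := hL ι Ar s hIn' htc
  have hS' : Slab μ (max T₀ 0 * Ar.L ^ 2) := sp_slab_mono hS (by gcongr; exact le_max_left _ _)
  have e := sp_energy_nonneg s cf
  obtain ⟨Z, hZ⟩ : ∃ Z : ℝ, Z = m ^ bet n * Ar.L ^ (2 * (n : ℝ) / ((n : ℝ) + 1)) * D ^ (-(bet n * c / (8 * n))) * energy s cf := ⟨_, rfl⟩
  have hZ0 : 0 ≤ Z := by rw [hZ]; positivity
  -- the sum over the layers
  have key := sp_supN_tsum (bet n) (by unfold bet; positivity) (fun κ : (Fin n → ℤ) × ℤ => (1 + spKn κ) ^ (-(A : ℤ))) (fun κ => by have := sp_spKn_nonneg κ; positivity)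
    (fun κ z => u κ z * (XArr.mk Ar.L Ar.om Ar.y (Ar.L⁻¹ • zvec κ.1) (g κ)).fld s cf z) (Ar.fld s cf) μ (max T₀ 0 * Ar.L ^ 2) hS'
    (fun z hz => sp_hasSum_fld cf fun α hα => hsum α hα z (by
      have : (1 : ℝ) ≤ Ar.L ^ 2 := one_le_pow₀ hL1
      nlinarith))
  have hwle : ∀ κ : (Fin n → ℤ) × ℤ, (1 + spKn κ) ^ (-(A : ℤ)) ≤ (1 + spKn κ) ^ (-((n : ℝ) + 2)) := fun κ => by
    rw [sp_wgt_eq]
    apply Real.rpow_le_rpow_of_exponent_le (by have := sp_spKn_nonneg κ; linarith)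
    have : ((n : ℝ) + 2) ≤ A := by
      have : n + 2 ≤ A := by omega
      exact_mod_cast this
    linarith
  have h1 : ∑' κ : (Fin n → ℤ) × ℤ, ENNReal.ofReal ((1 + spKn κ) ^ (-(A : ℤ))) ≤ ENNReal.ofReal Cw :=
    (ENNReal.tsum_le_tsum fun κ => ENNReal.ofReal_le_ofReal (hwle κ)).trans hw
  have h2 : ∀ κ : (Fin n → ℤ) × ℤ, ENNReal.ofReal ((1 + spKn κ) ^ (-(A : ℤ))) *
      supN (bet n) μ (fun z => u κ z * (XArr.mk Ar.L Ar.om Ar.y (Ar.L⁻¹ • zvec κ.1) (g κ)).fld s cf z) ≤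
      ENNReal.ofReal ((1 + spKn κ) ^ (-((n : ℝ) + 2))) * ENNReal.ofReal ((Cn + Cf) * Z) := by
    intro κ
    have hx := sp_spKn_nonneg κ
    rw [sp_supN_unimod (bet n) μ (u κ) _ (hu κ)]
    by_cases hk : ‖zvec κ.1‖ ≤ D ^ (bet n / (2 * n))
    · -- near layer
      have h3 := hnode ι (XArr.mk Ar.L Ar.om Ar.y (Ar.L⁻¹ • zvec κ.1) (g κ)) s cf μ m D (hcls κ) (by
        show ‖Ar.L⁻¹ • zvec κ.1‖ * Ar.L ≤ _
        rw [norm_smul, Real.norm_eq_abs, abs_of_pos (inv_pos.2 hL0)]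
        calc Ar.L⁻¹ * ‖zvec κ.1‖ * Ar.L = ‖zvec κ.1‖ := by field_simp
          _ ≤ _ := hk) hm hLD hDL hG hS' hTm
      refine mul_le_mul' (ENNReal.ofReal_le_ofReal (hwle κ)) (h3.trans (ENNReal.ofReal_le_ofReal ?_))
      show Cn * m ^ bet n * Ar.L ^ (2 * (n : ℝ) / ((n : ℝ) + 1)) * D ^ (-(bet n * c / (8 * n))) * energy s cf ≤ (Cn + Cf) * Z
      have : Cn * m ^ bet n * Ar.L ^ (2 * (n : ℝ) / ((n : ℝ) + 1)) * D ^ (-(bet n * c / (8 * n))) * energy s cf = Cn * Z := by rw [hZ]; ring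
      rw [this]
      nlinarith
    · -- far layer
      push Not at hk
      have h3 := hfar ι (XArr.mk Ar.L Ar.om Ar.y (Ar.L⁻¹ • zvec κ.1) (g κ)) s cf μ m D (hcls κ).dec hm hD0 hG hS' hTm
      refine (mul_le_mul' le_rfl h3).trans ?_
      rw [← ENNReal.ofReal_mul (by positivity), ← ENNReal.ofReal_mul (by positivity)]
      apply ENNReal.ofReal_le_ofReal
      show (1 + spKn κ) ^ (-(A : ℤ)) * (Cf * m ^ bet n * Ar.L ^ (2 * (n : ℝ) / ((n : ℝ) + 1) + n) * D ^ (-bet n) * energy s cf) ≤ _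
      have hsplit : (1 + spKn κ) ^ (-(A : ℤ)) = (1 + spKn κ) ^ (-((n : ℝ) + 2)) * (1 + spKn κ) ^ (-((A : ℝ) - (n + 2))) := by
        rw [sp_wgt_eq, ← Real.rpow_add (by linarith)]; congr 1; ring
      have hAq : ((n : ℝ) / τ + bet n * c / (8 * n)) / (bet n / (2 * n)) ≤ (A : ℝ) - (n + 2) := by
        have : ((n + 2 + A₃ : ℕ) : ℝ) ≤ A := by
          have : n + 2 + A₃ ≤ A := by omega
          exact_mod_cast this
        push_cast at this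
        linarith
      have hnum := sp_num_far (x := spKn κ) (β := bet n) hD1 hL1 hLD hτ (by positivity : 0 < bet n / (2 * n)) hβ.le (by positivity : 0 ≤ bet n * c / (8 * n)) hAq hn0.le (by
        have : ‖zvec κ.1‖ ≤ spKn κ := by unfold spKn; have := abs_nonneg ((κ.2 : ℝ)); linarith
        linarith)
      have hLsplit : Ar.L ^ (2 * (n : ℝ) / ((n : ℝ) + 1) + n) = Ar.L ^ (2 * (n : ℝ) / ((n : ℝ) + 1)) * Ar.L ^ (n : ℝ) := Real.rpow_add hL0 _ _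
      rw [hsplit, hLsplit]
      have hw0 : 0 ≤ (1 + spKn κ) ^ (-((n : ℝ) + 2)) := by positivity
      have hP : 0 ≤ m ^ bet n * Ar.L ^ (2 * (n : ℝ) / ((n : ℝ) + 1)) * energy s cf := by positivity
      calc (1 + spKn κ) ^ (-((n : ℝ) + 2)) * (1 + spKn κ) ^ (-((A : ℝ) - (n + 2))) *
            (Cf * m ^ bet n * (Ar.L ^ (2 * (n : ℝ) / ((n : ℝ) + 1)) * Ar.L ^ (n : ℝ)) * D ^ (-bet n) * energy s cf)
          = (1 + spKn κ) ^ (-((n : ℝ) + 2)) * (Cf * ((1 + spKn κ) ^ (-((A : ℝ) - (n + 2))) * (Ar.L ^ (n : ℝ) * D ^ (-bet n))) *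
              (m ^ bet n * Ar.L ^ (2 * (n : ℝ) / ((n : ℝ) + 1)) * energy s cf)) := by ring
        _ ≤ (1 + spKn κ) ^ (-((n : ℝ) + 2)) * (Cf * D ^ (-(bet n * c / (8 * n))) *
              (m ^ bet n * Ar.L ^ (2 * (n : ℝ) / ((n : ℝ) + 1)) * energy s cf)) := by gcongr
        _ = (1 + spKn κ) ^ (-((n : ℝ) + 2)) * (Cf * Z) := by rw [hZ]; ring
        _ ≤ (1 + spKn κ) ^ (-((n : ℝ) + 2)) * ((Cn + Cf) * Z) := by
          apply mul_le_mul_of_nonneg_left _ hw0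
          nlinarith
  calc supN (bet n) μ (Ar.fld s cf)
      ≤ ENNReal.ofReal Cw * ∑' κ : (Fin n → ℤ) × ℤ, ENNReal.ofReal ((1 + spKn κ) ^ (-((n : ℝ) + 2))) * ENNReal.ofReal ((Cn + Cf) * Z) :=
        key.trans (mul_le_mul' h1 (ENNReal.tsum_le_tsum h2))
    _ ≤ ENNReal.ofReal Cw * (ENNReal.ofReal Cw * ENNReal.ofReal ((Cn + Cf) * Z)) := by
        rw [ENNReal.tsum_mul_right]
        exact mul_le_mul' le_rfl (mul_le_mul' hw le_rfl)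
    _ = ENNReal.ofReal (Cw * (Cw * (Cn + Cf)) * m ^ bet n * Ar.L ^ (2 * (n : ℝ) / ((n : ℝ) + 1)) * D ^ (-(bet n * c / (8 * n))) * energy s cf) := by
        rw [← ENNReal.ofReal_mul hCw, ← ENNReal.ofReal_mul hCw]
        congr 1
        rw [hZ]; ring

theorem sp_grow_mono {μ : Measure (ST n)} {m m' a : ℝ} (h : Grow μ m a) (hm : m ≤ m') : Grow μ m' a := fun z r hr =>
  (h z r hr).trans (ENNReal.ofReal_le_ofReal (mul_le_mul_of_nonneg_right hm (Real.rpow_nonneg (by linarith) _)))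

/-- the numerology of the power loss tree: `K = l^(1/q)`, terminal scale `K³`, depth `q - 3` -/
theorem sp_num_power {ε κ' nn l : ℝ} {j : ℕ} (hε : 0 < ε) (hκ' : 0 ≤ κ') (hnn : 0 ≤ nn) (hq : (3 * nn + κ') / ((j : ℝ) + 3) ≤ ε / 2) (hl : 1 ≤ l) :
    ∃ K : ℝ, 1 ≤ K ∧ K = l ^ (1 / ((j : ℝ) + 3)) ∧ K ^ 3 * K ^ j = l ∧ K ^ (ε / 4 * j) ≤ l ^ (ε / 4) ∧ (K ^ 3) ^ nn ≤ l ^ (3 * ε / 4) ∧
      ∀ i : ℕ, i ≤ j → K ^ κ' * (K ^ 3 * K ^ i) ^ (-(-(ε / 4))) + (K ^ 3 * K ^ i) ^ (-1 : ℝ) ≤ 2 * l ^ (3 * ε / 4) := by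
  have hl0 : 0 < l := by linarith
  have hj0 : (0 : ℝ) ≤ j := Nat.cast_nonneg j
  have hq0 : (0 : ℝ) < (j : ℝ) + 3 := by linarith
  obtain ⟨K, hK⟩ : ∃ K : ℝ, K = l ^ (1 / ((j : ℝ) + 3)) := ⟨_, rfl⟩
  have hK1 : 1 ≤ K := by rw [hK]; exact Real.one_le_rpow hl (by positivity)
  have hK0 : 0 < K := by linarith
  have hpow : ∀ a : ℝ, K ^ a = l ^ (a / ((j : ℝ) + 3)) := fun a => by
    rw [hK, ← Real.rpow_mul hl0.le]; congr 1; ring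
  have hKl : K ^ 3 * K ^ j = l := by
    rw [← pow_add, ← Real.rpow_natCast, hpow]
    have : (((3 + j : ℕ) : ℝ)) / ((j : ℝ) + 3) = 1 := by push_cast; field_simp; ring
    rw [this, Real.rpow_one]
  have h3ε : 1 ≤ l ^ (3 * ε / 4) := Real.one_le_rpow hl (by positivity)
  have hnq : 3 * nn / ((j : ℝ) + 3) ≤ ε / 2 := by
    refine le_trans ?_ hq
    gcongr
    linarith
  have hκq : κ' / ((j : ℝ) + 3) ≤ ε / 2 := by
    refine le_trans ?_ hq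
    gcongr
    linarith
  refine ⟨K, hK1, hK, hKl, ?_, ?_, ?_⟩
  · rw [hpow]
    apply Real.rpow_le_rpow_of_exponent_le hl
    rw [div_le_iff₀ hq0]
    nlinarith
  · rw [← Real.rpow_natCast, ← Real.rpow_mul hK0.le, hpow]
    apply Real.rpow_le_rpow_of_exponent_le hl
    push_cast
    linarith
  · intro i hi
    have hKi : 1 ≤ K ^ 3 * K ^ i := by
      have h1 : 1 ≤ K ^ 3 := one_le_pow₀ hK1
      have h2 : 1 ≤ K ^ i := one_le_pow₀ hK1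
      nlinarith
    have hKil : K ^ 3 * K ^ i ≤ l := by
      rw [← hKl]
      gcongr
    have h1 : (K ^ 3 * K ^ i) ^ (-(-(ε / 4))) ≤ l ^ (ε / 4) := by
      rw [neg_neg]
      exact Real.rpow_le_rpow (by linarith) hKil (by positivity)
    have h2 : (K ^ 3 * K ^ i) ^ (-1 : ℝ) ≤ 1 := Real.rpow_le_one_of_one_le_of_nonpos hKi (by norm_num)
    have h3 : K ^ κ' ≤ l ^ (ε / 2) := by
      rw [hpow]; exact Real.rpow_le_rpow_of_exponent_le hl hκq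
    have h4 : K ^ κ' * (K ^ 3 * K ^ i) ^ (-(-(ε / 4))) ≤ l ^ (3 * ε / 4) := by
      calc K ^ κ' * (K ^ 3 * K ^ i) ^ (-(-(ε / 4))) ≤ l ^ (ε / 2) * l ^ (ε / 4) := by gcongr
        _ = l ^ (3 * ε / 4) := by rw [← Real.rpow_add hl0]; congr 1; ring
    linarith

/-- **The power loss estimate for exact arrays** (`D = 1`). -/
theorem sp_node_power (n : ℕ) (hn : 2 ≤ n) (hSd : SdStmt n) (hLc : LcStmt n) (hMr : MrSupStmt n) (Rw C₁ T ε : ℝ) (hT : 0 ≤ T) (hC₁ : 0 ≤ C₁) (hRw : Real.sqrt n ≤ Rw) (hε : 0 < ε) :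
    ∃ (Jd : ℕ), 0 < Jd ∧ ∀ (A : ℕ) (C₂ C₃ : ℝ) (m₀ : ℕ), 2 * (n + 1) ^ 2 + 2 * n + 3 ≤ A → ∃ C : ℝ, 0 ≤ C ∧
    ∀ (ι : Type) (N : XArr n ι) (s : Finset ι) (cf : ι → ℂ) (ν : Measure (ST n)) (m : ℝ),
      N.In s ⟨A, Rw, C₁, C₂, C₃, m₀⟩ → ‖N.sh‖ * N.l ≤ N.l ^ (1 / (Jd : ℝ)) → 0 ≤ m → Grow ν m n → Slab ν (T * N.l ^ 2) →
      supN (bet n) ν (N.fld s cf) ≤ ENNReal.ofReal (C * m ^ bet n * N.l ^ (2 * (n : ℝ) / ((n : ℝ) + 1) + ε) * energy s cf) := by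
  have hn0 : (0 : ℝ) ≤ n := Nat.cast_nonneg n
  have hβ := sp_bet_pos n
  obtain ⟨κ, hκ, hBr⟩ := sp_brW_loss n hn hMr (Rw + 1 + C₁) (ε / 4) (by linarith)
  obtain ⟨κ', hκ'def⟩ : ∃ κ' : ℝ, κ' = (n : ℝ) ^ 2 + 5 * n + 2 * κ := ⟨_, rfl⟩
  have hκ' : 0 ≤ κ' := by rw [hκ'def]; positivity
  obtain ⟨j, hj⟩ := exists_nat_ge ((3 * (n : ℝ) + κ') / (ε / 2))
  have hj0 : (0 : ℝ) ≤ j := Nat.cast_nonneg j
  have hq : (3 * (n : ℝ) + κ') / ((j : ℝ) + 3) ≤ ε / 2 := by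
    rw [div_le_iff₀ (by linarith)]
    rw [div_le_iff₀ (by linarith)] at hj
    nlinarith
  refine ⟨j + 3, by omega, ?_⟩
  intro A C₂ C₃ m₀ hA
  obtain ⟨Cm, hCm, hmom⟩ := inf_tubeMom_of_grow n (n + 2) le_rfl T Rw
  obtain ⟨Ct, hCt, hterm⟩ := sp_term n hn ⟨A, Rw, C₁, C₂, C₃, m₀⟩ (n + 2) T (spEmin n A) hT (by show n + 2 + n + 1 ≤ A; omega) le_rfl
  obtain ⟨Ci, hCi, hiter⟩ := sp_iter n hn hSd ⟨A, Rw, C₁, C₂, C₃, m₀⟩ (n + 2) T (spEmin n A) (ε / 4) (-(ε / 4)) κ hT hC₁ hRw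
    (by show 2 * (n + 1) ^ 2 + n + 1 ≤ A; omega) le_rfl (by linarith) hκ hBr j
  have hEpos : 0 ≤ spEmin n A := by unfold spEmin; positivity
  obtain ⟨Cr, hCr, hroot⟩ := sp_root n hn hLc ⟨A, Rw, C₁, C₂, C₃, m₀⟩ (n + 2) T (spEmin n A + j * ((n : ℝ) + 2) + ((n : ℝ) + 2)) (by
    have : 0 ≤ (j : ℝ) * ((n : ℝ) + 2) := by positivity
    linarith)
  refine ⟨Cr * (Ci * (Ct + 2)) * (max Cm 1) ^ bet n, by positivity, ?_⟩
  intro ι N s cf ν m hIn hsh hm hG hS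
  have hl := hIn.dec.one_le
  have hl0 : 0 < N.l := by linarith
  obtain ⟨K, hK1, hKdef, hKl, hKε, hterm', hY⟩ := sp_num_power (j := j) hε hκ' hn0 hq hl
  have hK0 : 0 < K := by linarith
  have hK23 : K ^ 2 ≤ K ^ 3 := pow_le_pow_right₀ hK1 (by norm_num)
  have hKK3 : K ≤ K ^ 3 := by
    calc K = K ^ 1 := (pow_one K).symm
      _ ≤ K ^ 3 := pow_le_pow_right₀ hK1 (by norm_num)
  have hl₀l : K ^ 3 ≤ N.l := by
    rw [← hKl]; exact le_mul_of_one_le_right (by positivity) (one_le_pow₀ hK1)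
  have hm' : m ≤ max Cm 1 * m := by
    have : (1 : ℝ) ≤ max Cm 1 := le_max_right _ _
    nlinarith
  have hm'0 : 0 ≤ max Cm 1 * m := by positivity
  have hG' : Grow ν (max Cm 1 * m) n := sp_grow_mono hG hm'
  have hTm : TubeMom ν N.toArr s (max Cm 1 * m) 1 (n + 2) :=
    sp_tubeMom_mono (hmom ι ν N.toArr s m hm hG hS hl hIn.dec.freq) (Finset.Subset.refl _)
      (mul_le_mul_of_nonneg_right (le_max_left _ _) hm) hl0.le one_pos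
  have h0 := hterm (K ^ 3) K 1 (K ^ 3) hK1 hK23 one_pos
  have h1 := hiter (K ^ 3) K 1 (K ^ 3) (Ct * (K ^ 3) ^ (n : ℝ) * (1 : ℝ) ^ (-bet n)) (2 * N.l ^ (3 * ε / 4)) hK1 hK23 le_rfl (by positivity) (by positivity) one_pos
    (fun i hi => by rw [← hκ'def]; exact hY i hi) h0
  rw [hKl] at h1
  have hsh' : ‖N.sh‖ * N.l ≤ K ^ 3 := by
    refine le_trans hsh (le_trans (le_of_eq ?_) hKK3)
    rw [hKdef]; push_cast; rfl
  have h2 := hroot (K ^ 3) K 1 N.l (Ci * K ^ (ε / 4 * j) * (Ct * (K ^ 3) ^ (n : ℝ) * (1 : ℝ) ^ (-bet n) + 2 * N.l ^ (3 * ε / 4))) hK1 hl₀l (by positivity) (by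
    have e : spEmin n A + j * ((n : ℝ) + 2) + ((n : ℝ) + 2) - ((n : ℝ) + 2) = spEmin n A + j * ((n : ℝ) + 2) := by ring
    rw [e]; exact h1) ι N s cf ν (max Cm 1 * m) rfl hIn hsh' hm'0 hG' hS hTm
  refine h2.trans (ENNReal.ofReal_le_ofReal ?_)
  have e := sp_energy_nonneg s cf
  have hX : Ci * K ^ (ε / 4 * j) * (Ct * (K ^ 3) ^ (n : ℝ) * (1 : ℝ) ^ (-bet n) + 2 * N.l ^ (3 * ε / 4)) ≤ Ci * (Ct + 2) * N.l ^ ε := by
    rw [Real.one_rpow, mul_one]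
    have h3 : Ct * (K ^ 3) ^ (n : ℝ) + 2 * N.l ^ (3 * ε / 4) ≤ (Ct + 2) * N.l ^ (3 * ε / 4) := by
      have : Ct * (K ^ 3) ^ (n : ℝ) ≤ Ct * N.l ^ (3 * ε / 4) := mul_le_mul_of_nonneg_left hterm' hCt
      nlinarith
    have h4 : N.l ^ (ε / 4) * N.l ^ (3 * ε / 4) = N.l ^ ε := by
      rw [← Real.rpow_add hl0]; congr 1; ring
    calc Ci * K ^ (ε / 4 * j) * (Ct * (K ^ 3) ^ (n : ℝ) + 2 * N.l ^ (3 * ε / 4))
        ≤ Ci * N.l ^ (ε / 4) * ((Ct + 2) * N.l ^ (3 * ε / 4)) := by gcongr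
      _ = Ci * (Ct + 2) * (N.l ^ (ε / 4) * N.l ^ (3 * ε / 4)) := by ring
      _ = _ := by rw [h4]
  have hmβ : (max Cm 1 * m) ^ bet n = (max Cm 1) ^ bet n * m ^ bet n := Real.mul_rpow (by positivity) hm
  have hls : N.l ^ (2 * (n : ℝ) / ((n : ℝ) + 1) + ε) = N.l ^ (2 * (n : ℝ) / ((n : ℝ) + 1)) * N.l ^ ε := Real.rpow_add hl0 _ _
  rw [hmβ, hls]
  calc Cr * (Ci * K ^ (ε / 4 * j) * (Ct * (K ^ 3) ^ (n : ℝ) * (1 : ℝ) ^ (-bet n) + 2 * N.l ^ (3 * ε / 4))) * ((max Cm 1) ^ bet n * m ^ bet n) *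
        N.l ^ (2 * (n : ℝ) / ((n : ℝ) + 1)) * energy s cf
      ≤ Cr * (Ci * (Ct + 2) * N.l ^ ε) * ((max Cm 1) ^ bet n * m ^ bet n) * N.l ^ (2 * (n : ℝ) / ((n : ℝ) + 1)) * energy s cf := by gcongr
    _ = _ := by ring

/-- **EXIT: Corollary d:power-loss.** -/
theorem sp_powerloss (n : ℕ) (hn : 2 ≤ n) (hMr : MrSupStmt n) (hSd : SdStmt n) (hLay : LayStmt n) (hLc : LcStmt n) : SpPowerLoss n := by
  intro R Rw T₀ m₀ ε hε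
  obtain ⟨C₁, hC₁, hLay⟩ := hLay
  have hn0 : (0 : ℝ) ≤ n := Nat.cast_nonneg n
  have hβ := sp_bet_pos n
  obtain ⟨Jd, hJd0, hnodeA⟩ := sp_node_power n hn hSd hLc hMr (max Rw (Real.sqrt n)) C₁ (max T₀ 0) ε (le_max_right _ _) hC₁ (le_max_right _ _) hε
  have hJr : (0 : ℝ) < Jd := by exact_mod_cast hJd0
  obtain ⟨A, hAdef⟩ : ∃ A : ℕ, A = (2 * (n + 1) ^ 2 + 2 * n + 3) + (n + 2 + n * Jd) := ⟨_, rfl⟩
  obtain ⟨J, hJ⟩ := hLay R (max Rw (Real.sqrt n)) (max T₀ 0 + 1) m₀ A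
  refine ⟨J, fun B => ?_⟩
  obtain ⟨C₂, C₃, hL⟩ := hJ B
  obtain ⟨Cn, hCn, hnode⟩ := hnodeA A C₂ C₃ m₀ (by omega)
  obtain ⟨Cm, hCm, hmom⟩ := inf_tubeMom_of_grow n (n + 2) le_rfl (max T₀ 0) (max Rw (Real.sqrt n))
  obtain ⟨Cf, hCf, hfar⟩ := sp_supN_triv n A (n + 2) hn (max Rw (Real.sqrt n)) C₃ m₀ (max T₀ 0) (le_max_right _ _) (by omega)
  obtain ⟨Cw, hCw, hw⟩ := sp_layer_sum n
  refine ⟨Cw * (Cw * (Cn + Cf * (max Cm 1) ^ bet n)), ?_⟩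
  intro ι Ar s cf μ m hIn htc hm hG hS
  have hL1 : 1 ≤ Ar.L := hIn.one_le
  have hL0 : 0 < Ar.L := by linarith
  have hIn' : Ar.In s ⟨J, R, B, max Rw (Real.sqrt n), m₀⟩ := inf_in_mono hIn (Finset.Subset.refl _) le_rfl le_rfl le_rfl (le_max_left _ _) le_rfl
  obtain ⟨g, u, hu, hcls, hsum⟩ := hL ι Ar s hIn' htc
  have hS' : Slab μ (max T₀ 0 * Ar.L ^ 2) := sp_slab_mono hS (by gcongr; exact le_max_left _ _)
  have e := sp_energy_nonneg s cf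
  obtain ⟨Z, hZ⟩ : ∃ Z : ℝ, Z = m ^ bet n * Ar.L ^ (2 * (n : ℝ) / ((n : ℝ) + 1) + ε) * energy s cf := ⟨_, rfl⟩
  have hZ0 : 0 ≤ Z := by rw [hZ]; positivity
  have hCf' : 0 ≤ Cf * (max Cm 1) ^ bet n := by positivity
  have key := sp_supN_tsum (bet n) (by unfold bet; positivity) (fun κ : (Fin n → ℤ) × ℤ => (1 + spKn κ) ^ (-(A : ℤ))) (fun κ => by have := sp_spKn_nonneg κ; positivity)
    (fun κ z => u κ z * (XArr.mk Ar.L Ar.om Ar.y (Ar.L⁻¹ • zvec κ.1) (g κ)).fld s cf z) (Ar.fld s cf) μ (max T₀ 0 * Ar.L ^ 2) hS'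
    (fun z hz => sp_hasSum_fld cf fun α hα => hsum α hα z (by
      have : (1 : ℝ) ≤ Ar.L ^ 2 := one_le_pow₀ hL1
      nlinarith))
  have hwle : ∀ κ : (Fin n → ℤ) × ℤ, (1 + spKn κ) ^ (-(A : ℤ)) ≤ (1 + spKn κ) ^ (-((n : ℝ) + 2)) := fun κ => by
    rw [sp_wgt_eq]
    apply Real.rpow_le_rpow_of_exponent_le (by have := sp_spKn_nonneg κ; linarith)
    have : ((n : ℝ) + 2) ≤ A := by
      have : n + 2 ≤ A := by omega
      exact_mod_cast this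
    linarith
  have h1 : ∑' κ : (Fin n → ℤ) × ℤ, ENNReal.ofReal ((1 + spKn κ) ^ (-(A : ℤ))) ≤ ENNReal.ofReal Cw :=
    (ENNReal.tsum_le_tsum fun κ => ENNReal.ofReal_le_ofReal (hwle κ)).trans hw
  have h2 : ∀ κ : (Fin n → ℤ) × ℤ, ENNReal.ofReal ((1 + spKn κ) ^ (-(A : ℤ))) *
      supN (bet n) μ (fun z => u κ z * (XArr.mk Ar.L Ar.om Ar.y (Ar.L⁻¹ • zvec κ.1) (g κ)).fld s cf z) ≤
      ENNReal.ofReal ((1 + spKn κ) ^ (-((n : ℝ) + 2))) * ENNReal.ofReal ((Cn + Cf * (max Cm 1) ^ bet n) * Z) := by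
    intro κ
    have hx := sp_spKn_nonneg κ
    rw [sp_supN_unimod (bet n) μ (u κ) _ (hu κ)]
    by_cases hk : ‖zvec κ.1‖ ≤ Ar.L ^ (1 / (Jd : ℝ))
    · have h3 := hnode ι (XArr.mk Ar.L Ar.om Ar.y (Ar.L⁻¹ • zvec κ.1) (g κ)) s cf μ m (hcls κ) (by
        show ‖Ar.L⁻¹ • zvec κ.1‖ * Ar.L ≤ _
        rw [norm_smul, Real.norm_eq_abs, abs_of_pos (inv_pos.2 hL0)]
        calc Ar.L⁻¹ * ‖zvec κ.1‖ * Ar.L = ‖zvec κ.1‖ := by field_simp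
          _ ≤ _ := hk) hm hG hS'
      refine mul_le_mul' (ENNReal.ofReal_le_ofReal (hwle κ)) (h3.trans (ENNReal.ofReal_le_ofReal ?_))
      show Cn * m ^ bet n * Ar.L ^ (2 * (n : ℝ) / ((n : ℝ) + 1) + ε) * energy s cf ≤ _
      have : Cn * m ^ bet n * Ar.L ^ (2 * (n : ℝ) / ((n : ℝ) + 1) + ε) * energy s cf = Cn * Z := by rw [hZ]; ring
      rw [this]
      nlinarith
    · push Not at hk
      have hm' : m ≤ max Cm 1 * m := by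
        have : (1 : ℝ) ≤ max Cm 1 := le_max_right _ _
        nlinarith
      have hTm : TubeMom μ (XArr.mk Ar.L Ar.om Ar.y (Ar.L⁻¹ • zvec κ.1) (g κ)).toArr s (max Cm 1 * m) 1 (n + 2) :=
        sp_tubeMom_mono (hmom ι μ _ s m hm hG hS' hL1 (hcls κ).dec.freq) (Finset.Subset.refl _)
          (mul_le_mul_of_nonneg_right (le_max_left _ _) hm) hL0.le one_pos
      have h3 := hfar ι (XArr.mk Ar.L Ar.om Ar.y (Ar.L⁻¹ • zvec κ.1) (g κ)) s cf μ (max Cm 1 * m) 1 (hcls κ).dec (by positivity) one_pos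
        (sp_grow_mono hG hm') hS' hTm
      refine (mul_le_mul' le_rfl h3).trans ?_
      rw [← ENNReal.ofReal_mul (by positivity), ← ENNReal.ofReal_mul (by positivity)]
      apply ENNReal.ofReal_le_ofReal
      show (1 + spKn κ) ^ (-(A : ℤ)) * (Cf * (max Cm 1 * m) ^ bet n * Ar.L ^ (2 * (n : ℝ) / ((n : ℝ) + 1) + n) * (1 : ℝ) ^ (-bet n) * energy s cf) ≤ _
      have hsplit : (1 + spKn κ) ^ (-(A : ℤ)) = (1 + spKn κ) ^ (-((n : ℝ) + 2)) * (1 + spKn κ) ^ (-((A : ℝ) - (n + 2))) := by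
        rw [sp_wgt_eq, ← Real.rpow_add (by linarith)]; congr 1; ring
      have hAq : (n : ℝ) * Jd ≤ (A : ℝ) - (n + 2) := by
        have : ((n + 2 + n * Jd : ℕ) : ℝ) ≤ A := by
          have : n + 2 + n * Jd ≤ A := by omega
          exact_mod_cast this
        push_cast at this
        linarith
      have hxL : Ar.L ^ (1 / (Jd : ℝ)) ≤ 1 + spKn κ := by
        have : ‖zvec κ.1‖ ≤ spKn κ := by unfold spKn; have := abs_nonneg ((κ.2 : ℝ)); linarith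
        linarith
      have hnum : (1 + spKn κ) ^ (-((A : ℝ) - (n + 2))) * Ar.L ^ (n : ℝ) ≤ Ar.L ^ ε := by
        have hq0 : 0 ≤ (n : ℝ) * Jd := by positivity
        have h5 : (1 + spKn κ) ^ (-((A : ℝ) - (n + 2))) ≤ Ar.L ^ (-(n : ℝ)) := by
          calc (1 + spKn κ) ^ (-((A : ℝ) - (n + 2))) ≤ (Ar.L ^ (1 / (Jd : ℝ))) ^ (-((A : ℝ) - (n + 2))) :=
                Real.rpow_le_rpow_of_nonpos (by positivity) hxL (by linarith)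
            _ = Ar.L ^ (-(((A : ℝ) - (n + 2)) / Jd)) := by rw [← Real.rpow_mul hL0.le]; congr 1; ring
            _ ≤ Ar.L ^ (-(n : ℝ)) := by
              apply Real.rpow_le_rpow_of_exponent_le hL1
              rw [neg_le_neg_iff, le_div_iff₀ hJr]
              exact hAq
        calc (1 + spKn κ) ^ (-((A : ℝ) - (n + 2))) * Ar.L ^ (n : ℝ) ≤ Ar.L ^ (-(n : ℝ)) * Ar.L ^ (n : ℝ) := by gcongr
          _ = 1 := by rw [← Real.rpow_add hL0]; simp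
          _ ≤ Ar.L ^ ε := Real.one_le_rpow hL1 hε.le
      have hLsplit : Ar.L ^ (2 * (n : ℝ) / ((n : ℝ) + 1) + n) = Ar.L ^ (2 * (n : ℝ) / ((n : ℝ) + 1)) * Ar.L ^ (n : ℝ) := Real.rpow_add hL0 _ _
      have hLs2 : Ar.L ^ (2 * (n : ℝ) / ((n : ℝ) + 1) + ε) = Ar.L ^ (2 * (n : ℝ) / ((n : ℝ) + 1)) * Ar.L ^ ε := Real.rpow_add hL0 _ _
      have hmβ : (max Cm 1 * m) ^ bet n = (max Cm 1) ^ bet n * m ^ bet n := Real.mul_rpow (by positivity) hm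
      rw [hsplit, hLsplit, hmβ, Real.one_rpow, mul_one]
      have hw0 : 0 ≤ (1 + spKn κ) ^ (-((n : ℝ) + 2)) := by positivity
      calc (1 + spKn κ) ^ (-((n : ℝ) + 2)) * (1 + spKn κ) ^ (-((A : ℝ) - (n + 2))) *
            (Cf * ((max Cm 1) ^ bet n * m ^ bet n) * (Ar.L ^ (2 * (n : ℝ) / ((n : ℝ) + 1)) * Ar.L ^ (n : ℝ)) * energy s cf)
          = (1 + spKn κ) ^ (-((n : ℝ) + 2)) * (Cf * (max Cm 1) ^ bet n * ((1 + spKn κ) ^ (-((A : ℝ) - (n + 2))) * Ar.L ^ (n : ℝ)) *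
              (m ^ bet n * Ar.L ^ (2 * (n : ℝ) / ((n : ℝ) + 1)) * energy s cf)) := by ring
        _ ≤ (1 + spKn κ) ^ (-((n : ℝ) + 2)) * (Cf * (max Cm 1) ^ bet n * Ar.L ^ ε *
              (m ^ bet n * Ar.L ^ (2 * (n : ℝ) / ((n : ℝ) + 1)) * energy s cf)) := by gcongr
        _ = (1 + spKn κ) ^ (-((n : ℝ) + 2)) * (Cf * (max Cm 1) ^ bet n * Z) := by rw [hZ, hLs2]; ring
        _ ≤ (1 + spKn κ) ^ (-((n : ℝ) + 2)) * ((Cn + Cf * (max Cm 1) ^ bet n) * Z) := by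
          apply mul_le_mul_of_nonneg_left _ hw0
          nlinarith
  calc supN (bet n) μ (Ar.fld s cf)
      ≤ ENNReal.ofReal Cw * ∑' κ : (Fin n → ℤ) × ℤ, ENNReal.ofReal ((1 + spKn κ) ^ (-((n : ℝ) + 2))) * ENNReal.ofReal ((Cn + Cf * (max Cm 1) ^ bet n) * Z) :=
        key.trans (mul_le_mul' h1 (ENNReal.tsum_le_tsum h2))
    _ ≤ ENNReal.ofReal Cw * (ENNReal.ofReal Cw * ENNReal.ofReal ((Cn + Cf * (max Cm 1) ^ bet n) * Z)) := by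
        rw [ENNReal.tsum_mul_right]
        exact mul_le_mul' le_rfl (mul_le_mul' hw le_rfl)
    _ = ENNReal.ofReal (Cw * (Cw * (Cn + Cf * (max Cm 1) ^ bet n)) * m ^ bet n * Ar.L ^ (2 * (n : ℝ) / ((n : ℝ) + 1) + ε) * energy s cf) := by
        rw [← ENNReal.ofReal_mul hCw, ← ENNReal.ofReal_mul hCw]
        congr 1
        rw [hZ]; ring

end Claimed.Agent.R257
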