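import Claimed.Agent.R257.Sp.Defs
import Claimed.Agent.Lib.BD.Fs

/-!
# R257 / Sp / Fun : CALCULUS OF THE WEIGHTED FUNCTIONAL `spT`        (captain helper7)        PAPER-FREE

Every `sorry` is a LEAF `L-257-SP-F*` (name in the docstring).  Statements frozen (tell helper7 at once if one looks false or awkward).  Prove IN PLACE, helper lemmas directly above your theorem, prefix `sp_<leaf>_`.
`d = n + 1` = dimension of `ST n = E n × ℝ` (sup norm, product volume).   All functionals are `ℝ≥0∞` valued.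
-/

set_option autoImplicit false

namespace Claimed.Agent.R257

open MeasureTheory Metric Set
open scoped ENNReal

variable {n : ℕ} {ι : Type}

/-! ## measurability -/

/-- L-257-SP-F1 (~15 l.) -/
theorem sp_measurable_spW (Ew ρ : ℝ) : Measurable (spW Ew ρ : ST n → ℝ≥0∞) := by
  unfold spW
  exact ENNReal.measurable_ofReal.comp ((measurable_const.add (measurable_norm.div_const ρ)).pow_const _)

/-- L-257-SP-F1 (~25 l.; `Measurable.lintegral_prod_right'`) -/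
theorem sp_measurable_mass {w : ST n → ℝ≥0∞} (hw : Measurable w) (ν : Measure (ST n)) [SFinite ν] : Measurable (spMass w ν) := by
  unfold spMass
  have h : Measurable fun p : ST n × ST n => w (p.2 - p.1) := hw.comp (measurable_snd.sub measurable_fst)
  exact h.lintegral_prod_right'

/-- L-257-SP-F1 (~25 l.) -/
theorem sp_measurable_loc (P : ℝ) {w : ST n → ℝ≥0∞} (hw : Measurable w) {V : ST n → ℂ} (hV : Measurable V) : Measurable (spLoc P w V) := by
  unfold spLoc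
  have h : Measurable fun p : ST n × ST n => ‖V p.2‖ₑ ^ P * w (p.2 - p.1) :=
    ((hV.comp measurable_snd).enorm.pow_const P).mul (hw.comp (measurable_snd.sub measurable_fst))
  exact h.lintegral_prod_right'

/-- L-257-SP-F1 (~40 l.; the balls `closedBall 0 k` have finite mass) -/
theorem sp_grow_sigmaFinite {ν : Measure (ST n)} {m a : ℝ} (h : Grow ν m a) : SigmaFinite ν := by
  refine ⟨⟨⟨fun k : ℕ => closedBall 0 ((k : ℝ) + 1), fun _ => trivial, fun k => ?_, ?_⟩⟩⟩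
  · refine lt_of_le_of_lt (h 0 ((k : ℝ) + 1) ?_) ENNReal.ofReal_lt_top
    have : (0 : ℝ) ≤ k := Nat.cast_nonneg _
    linarith
  · rw [eq_univ_iff_forall]
    intro x
    rw [mem_iUnion]
    refine ⟨⌈‖x‖⌉₊, ?_⟩
    rw [mem_closedBall, dist_zero_right]
    have := Nat.le_ceil ‖x‖
    linarith

/-! ## elementary inequalities -/

theorem sp_F2_sum_rpow_le {J : Type*} (a : J → ℝ≥0∞) {b : ℝ} (h0 : 0 < b) (h1 : b ≤ 1) (s : Finset J) :
    (∑ j ∈ s, a j) ^ b ≤ ∑ j ∈ s, a j ^ b := by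
  classical
  induction s using Finset.induction_on with
  | empty =>
    simp only [Finset.sum_empty]
    rw [ENNReal.zero_rpow_of_pos h0]
  | insert j s hj ih =>
    rw [Finset.sum_insert hj, Finset.sum_insert hj]
    exact le_trans (ENNReal.rpow_add_le_add_rpow _ _ h0.le h1) (add_le_add le_rfl ih)

/-- L-257-SP-F2 (~50 l.; finite sums: `ENNReal.rpow_add_le_add_rpow` + induction; then `ENNReal.tsum_eq_iSup_sum`, continuity/monotonicity of `rpow`) -/
theorem sp_tsum_rpow_le {J : Type*} (a : J → ℝ≥0∞) {b : ℝ} (h0 : 0 < b) (h1 : b ≤ 1) : (∑' j, a j) ^ b ≤ ∑' j, a j ^ b := by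
  have h : Filter.Tendsto (fun s : Finset J => (∑ j ∈ s, a j) ^ b) Filter.atTop (nhds ((∑' j, a j) ^ b)) :=
    (ENNReal.continuous_rpow_const.tendsto _).comp ENNReal.summable.hasSum
  refine le_of_tendsto' h fun s => ?_
  exact le_trans (sp_F2_sum_rpow_le a h0 h1 s) (ENNReal.sum_le_tsum s)

/-- L-257-SP-F2 (~10 l.) -/
theorem spT_mono_field {b : ℝ} (h1 : b ≤ 1) (hP : 0 ≤ spP b) (w : ST n → ℝ≥0∞) {V V' : ST n → ℂ} (h : ∀ z, ‖V z‖ ≤ ‖V' z‖) (ν : Measure (ST n)) :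
    spT b w V ν ≤ spT b w V' ν := by
  unfold spT
  refine lintegral_mono fun z => ?_
  refine mul_le_mul_right ?_ _
  refine ENNReal.rpow_le_rpow ?_ (by linarith)
  unfold spLoc
  refine lintegral_mono fun y => ?_
  refine mul_le_mul_left ?_ _
  exact ENNReal.rpow_le_rpow (enorm_le_iff_norm_le.2 (h y)) hP

/-- L-257-SP-F2 (~15 l.) -/
theorem spT_mono_measure {b : ℝ} (h0 : 0 ≤ b) (w : ST n → ℝ≥0∞) (V : ST n → ℂ) {ν ν' : Measure (ST n)} (h : ν ≤ ν') : spT b w V ν ≤ spT b w V ν' := by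
  unfold spT
  refine lintegral_mono fun z => ?_
  refine mul_le_mul_left ?_ _
  refine ENNReal.rpow_le_rpow ?_ h0
  unfold spMass
  exact lintegral_mono' h le_rfl

/-- L-257-SP-F3 (~60 l.).  **Subadditivity in the measure** (`lintegral_sum_measure`, `sp_tsum_rpow_le`, `ENNReal.tsum_mul_right`, `lintegral_tsum`). -/
theorem spT_sum_le {b : ℝ} (h0 : 0 < b) (h1 : b ≤ 1) {w : ST n → ℝ≥0∞} (hw : Measurable w) {V : ST n → ℂ} (hV : Measurable V)
    {J : Type} [Countable J] (ν : J → Measure (ST n)) [∀ j, SFinite (ν j)] :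
    spT b w V (Measure.sum ν) ≤ ∑' j, spT b w V (ν j) := by
  unfold spT
  rw [← lintegral_tsum]
  · refine lintegral_mono fun z => ?_
    rw [ENNReal.tsum_mul_right]
    refine mul_le_mul_left ?_ _
    have e : spMass w (Measure.sum ν) z = ∑' j, spMass w (ν j) z := by
      unfold spMass
      rw [lintegral_sum_measure]
    rw [e]
    exact sp_tsum_rpow_le _ h0 h1
  · intro j
    exact (((sp_measurable_mass hw (ν j)).pow_const b).mul
      ((sp_measurable_loc (spP b) hw hV).pow_const (1 - b))).aemeasurable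

/-- L-257-SP-F3 (~60 l.).  **Quasi triangle inequality** (no Minkowski): `(x+y)^P ≤ 2^(P-1) (x^P + y^P)` (`ENNReal.rpow_add_le_mul_rpow_add_rpow`), `(x+y)^(1-b) ≤ x^(1-b) + y^(1-b)`,
`(2^(P-1))^(1-b) = 2^(1+b) ≤ 4`. -/
theorem spT_add_le {b : ℝ} (h0 : 0 ≤ b) (h1 : b < 1) {w : ST n → ℝ≥0∞} (hw : Measurable w) {V V' : ST n → ℂ} (hV : Measurable V) (hV' : Measurable V')
    (ν : Measure (ST n)) [SFinite ν] :
    spT b w (fun z => V z + V' z) ν ≤ 4 * (spT b w V ν + spT b w V' ν) := by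
  have hb : 0 < 1 - b := by linarith
  have hP : 1 ≤ spP b := by
    unfold spP
    rw [le_div_iff₀ hb]
    linarith
  have hloc : ∀ z, spLoc (spP b) w (fun z => V z + V' z) z
      ≤ (2 : ℝ≥0∞) ^ (spP b - 1) * (spLoc (spP b) w V z + spLoc (spP b) w V' z) := by
    intro z
    unfold spLoc
    rw [← lintegral_add_left, ← lintegral_const_mul']
    · refine lintegral_mono fun y => ?_
      rw [← add_mul, ← mul_assoc]
      refine mul_le_mul_left ?_ _
      refine le_trans (ENNReal.rpow_le_rpow (enorm_add_le _ _) (by linarith)) ?_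
      exact ENNReal.rpow_add_le_mul_rpow_add_rpow _ _ hP
    · exact ENNReal.rpow_ne_top_of_nonneg (by linarith) (by norm_num)
    · exact (hV.enorm.pow_const _).mul (hw.comp (measurable_id.sub_const z))
  have hconst : ((2 : ℝ≥0∞) ^ (spP b - 1)) ^ (1 - b) ≤ 4 := by
    rw [← ENNReal.rpow_mul]
    have e : (spP b - 1) * (1 - b) = 1 + b := by
      unfold spP
      field_simp
      ring
    rw [e]
    calc (2 : ℝ≥0∞) ^ (1 + b) ≤ (2 : ℝ≥0∞) ^ (2 : ℝ) :=
          ENNReal.rpow_le_rpow_of_exponent_le (by norm_num) (by linarith)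
      _ = 4 := by
          rw [ENNReal.rpow_two]
          norm_num
  have hm := (sp_measurable_mass hw ν).pow_const b
  have hl := (sp_measurable_loc (spP b) hw hV).pow_const (1 - b)
  have hml : Measurable fun z => spMass w ν z ^ b * spLoc (spP b) w V z ^ (1 - b) := hm.mul hl
  unfold spT
  rw [← lintegral_add_left hml, ← lintegral_const_mul' _ _ (by norm_num)]
  refine lintegral_mono fun z => ?_
  rw [← mul_add, mul_left_comm]
  refine mul_le_mul_right ?_ _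
  calc spLoc (spP b) w (fun z => V z + V' z) z ^ (1 - b)
      ≤ ((2 : ℝ≥0∞) ^ (spP b - 1) * (spLoc (spP b) w V z + spLoc (spP b) w V' z)) ^ (1 - b) :=
        ENNReal.rpow_le_rpow (hloc z) hb.le
    _ = ((2 : ℝ≥0∞) ^ (spP b - 1)) ^ (1 - b) * (spLoc (spP b) w V z + spLoc (spP b) w V' z) ^ (1 - b) :=
        ENNReal.mul_rpow_of_nonneg _ _ hb.le
    _ ≤ 4 * (spLoc (spP b) w V z ^ (1 - b) + spLoc (spP b) w V' z ^ (1 - b)) :=
        mul_le_mul' hconst (ENNReal.rpow_add_le_add_rpow _ _ hb.le (by linarith))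

/-! ## coarsening of the weight -/

/-- averaging of the weighted mass in the centre -/
theorem sp_F4_mass {w Ω χ : ST n → ℝ≥0∞} (hw : Measurable w) (hΩ : Measurable Ω) (hχ : Measurable χ) {C₀ : ℝ≥0∞}
    (hc : ∀ u, ∫⁻ s, χ s * w (u - s) ≤ C₀ * Ω u) (lam : Measure (ST n)) [SFinite lam] (z'' : ST n) :
    ∫⁻ z', χ (z' - z'') * spMass w lam z' ≤ C₀ * spMass Ω lam z'' := by
  unfold spMass
  have hΩz : Measurable fun y => Ω (y - z'') := hΩ.comp (measurable_id.sub_const _)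
  calc ∫⁻ z', χ (z' - z'') * ∫⁻ y, w (y - z') ∂lam
      = ∫⁻ z', (∫⁻ y, χ (z' - z'') * w (y - z') ∂lam) := by
        refine lintegral_congr fun z' => ?_
        have hm : Measurable fun y => w (y - z') := hw.comp (measurable_id.sub_const _)
        rw [lintegral_const_mul _ hm]
    _ = ∫⁻ y, (∫⁻ z', χ (z' - z'') * w (y - z')) ∂lam := by
        rw [lintegral_lintegral_swap]
        refine Measurable.aemeasurable ?_
        exact (hχ.comp (measurable_fst.sub_const _)).mul (hw.comp (measurable_snd.sub measurable_fst))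
    _ = ∫⁻ y, (∫⁻ s, χ s * w ((y - z'') - s)) ∂lam := by
        refine lintegral_congr fun y => ?_
        rw [← lintegral_sub_right_eq_self (fun s => χ s * w ((y - z'') - s)) z'']
        refine lintegral_congr fun z' => ?_
        congr 2
        abel
    _ ≤ ∫⁻ y, C₀ * Ω (y - z'') ∂lam := lintegral_mono fun y => hc _
    _ = C₀ * ∫⁻ y, Ω (y - z'') ∂lam := lintegral_const_mul _ hΩz

/-- the local norm is the weighted mass of the measure `|V|^P dy` -/
theorem sp_F4_loc (P : ℝ) {w : ST n → ℝ≥0∞} (hw : Measurable w) {V : ST n → ℂ} (hV : Measurable V) (z : ST n) :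
    spLoc P w V z = spMass w (volume.withDensity fun y => ‖V y‖ₑ ^ P) z := by
  unfold spLoc spMass
  have hm : Measurable fun y => w (y - z) := hw.comp (measurable_id.sub_const _)
  rw [lintegral_withDensity_eq_lintegral_mul _ (hV.enorm.pow_const P) hm]
  rfl

/-- L-257-SP-F4 (~180 l.).  **Hölder in the centre.**   PLAN.  `a z = spMass w ν z`, `B z = spLoc P w V z`, `f = a^b B^(1-b)`.
(1) `∫ f z' dz' = ∫ dz'' ∫ χ(z' - z'') f z' dz'` (Tonelli, translation invariance, `∫ χ = 1`).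
(2) Hölder with exponents `1/b`, `1/(1-b)` for the measure `χ(z' - z'') dz'` (`ENNReal.lintegral_mul_le_Lp_mul_Lq` or `lintegral_mul_norm_pow_le`-type lemma):  `∫ χ a^b B^(1-b) ≤ (∫ χ a)^b (∫ χ B)^(1-b)`.
(3) Tonelli: `∫ χ(z' - z'') a z' dz' = ∫ dν(y) ∫ χ(s) w((y - z'') - s) ds ≤ C₀ spMass Ω ν z''`; the same for `B`.   (4) `C₀^b C₀^(1-b) = C₀`. -/
theorem spT_le_of_conv {b : ℝ} (h0 : 0 < b) (h1 : b < 1) {w Ω χ : ST n → ℝ≥0∞} (hw : Measurable w) (hΩ : Measurable Ω) (hχ : Measurable χ)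
    (hχ1 : ∫⁻ s, χ s = 1) {C₀ : ℝ≥0∞} (hc : ∀ u, ∫⁻ s, χ s * w (u - s) ≤ C₀ * Ω u) {V : ST n → ℂ} (hV : Measurable V)
    (ν : Measure (ST n)) [SFinite ν] :
    spT b w V ν ≤ C₀ * spT b Ω V ν := by
  have hb' : 0 ≤ 1 - b := by linarith
  have ha : Measurable (spMass w ν) := sp_measurable_mass hw ν
  have hB : Measurable (spLoc (spP b) w V) := sp_measurable_loc _ hw hV
  have hf : Measurable fun z => spMass w ν z ^ b * spLoc (spP b) w V z ^ (1 - b) :=
    (ha.pow_const _).mul (hB.pow_const _)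
  have hsplit : ∀ x : ℝ≥0∞, x = x ^ b * x ^ (1 - b) := fun x => by
    rw [← ENNReal.rpow_add_of_nonneg _ _ h0.le hb']
    simp
  unfold spT
  calc ∫⁻ z', spMass w ν z' ^ b * spLoc (spP b) w V z' ^ (1 - b)
      = ∫⁻ z', ∫⁻ z'', χ (z' - z'') * (spMass w ν z' ^ b * spLoc (spP b) w V z' ^ (1 - b)) := by
        refine lintegral_congr fun z' => ?_
        have hm : Measurable fun z'' => χ (z' - z'') := hχ.comp (measurable_const.sub measurable_id)
        rw [lintegral_mul_const _ hm, lintegral_sub_left_eq_self χ z', hχ1, one_mul]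
    _ = ∫⁻ z'', ∫⁻ z', χ (z' - z'') * (spMass w ν z' ^ b * spLoc (spP b) w V z' ^ (1 - b)) := by
        rw [lintegral_lintegral_swap]
        refine Measurable.aemeasurable ?_
        exact (hχ.comp (measurable_fst.sub measurable_snd)).mul (hf.comp measurable_fst)
    _ ≤ ∫⁻ z'', (C₀ * spMass Ω ν z'') ^ b * (C₀ * spLoc (spP b) Ω V z'') ^ (1 - b) := by
        refine lintegral_mono fun z'' => ?_
        have hχz : Measurable fun z' => χ (z' - z'') := hχ.comp (measurable_id.sub_const _)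
        calc ∫⁻ z', χ (z' - z'') * (spMass w ν z' ^ b * spLoc (spP b) w V z' ^ (1 - b))
            = ∫⁻ z', (χ (z' - z'') * spMass w ν z') ^ b * (χ (z' - z'') * spLoc (spP b) w V z') ^ (1 - b) := by
              refine lintegral_congr fun z' => ?_
              rw [ENNReal.mul_rpow_of_nonneg _ _ h0.le, ENNReal.mul_rpow_of_nonneg _ _ hb']
              conv_lhs => rw [hsplit (χ (z' - z''))]
              ring
          _ ≤ (∫⁻ z', χ (z' - z'') * spMass w ν z') ^ b * (∫⁻ z', χ (z' - z'') * spLoc (spP b) w V z') ^ (1 - b) :=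
              ENNReal.lintegral_mul_norm_pow_le (hχz.mul ha).aemeasurable (hχz.mul hB).aemeasurable h0.le hb' (by ring)
          _ ≤ (C₀ * spMass Ω ν z'') ^ b * (C₀ * spLoc (spP b) Ω V z'') ^ (1 - b) := by
              gcongr
              · exact sp_F4_mass hw hΩ hχ hc ν z''
              · simp only [sp_F4_loc _ hw hV, sp_F4_loc _ hΩ hV]
                exact sp_F4_mass hw hΩ hχ hc _ z''
    _ = C₀ * ∫⁻ z'', spMass Ω ν z'' ^ b * spLoc (spP b) Ω V z'' ^ (1 - b) := by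
        have hf' : Measurable fun z => spMass Ω ν z ^ b * spLoc (spP b) Ω V z ^ (1 - b) :=
          ((sp_measurable_mass hΩ ν).pow_const _).mul ((sp_measurable_loc _ hΩ hV).pow_const _)
        rw [← lintegral_const_mul _ hf']
        refine lintegral_congr fun z'' => ?_
        rw [ENNReal.mul_rpow_of_nonneg _ _ h0.le, ENNReal.mul_rpow_of_nonneg _ _ hb']
        conv_rhs => rw [hsplit C₀]
        ring

/-- normalised indicator of the ball of radius `ρ` -/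
noncomputable def spChi (ρ : ℝ) (s : ST n) : ℝ≥0∞ := (volume (closedBall (0 : ST n) ρ))⁻¹ * (closedBall (0 : ST n) ρ).indicator 1 s

theorem sp_F5_finrank (n : ℕ) : Module.finrank ℝ (ST n) = n + 1 := by
  simp [ST, E]

theorem sp_F5_lintegral_smul {r : ℝ} (hr : 0 < r) (f : ST n → ℝ≥0∞) :
    ∫⁻ x, f (r • x) = ENNReal.ofReal (r ^ (-((n : ℝ) + 1))) * ∫⁻ x, f x := by
  have h := Measure.map_addHaar_smul (volume : Measure (ST n)) hr.ne'
  have e := lintegral_map_equiv (μ := (volume : Measure (ST n))) f (MeasurableEquiv.smul₀ r hr.ne')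
  have e2 : (⇑(MeasurableEquiv.smul₀ r hr.ne') : ST n → ST n) = fun x => r • x := rfl
  rw [e2, h, lintegral_smul_measure, sp_F5_finrank] at e
  rw [← e, smul_eq_mul]
  congr 2
  rw [abs_of_pos (by positivity), Real.rpow_neg hr.le]
  congr 1
  have : ((n : ℝ) + 1) = ((n + 1 : ℕ) : ℝ) := by push_cast; ring
  rw [this, Real.rpow_natCast]

/-- L-257-SP-F5 (~30 l.) -/
theorem sp_lintegral_chi {ρ : ℝ} (hρ : 0 < ρ) : ∫⁻ s : ST n, spChi ρ s = 1 := by
  unfold spChi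
  rw [lintegral_const_mul _ (measurable_one.indicator measurableSet_closedBall),
    lintegral_indicator_one measurableSet_closedBall]
  exact ENNReal.inv_mul_cancel (measure_closedBall_pos volume 0 hρ).ne' measure_closedBall_lt_top.ne

/-- L-257-SP-F5 (~10 l.) -/
theorem sp_measurable_chi (ρ : ℝ) : Measurable (spChi ρ : ST n → ℝ≥0∞) := by
  unfold spChi
  exact (measurable_one.indicator measurableSet_closedBall).const_mul _

/-- L-257-SP-F5 (~80 l.; `integrable_one_add_norm`, dilation `Measure.addHaar_smul` / `lintegral_comp_smul`-type change of variables; `finrank ℝ (ST n) = n + 1`) -/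
theorem sp_lintegral_spW (n : ℕ) (Ew : ℝ) (hE : (n : ℝ) + 1 < Ew) : ∃ C : ℝ, 0 < C ∧ ∀ ρ : ℝ, 0 < ρ →
    ∫⁻ u : ST n, spW Ew ρ u = ENNReal.ofReal (C * ρ ^ ((n : ℝ) + 1)) := by
  have hint : Integrable (fun x : ST n => (1 + ‖x‖) ^ (-Ew)) volume := by
    apply integrable_one_add_norm
    rw [sp_F5_finrank]
    push_cast
    exact hE
  have hpos : ∀ x : ST n, 0 < (1 + ‖x‖) ^ (-Ew) := fun x => Real.rpow_pos_of_pos (by positivity) _
  refine ⟨∫ x : ST n, (1 + ‖x‖) ^ (-Ew), ?_, fun ρ hρ => ?_⟩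
  · rw [integral_pos_iff_support_of_nonneg (fun x => (hpos x).le) hint]
    have : Function.support (fun x : ST n => (1 + ‖x‖) ^ (-Ew)) = univ := by
      ext x
      simp [(hpos x).ne']
    rw [this]
    exact Measure.measure_univ_pos.2 (NeZero.ne _)
  · have e : ∀ u : ST n, spW Ew ρ u = (fun x : ST n => ENNReal.ofReal ((1 + ‖x‖) ^ (-Ew))) (ρ⁻¹ • u) := by
      intro u
      simp only [spW]
      rw [norm_smul, norm_inv, Real.norm_of_nonneg hρ.le, div_eq_inv_mul]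
    rw [lintegral_congr e, sp_F5_lintegral_smul (inv_pos.2 hρ)
      (fun x : ST n => ENNReal.ofReal ((1 + ‖x‖) ^ (-Ew))), ← ofReal_integral_eq_lintegral_ofReal hint
      (Filter.Eventually.of_forall fun x => (hpos x).le), ← ENNReal.ofReal_mul (by positivity)]
    congr 1
    rw [Real.inv_rpow hρ.le, Real.rpow_neg hρ.le, inv_inv, mul_comm]

/-- L-257-SP-F5 (~20 l.; `Measure.addHaar_closedBall`) -/
theorem sp_volume_ball (n : ℕ) : ∃ C : ℝ, 0 < C ∧ ∀ ρ : ℝ, 0 < ρ → volume (closedBall (0 : ST n) ρ) = ENNReal.ofReal (C * ρ ^ ((n : ℝ) + 1)) := by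
  have h1 : volume (ball (0 : ST n) 1) ≠ ⊤ := measure_ball_lt_top.ne
  have h0 : 0 < volume (ball (0 : ST n) 1) := measure_ball_pos volume 0 one_pos
  refine ⟨(volume (ball (0 : ST n) 1)).toReal, ENNReal.toReal_pos h0.ne' h1, fun ρ hρ => ?_⟩
  rw [Measure.addHaar_closedBall volume 0 hρ.le, sp_F5_finrank, ENNReal.ofReal_mul ENNReal.toReal_nonneg,
    ENNReal.ofReal_toReal h1, mul_comm]
  congr 2
  have : ((n : ℝ) + 1) = ((n + 1 : ℕ) : ℝ) := by push_cast; ring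
  rw [this, Real.rpow_natCast]

/-! helpers of F6 -/

theorem sp_F6_base {a x y : ℝ} (ha : 1 ≤ a) (hy : 0 ≤ y) (h : x - 1 ≤ a * y) :
    (1 + x) / (3 * a) ≤ 1 + y := by
  rw [div_le_iff₀ (by positivity)]
  have := mul_nonneg (by linarith : 0 ≤ a) hy
  by_cases hx2 : x ≤ 2
  · nlinarith
  · push Not at hx2
    nlinarith

theorem sp_F6_pt {a Ew e d x y : ℝ} (ha : 1 ≤ a) (he : 0 ≤ e) (hEw : Ew = e + d) (hx : 0 ≤ x) (hy : 0 ≤ y)
    (h : x - 1 ≤ a * y) :
    (1 + y) ^ (-Ew) ≤ (3 * a) ^ e * (1 + x) ^ (-e) * (1 + y) ^ (-d) := by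
  have h1 := sp_F6_base ha hy h
  have ha0 : 0 < a := by linarith
  have hw : 0 < (1 + x) / (3 * a) := by positivity
  have h2 : (1 + y) ^ (-e) ≤ ((1 + x) / (3 * a)) ^ (-e) := Real.rpow_le_rpow_of_nonpos hw h1 (by linarith)
  have h3 : ((1 + x) / (3 * a)) ^ (-e) = (3 * a) ^ e * (1 + x) ^ (-e) := by
    rw [Real.div_rpow (by positivity) (by positivity), Real.rpow_neg (x := 3 * a) (by positivity), div_inv_eq_mul,
      mul_comm]
  have h4 : (1 + y) ^ (-Ew) = (1 + y) ^ (-e) * (1 + y) ^ (-d) := by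
    rw [← Real.rpow_add (by positivity), hEw]
    congr 1
    ring
  rw [h4, ← h3]
  exact mul_le_mul_of_nonneg_right h2 (by positivity)

/-- L-257-SP-F6 (~150 l.).  **The kernel inequality.**  `Ψ` = an expanding map (`|u| ≤ a |Ψ u|`) which multiplies integrals by `δ`.   PLAN.  For `|s| ≤ ρ`, `r = u - s`:  `|Ψ r| ≥ |r|/a ≥ (|u| - ρ)/a`, hence
`1 + |Ψ r|/ρ ≥ (1 + |u|/ρ)/(2a)`  (if `|u| ≤ 2ρ` the right side is `≤ 3/(2a)`... use `1 + x ≥ max 1 x`; constant `3a` is safe).   So `spW Ew ρ (Ψ r) ≤ (3a)^(Ew-n-2) (1+|u|/ρ)^(-(Ew-n-2)) spW (n+2) ρ (Ψ r)`;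
integrate in `s` over the whole space: `∫ spW (n+2) ρ (Ψ (u - s)) ds = δ ∫ spW (n+2) ρ = δ C ρ^(n+1)` (`sp_lintegral_spW`) and divide by the volume of the ball (`sp_volume_ball`). -/
theorem sp_ker (n : ℕ) (a Ew : ℝ) (ha : 1 ≤ a) (hE : (n : ℝ) + 2 ≤ Ew) : ∃ C : ℝ, 0 ≤ C ∧ ∀ (ρ δ : ℝ) (Ψ : ST n → ST n), 0 < ρ → 0 ≤ δ →
    (∀ u, ‖u‖ ≤ a * ‖Ψ u‖) → (∀ (f : ST n → ℝ≥0∞) (u : ST n), ∫⁻ s, f (Ψ (u - s)) = ENNReal.ofReal δ * ∫⁻ s, f s) →
    ∀ u, ∫⁻ s, spChi ρ s * spW Ew ρ (Ψ (u - s)) ≤ ENNReal.ofReal (C * δ) * spW (Ew - ((n : ℝ) + 2)) ρ u := by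
  obtain ⟨C₁, hC₁, hW⟩ := sp_lintegral_spW n ((n : ℝ) + 2) (by linarith)
  obtain ⟨C₂, hC₂, hB⟩ := sp_volume_ball n
  have ha0 : 0 < a := by linarith
  obtain ⟨e, he⟩ : ∃ e, e = Ew - ((n : ℝ) + 2) := ⟨_, rfl⟩
  rw [← he]
  have he0 : 0 ≤ e := by linarith
  refine ⟨(3 * a) ^ e * C₁ / C₂, by positivity, fun ρ δ Ψ hρ hδ hΨ hint u => ?_⟩
  have hpt : ∀ s, spChi ρ s * spW Ew ρ (Ψ (u - s)) ≤
      ((volume (closedBall (0 : ST n) ρ))⁻¹ * (ENNReal.ofReal ((3 * a) ^ e) * spW e ρ u)) *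
        spW ((n : ℝ) + 2) ρ (Ψ (u - s)) := by
    intro s
    unfold spChi
    by_cases hs : s ∈ closedBall (0 : ST n) ρ
    · rw [indicator_of_mem hs, Pi.one_apply, mul_one, mul_assoc]
      gcongr
      simp only [spW]
      rw [← ENNReal.ofReal_mul (by positivity), ← ENNReal.ofReal_mul (by positivity)]
      apply ENNReal.ofReal_le_ofReal
      apply sp_F6_pt ha he0 (by rw [he]; ring) (by positivity) (by positivity)
      rw [mem_closedBall, dist_zero_right] at hs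
      have h1 := hΨ (u - s)
      have h2 : ‖u‖ ≤ ‖u - s‖ + ‖s‖ := by
        have := norm_add_le (u - s) s
        rwa [sub_add_cancel] at this
      rw [← mul_div_assoc, div_sub_one hρ.ne']
      gcongr
      linarith
    · rw [indicator_of_notMem hs]
      simp
  have hvol : (volume (closedBall (0 : ST n) ρ))⁻¹ = ENNReal.ofReal ((C₂ * ρ ^ ((n : ℝ) + 1))⁻¹) := by
    rw [hB ρ hρ, ENNReal.ofReal_inv_of_pos (by positivity)]
  calc ∫⁻ s, spChi ρ s * spW Ew ρ (Ψ (u - s))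
      ≤ ∫⁻ s, ((volume (closedBall (0 : ST n) ρ))⁻¹ * (ENNReal.ofReal ((3 * a) ^ e) * spW e ρ u)) *
        spW ((n : ℝ) + 2) ρ (Ψ (u - s)) := lintegral_mono hpt
    _ = ((volume (closedBall (0 : ST n) ρ))⁻¹ * (ENNReal.ofReal ((3 * a) ^ e) * spW e ρ u)) *
        ∫⁻ s, spW ((n : ℝ) + 2) ρ (Ψ (u - s)) := by
      apply lintegral_const_mul'
      rw [hvol]
      exact ENNReal.mul_ne_top ENNReal.ofReal_ne_top (ENNReal.mul_ne_top ENNReal.ofReal_ne_top ENNReal.ofReal_ne_top)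
    _ = (ENNReal.ofReal ((C₂ * ρ ^ ((n : ℝ) + 1))⁻¹) * ENNReal.ofReal ((3 * a) ^ e) * ENNReal.ofReal δ *
        ENNReal.ofReal (C₁ * ρ ^ ((n : ℝ) + 1))) * spW e ρ u := by
      rw [hint (spW _ ρ) u, hW ρ hρ, hvol]
      ring
    _ = ENNReal.ofReal ((3 * a) ^ e * C₁ / C₂ * δ) * spW e ρ u := by
      rw [← ENNReal.ofReal_mul (by positivity), ← ENNReal.ofReal_mul (by positivity),
        ← ENNReal.ofReal_mul (by positivity)]
      congr 2
      have : ρ ^ ((n : ℝ) + 1) ≠ 0 := (Real.rpow_pos_of_pos hρ _).ne'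
      field_simp

/-- L-257-SP-F7 (~80 l.).  **From unit scale to scale `ρ`** (`spT_le_of_conv`, `sp_ker` with `Ψ u = ρ • u`, `a = 1`, `δ = ρ^(-(n+1))`; `spW Ew 1 u = spW Ew ρ (ρ • u)`). -/
theorem spT_coarsen (n : ℕ) (b Ew : ℝ) (h0 : 0 < b) (h1 : b < 1) (hE : (n : ℝ) + 2 ≤ Ew) : ∃ C : ℝ, 0 ≤ C ∧ ∀ (ρ : ℝ) (V : ST n → ℂ) (ν : Measure (ST n)) [SFinite ν],
    1 ≤ ρ → Measurable V →
    spT b (spW Ew 1) V ν ≤ ENNReal.ofReal (C * ρ ^ (-((n : ℝ) + 1))) * spT b (spW (Ew - ((n : ℝ) + 2)) ρ) V ν := by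
  obtain ⟨C, hC, hker⟩ := sp_ker n 1 Ew le_rfl hE
  refine ⟨C, hC, fun ρ V ν _ hρ hV => ?_⟩
  have hρ0 : 0 < ρ := by linarith
  have hW : ∀ x : ST n, spW Ew 1 x = spW Ew ρ (ρ • x) := by
    intro x
    simp only [spW]
    rw [norm_smul, Real.norm_of_nonneg hρ0.le, div_one, mul_div_cancel_left₀ _ hρ0.ne']
  have key := hker ρ (ρ ^ (-((n : ℝ) + 1))) (fun u => ρ • u) hρ0 (by positivity)
    (fun u => by
      rw [norm_smul, Real.norm_of_nonneg hρ0.le, one_mul]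
      nlinarith [norm_nonneg u])
    (fun f u => by
      have := lintegral_sub_left_eq_self (μ := (volume : Measure (ST n))) (fun x => f (ρ • x)) u
      rw [this, sp_F5_lintegral_smul hρ0])
  refine spT_le_of_conv h0 h1 (sp_measurable_spW _ _) (sp_measurable_spW _ _) (sp_measurable_chi ρ)
    (sp_lintegral_chi hρ0) (fun u => ?_) hV ν
  simp_rw [hW]
  exact key u

/-! ## parabolic rescaling -/

theorem sp_F8_pmap_eq (K : ℝ) (v₀ : E n) : pmap K v₀ = BD.Lam (-v₀) K⁻¹ ((K⁻¹) ^ 2) := by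
  funext z
  unfold pmap BD.Lam
  ext1
  · simp only [smul_neg, sub_eq_add_neg]
  · simp only
    rw [inv_pow, div_eq_inv_mul]

theorem sp_F8_pinv_eq (K : ℝ) (v₀ : E n) : pinv K v₀ = BD.Lam (K • v₀) K (K ^ 2) := by
  funext z
  unfold pinv BD.Lam
  ext1
  · simp only
    module
  · simp only

theorem sp_F8_finrank (n : ℕ) : Module.finrank ℝ (E n) = n := by
  simp [E]

/-- L-257-SP-F8 (~40 l.) -/
theorem sp_pmap_pinv {K : ℝ} (hK : K ≠ 0) (v₀ : E n) (z : ST n) : pmap K v₀ (pinv K v₀ z) = z ∧ pinv K v₀ (pmap K v₀ z) = z := by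
  constructor
  · unfold pmap pinv
    ext1
    · simp only [add_sub_cancel_right, smul_smul, inv_mul_cancel₀ hK, one_smul]
    · simp only
      field_simp
  · unfold pmap pinv
    ext1
    · simp only [smul_smul, mul_inv_cancel₀ hK, one_smul]
      have : K ^ 2 * (z.2 / K ^ 2) = z.2 := by field_simp
      rw [this, sub_add_cancel]
    · simp only
      field_simp

/-- L-257-SP-F8 (~20 l.) -/
theorem sp_pinv_sub (K : ℝ) (v₀ : E n) (z z' : ST n) : pinv K v₀ (z - z') = pinv K v₀ z - pinv K v₀ z' := by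
  unfold pinv
  ext1
  · simp only [Prod.fst_sub, Prod.snd_sub]
    module
  · simp only [Prod.snd_sub]
    ring

/-- L-257-SP-F8 (~40 l.; `pmap K v₀ = BD.Lam (-v₀) K⁻¹ (K⁻¹)^2`, `BD.lintegral_Lam`; `finrank ℝ (E n) = n`) -/
theorem sp_lintegral_pmap {K : ℝ} (hK : 0 < K) (v₀ : E n) (f : ST n → ℝ≥0∞) :
    ∫⁻ z, f (pmap K v₀ z) = ENNReal.ofReal (K ^ ((n : ℝ) + 2)) * ∫⁻ z, f z := by
  rw [sp_F8_pmap_eq, BD.lintegral_Lam (-v₀) (inv_pos.2 hK) (by positivity) f, sp_F8_finrank]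
  congr 2
  have : ((n : ℝ) + 2) = ((n + 2 : ℕ) : ℝ) := by push_cast; ring
  rw [this, Real.rpow_natCast, pow_add, inv_pow, inv_pow, ← mul_inv, inv_inv]

/-- L-257-SP-F8 (~30 l.) -/
theorem sp_lintegral_pinv {K : ℝ} (hK : 0 < K) (v₀ : E n) (f : ST n → ℝ≥0∞) :
    ∫⁻ z, f (pinv K v₀ z) = ENNReal.ofReal (K ^ (-((n : ℝ) + 2))) * ∫⁻ z, f z := by
  rw [sp_F8_pinv_eq, BD.lintegral_Lam (K • v₀) hK (by positivity) f, sp_F8_finrank]
  congr 2
  have : ((n : ℝ) + 2) = ((n + 2 : ℕ) : ℝ) := by push_cast; ring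
  rw [this, Real.rpow_neg hK.le, Real.rpow_natCast, pow_add]

/-- L-257-SP-F8 (~40 l.).  `pinv` is expanding up to the constant `1 + 2 Rv` -/
theorem sp_norm_le_pinv {K Rv : ℝ} (hK : 1 ≤ K) {v₀ : E n} (hv : ‖v₀‖ ≤ Rv) (u : ST n) : ‖u‖ ≤ (1 + 2 * Rv) * ‖pinv K v₀ u‖ := by
  have hK0 : 0 < K := by linarith
  have hRv : 0 ≤ Rv := (norm_nonneg _).trans hv
  obtain ⟨w, hw⟩ : ∃ w, w = pinv K v₀ u := ⟨_, rfl⟩
  have hu : u = pmap K v₀ w := by rw [hw, (sp_pmap_pinv hK0.ne' v₀ u).1]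
  rw [← hw, hu]
  have h1 : ‖w.1‖ ≤ ‖w‖ := norm_fst_le w
  have h2 : ‖w.2‖ ≤ ‖w‖ := norm_snd_le w
  have hKi : K⁻¹ ≤ 1 := inv_le_one_of_one_le₀ hK
  have hKi0 : 0 ≤ K⁻¹ := by positivity
  rw [Prod.norm_def]
  apply max_le
  · unfold pmap
    simp only
    rw [norm_smul, Real.norm_of_nonneg hKi0]
    have h3 : ‖w.1 - (2 * w.2) • v₀‖ ≤ ‖w.1‖ + 2 * ‖w.2‖ * Rv := by
      refine (norm_sub_le _ _).trans ?_
      rw [norm_smul, norm_mul]
      gcongr
      simp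
    have h4 : ‖w.1‖ + 2 * ‖w.2‖ * Rv ≤ (1 + 2 * Rv) * ‖w‖ := by nlinarith
    calc K⁻¹ * ‖w.1 - (2 * w.2) • v₀‖ ≤ 1 * ‖w.1 - (2 * w.2) • v₀‖ := by gcongr
      _ ≤ _ := by rw [one_mul]; exact h3.trans h4
  · unfold pmap
    simp only
    rw [norm_div, norm_pow, Real.norm_of_nonneg hK0.le]
    have h5 : ‖w.2‖ / K ^ 2 ≤ ‖w.2‖ := div_le_self (norm_nonneg _) (one_le_pow₀ hK)
    nlinarith [norm_nonneg w]

/-- `pmap` as a measurable equivalence -/
noncomputable def sp_F9_equiv {K : ℝ} (hK : K ≠ 0) (v₀ : E n) : ST n ≃ᵐ ST n where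
  toFun := pmap K v₀
  invFun := pinv K v₀
  left_inv z := (sp_pmap_pinv hK v₀ z).2
  right_inv z := (sp_pmap_pinv hK v₀ z).1
  measurable_toFun := (inf_pmap_continuous K v₀).measurable
  measurable_invFun := by
    have : Continuous (pinv K v₀) := by
      unfold pinv
      fun_prop
    exact this.measurable

theorem sp_F9_mass {K : ℝ} (hK : K ≠ 0) (v₀ : E n) (w : ST n → ℝ≥0∞) (ν : Measure (ST n)) (z' : ST n) :
    spMass (fun u => w (pinv K v₀ u)) (ν.map (pmap K v₀)) z' = spMass w ν (pinv K v₀ z') := by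
  unfold spMass
  have h := lintegral_map_equiv (μ := ν) (fun y => w (pinv K v₀ (y - z'))) (sp_F9_equiv hK v₀)
  have e : (⇑(sp_F9_equiv hK v₀) : ST n → ST n) = pmap K v₀ := rfl
  rw [e] at h
  rw [h]
  refine lintegral_congr fun y => ?_
  rw [sp_pinv_sub, (sp_pmap_pinv hK v₀ y).2]

theorem sp_F9_loc {K : ℝ} (hK : 0 < K) (v₀ : E n) (P : ℝ) (hP : 0 ≤ P) (w : ST n → ℝ≥0∞) {V V' : ST n → ℂ}
    (hV : ∀ z, ‖V z‖ = K ^ (-(n : ℝ) / 2) * ‖V' (pmap K v₀ z)‖) (z' : ST n) :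
    spLoc P w V (pinv K v₀ z') =
      ENNReal.ofReal (K ^ ((n : ℝ) + 2)) * (ENNReal.ofReal (K ^ (-(n : ℝ) / 2)) ^ P * spLoc P (fun u => w (pinv K v₀ u)) V' z') := by
  unfold spLoc
  have hc : ENNReal.ofReal (K ^ (-(n : ℝ) / 2)) ^ P ≠ ∞ := ENNReal.rpow_ne_top_of_nonneg hP ENNReal.ofReal_ne_top
  rw [← lintegral_const_mul' _ _ hc, ← sp_lintegral_pmap hK v₀]
  refine lintegral_congr fun y => ?_
  beta_reduce
  rw [sp_pinv_sub, (sp_pmap_pinv hK.ne' v₀ y).2]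
  have e : ‖V y‖ₑ = ENNReal.ofReal (K ^ (-(n : ℝ) / 2)) * ‖V' (pmap K v₀ y)‖ₑ := by
    rw [← ofReal_norm, hV, ENNReal.ofReal_mul (by positivity), ofReal_norm]
  rw [e, ENNReal.mul_rpow_of_nonneg _ _ hP, mul_assoc]

/-- L-257-SP-F9 (~120 l.).  **Change of variables.**  `z = pinv z'`, `y = pinv y'`; `pmap` is a homeomorphism (measurable equivalence: `lintegral_map_equiv`, no measurability of the integrands is needed);
`dz = K^(n+2) dz'`, `|V y|^P = K^(-nP/2) |V' y'|^P`, `P (1-b) = 2`. -/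
theorem spT_pmap {b : ℝ} (h0 : 0 ≤ b) (h1 : b < 1) {K : ℝ} (hK : 0 < K) (v₀ : E n) (w : ST n → ℝ≥0∞) {V V' : ST n → ℂ}
    (hV : ∀ z, ‖V z‖ = K ^ (-(n : ℝ) / 2) * ‖V' (pmap K v₀ z)‖) (ν : Measure (ST n)) :
    spT b w V ν = ENNReal.ofReal (K ^ (((n : ℝ) + 2) * (2 - b) - n)) * spT b (fun u => w (pinv K v₀ u)) V' (ν.map (pmap K v₀)) := by
  have hb' : 0 < 1 - b := by linarith
  have hP : 0 ≤ spP b := by unfold spP; positivity
  have hPb : spP b * (1 - b) = 2 := by unfold spP; field_simp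
  unfold spT
  have h := sp_lintegral_pmap hK v₀ (fun z' => spMass w ν (pinv K v₀ z') ^ b * spLoc (spP b) w V (pinv K v₀ z') ^ (1 - b))
  simp only [(sp_pmap_pinv hK.ne' v₀ _).2] at h
  rw [h]
  have hc : ENNReal.ofReal (K ^ (((n : ℝ) + 2) * (1 - b) - n)) ≠ ∞ := ENNReal.ofReal_ne_top
  have e1 : ENNReal.ofReal (K ^ (((n : ℝ) + 2) * (2 - b) - n)) =
      ENNReal.ofReal (K ^ ((n : ℝ) + 2)) * ENNReal.ofReal (K ^ (((n : ℝ) + 2) * (1 - b) - n)) := by
    rw [← ENNReal.ofReal_mul (by positivity), ← Real.rpow_add hK]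
    congr 2
    ring
  rw [e1, mul_assoc, ← lintegral_const_mul' _ _ hc]
  congr 1
  refine lintegral_congr fun z' => ?_
  rw [sp_F9_mass hK.ne', sp_F9_loc hK v₀ _ hP w hV, ENNReal.mul_rpow_of_nonneg _ _ hb'.le, ENNReal.mul_rpow_of_nonneg _ _ hb'.le,
    ← ENNReal.rpow_mul, hPb]
  have e2 : ENNReal.ofReal (K ^ (((n : ℝ) + 2) * (1 - b) - n)) =
      ENNReal.ofReal (K ^ ((n : ℝ) + 2)) ^ (1 - b) * ENNReal.ofReal (K ^ (-(n : ℝ) / 2)) ^ (2 : ℝ) := by
    rw [ENNReal.ofReal_rpow_of_nonneg (by positivity) hb'.le, ENNReal.ofReal_rpow_of_nonneg (by positivity) (by norm_num),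
      ← ENNReal.ofReal_mul (by positivity), ← Real.rpow_mul hK.le, ← Real.rpow_mul hK.le, ← Real.rpow_add hK]
    congr 2
    ring
  rw [e2]
  ring

/-- L-257-SP-F10 (~100 l.).  **Transport to the child** = d:transport (`spT_pmap`, `spT_le_of_conv` with `χ = spChi ρ`, `sp_ker` with `Ψ = pinv K v₀`, `a = 1 + 2 Rv`, `δ = K^(-(n+2))`).
Power: `K^((n+2)(2-b) - n) K^(-(n+2)) = K^((n+2)(1-b) - n)`   (`= K^(-β)` for `b = β = 2/(n+1)`). -/
theorem spT_child_le (n : ℕ) (b Rv Ew : ℝ) (h0 : 0 < b) (h1 : b < 1) (hRv : 0 ≤ Rv) (hE : (n : ℝ) + 2 ≤ Ew) : ∃ C : ℝ, 0 ≤ C ∧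
    ∀ (K ρ : ℝ) (v₀ : E n) (V V' : ST n → ℂ) (ν : Measure (ST n)) [SFinite ν], 1 ≤ K → 0 < ρ → ‖v₀‖ ≤ Rv → Measurable V' →
    (∀ z, ‖V z‖ = K ^ (-(n : ℝ) / 2) * ‖V' (pmap K v₀ z)‖) →
    spT b (spW Ew ρ) V ν ≤ ENNReal.ofReal (C * K ^ (((n : ℝ) + 2) * (1 - b) - n)) * spT b (spW (Ew - ((n : ℝ) + 2)) ρ) V' (ν.map (pmap K v₀)) := by
  obtain ⟨C, hC, hker⟩ := sp_ker n (1 + 2 * Rv) Ew (by linarith) hE
  refine ⟨C, hC, fun K ρ v₀ V V' ν _ hK hρ hv hV' hV => ?_⟩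
  have hK0 : 0 < K := by linarith
  have key := hker ρ (K ^ (-((n : ℝ) + 2))) (pinv K v₀) hρ (by positivity)
    (fun u => sp_norm_le_pinv hK hv u)
    (fun f u => by
      have := lintegral_sub_left_eq_self (μ := (volume : Measure (ST n))) (fun x => f (pinv K v₀ x)) u
      rw [this, sp_lintegral_pinv hK0])
  have hcont : Continuous (pinv K v₀) := by
    unfold pinv
    fun_prop
  have hle := spT_le_of_conv h0 h1 (w := fun u => spW Ew ρ (pinv K v₀ u)) ((sp_measurable_spW Ew ρ).comp hcont.measurable)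
    (sp_measurable_spW (Ew - ((n : ℝ) + 2)) ρ) (sp_measurable_chi ρ)
    (sp_lintegral_chi hρ) key hV' (ν.map (pmap K v₀))
  rw [spT_pmap h0.le h1 hK0 v₀ (spW Ew ρ) hV ν]
  calc ENNReal.ofReal (K ^ (((n : ℝ) + 2) * (2 - b) - n)) * spT b (fun u => spW Ew ρ (pinv K v₀ u)) V' (ν.map (pmap K v₀))
      ≤ ENNReal.ofReal (K ^ (((n : ℝ) + 2) * (2 - b) - n)) * (ENNReal.ofReal (C * K ^ (-((n : ℝ) + 2))) *
        spT b (spW (Ew - ((n : ℝ) + 2)) ρ) V' (ν.map (pmap K v₀))) := by gcongr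
    _ = _ := by
      rw [← mul_assoc, ← ENNReal.ofReal_mul (by positivity)]
      congr 2
      rw [mul_left_comm, ← Real.rpow_add hK0]
      congr 2
      ring

end Claimed.Agent.R257
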