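import Claimed.Agent.R257.Sp.Main
import Claimed.Agent.R257.Weak.Choice

/-!
# R257 / Sp / Exit : the exits of the package in the language of `Weak/Choice.lean`            (helper7)

`sp_exit_sparse : SpSparse n → ∀ W, ∃ cs > 0, SparseStmt n W cs`,     `sp_exit_power : SpPowerLoss n → ∀ W, PowerLossStmt n W`     (no condition on `W`).
`sp_exit_sparse'`, `sp_exit_power'` : the same from the five (four) input contracts `TrStmt`, `MrSupStmt`, `SdStmt`, `LayStmt`, `LcStmt`.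
-/

set_option autoImplicit false

namespace Claimed.Agent.R257

open MeasureTheory Metric Set
open scoped ENNReal

theorem sp_exit_sparse {n : ℕ} (h : SpSparse n) (W : WCon) : ∃ cs : ℝ, 0 < cs ∧ SparseStmt n W cs := by
  obtain ⟨cs, hcs, h⟩ := h W.K.R W.K.Rω W.T₀ W.K.m₀
  refine ⟨cs, hcs, fun τ hτ => ?_⟩
  obtain ⟨J, h⟩ := h τ W.M hτ
  refine ⟨J, fun B => ?_⟩
  obtain ⟨C, h⟩ := h B
  exact ⟨C, fun ι A s c μ m D hA h0 hm hG hS hT hD1 hD2 => h ι A s c μ m D hA h0 hm hD1 hD2 hG hS hT⟩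

theorem sp_exit_power {n : ℕ} (h : SpPowerLoss n) (W : WCon) : PowerLossStmt n W := by
  intro ε hε
  obtain ⟨J, h⟩ := h W.K.R W.K.Rω W.T₀ W.K.m₀ ε hε
  refine ⟨J, fun B => ?_⟩
  obtain ⟨C, h⟩ := h B
  exact ⟨C, fun ι A s c μ m hA h0 hm hG hS => h ι A s c μ m hA h0 hm hG hS⟩

theorem sp_exit_sparse' (n : ℕ) (hn : 2 ≤ n) (hTr : TrStmt n) (hMr : MrSupStmt n) (hSd : SdStmt n) (hLay : LayStmt n) (hLc : LcStmt n) (W : WCon) :
    ∃ cs : ℝ, 0 < cs ∧ SparseStmt n W cs := sp_exit_sparse (sp_sparse n hn hTr hMr hSd hLay hLc) W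

theorem sp_exit_power' (n : ℕ) (hn : 2 ≤ n) (hMr : MrSupStmt n) (hSd : SdStmt n) (hLay : LayStmt n) (hLc : LcStmt n) (W : WCon) :
    PowerLossStmt n W := sp_exit_power (sp_powerloss n hn hMr hSd hLay hLc) W

end Claimed.Agent.R257
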