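import Claimed.Agent.R257.Infra.ArrB
import Claimed.Agent.R257.Sp.Fun

/-!
# R257 / Sp / Maj : THE MAJORANT CALCULUS (all tails, terminal nodes, far layers, spatial localisation)        (captain helper7)        PAPER-FREE

`N : XArr n ι`, `l = N.l ≥ 1`, `σ = N.sg z = 1 + |t|/l²`, `w_α = N.tw α z = (1 + |x - y_α - 2 t ω_α|/l)⁻¹ ∈ (0,1]`, `β = bet n = 2/(n+1)`, `P = spP β = 2(n+1)/(n-1)`, `1 - β = 2/P`.
Only `N.Dec s A Rw C₃ m₀` is used: `|ext (g α) z| ≤ C₃ l^(-n/2) σ^A w_α^A`, `|ω_α| ≤ Rw`, multiplicity `m₀` of the labels `(l ω_α, y_α/l)` in unit balls of `E n × E n`.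
Every `sorry` is a LEAF `L-257-SP-M*`.  Statements frozen (tell helper7 at once if one looks false or awkward).  Prove IN PLACE, helper lemmas directly above, prefix `sp_<leaf>_`.
-/

set_option autoImplicit false

namespace Claimed.Agent.R257

open MeasureTheory Metric Set
open scoped ENNReal

variable {n : ℕ} {ι : Type}

/-! ## the two weights -/

theorem sp_M1_tdist_nonneg (N : XArr n ι) (α : ι) (z : ST n) : 0 ≤ N.toArr.tdist α z := by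
  unfold Arr.tdist
  exact norm_nonneg _

/-- L-257-SP-M1 (~10 l.) -/
theorem sp_sg_one_le (N : XArr n ι) (z : ST n) : 1 ≤ N.sg z := by
  unfold XArr.sg
  have : 0 ≤ |z.2| / N.l ^ 2 := div_nonneg (abs_nonneg _) (sq_nonneg _)
  linarith

/-- L-257-SP-M1 (~15 l.) -/
theorem sp_tw_pos_le (N : XArr n ι) (hl : 0 < N.l) (α : ι) (z : ST n) : 0 < N.tw α z ∧ N.tw α z ≤ 1 := by
  unfold XArr.tw
  have h : 0 ≤ N.toArr.tdist α z / N.l := div_nonneg (sp_M1_tdist_nonneg N α z) hl.le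
  exact ⟨inv_pos.2 (by linarith), inv_le_one_of_one_le₀ (by linarith)⟩

/-- L-257-SP-M1 (~15 l.) -/
theorem sp_continuous_sg (N : XArr n ι) : Continuous N.sg := by
  unfold XArr.sg
  fun_prop

/-- L-257-SP-M1 (~25 l.) -/
theorem sp_continuous_tw (N : XArr n ι) (hl : 0 < N.l) (α : ι) : Continuous (N.tw α) := by
  unfold XArr.tw
  have hc : Continuous fun z : ST n => N.toArr.tdist α z := by
    unfold Arr.tdist
    fun_prop
  refine Continuous.inv₀ (continuous_const.add (hc.div_const _)) fun z => ?_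
  have h : 0 ≤ N.toArr.tdist α z / N.l := div_nonneg (sp_M1_tdist_nonneg N α z) hl.le
  linarith

/-- L-257-SP-M1 (~30 l.).  Peetre for the time weight -/
theorem sp_sg_peetre (N : XArr n ι) {ρ : ℝ} (hρ : 0 < ρ) (hρl : ρ ≤ N.l ^ 2) (y z : ST n) : N.sg y ≤ N.sg z * (1 + ‖y - z‖ / ρ) := by
  unfold XArr.sg
  have hl2 : 0 < N.l ^ 2 := lt_of_lt_of_le hρ hρl
  have h1 : |y.2| ≤ |z.2| + ‖y - z‖ := by
    have h2 : |y.2 - z.2| ≤ ‖y - z‖ := by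
      have := norm_snd_le (y - z)
      simpa using this
    have h3 : |y.2| ≤ |z.2| + |y.2 - z.2| := by
      have := abs_add_le z.2 (y.2 - z.2)
      simpa using this
    linarith
  have h4 : |y.2| / N.l ^ 2 ≤ |z.2| / N.l ^ 2 + ‖y - z‖ / N.l ^ 2 := by
    rw [← add_div]
    exact div_le_div_of_nonneg_right h1 hl2.le
  have h5 : ‖y - z‖ / N.l ^ 2 ≤ ‖y - z‖ / ρ := div_le_div_of_nonneg_left (norm_nonneg _) hρ hρl
  have h6 : 0 ≤ |z.2| / N.l ^ 2 * (‖y - z‖ / ρ) :=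
    mul_nonneg (div_nonneg (abs_nonneg _) hl2.le) (div_nonneg (norm_nonneg _) hρ.le)
  nlinarith

/-- L-257-SP-M1 (~50 l.).  Peetre for the tube weight: `|tdist y - tdist z| ≤ (1 + 2 Rw) |y - z|` -/
theorem sp_tw_peetre (N : XArr n ι) {ρ Rw : ℝ} (hρ : 0 < ρ) (hρl : ρ ≤ N.l) {α : ι} (hα : ‖N.om α‖ ≤ Rw) (y z : ST n) :
    N.tw α y ≤ (1 + 2 * Rw) * (1 + ‖y - z‖ / ρ) * N.tw α z := by
  have hl : 0 < N.l := lt_of_lt_of_le hρ hρl
  have hRw : 0 ≤ Rw := le_trans (norm_nonneg _) hα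
  have hdy := sp_M1_tdist_nonneg N α y
  have hdz := sp_M1_tdist_nonneg N α z
  have hd : N.toArr.tdist α z ≤ N.toArr.tdist α y + (1 + 2 * Rw) * ‖y - z‖ := by
    unfold Arr.tdist
    have e : z.1 - N.toArr.y α - (2 * z.2) • N.toArr.om α
        = (y.1 - N.toArr.y α - (2 * y.2) • N.toArr.om α) - ((y - z).1 - (2 * (y - z).2) • N.toArr.om α) := by
      simp only [Prod.fst_sub, Prod.snd_sub, mul_sub, sub_smul]
      abel
    rw [e]
    refine le_trans (norm_sub_le _ _) (add_le_add le_rfl ?_)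
    refine le_trans (norm_sub_le _ _) ?_
    have h1 := norm_fst_le (y - z)
    have h2 : ‖(2 * (y - z).2) • N.toArr.om α‖ ≤ 2 * ‖y - z‖ * Rw := by
      rw [norm_smul, norm_mul]
      have h3 := norm_snd_le (y - z)
      have h4 : ‖(2 : ℝ)‖ = 2 := by norm_num
      rw [h4]
      exact mul_le_mul (by linarith) hα (norm_nonneg _) (by positivity)
    linarith
  unfold XArr.tw
  set dy := N.toArr.tdist α y
  set dz := N.toArr.tdist α z
  set r := ‖y - z‖ with hr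
  have hr0 : 0 ≤ r := norm_nonneg _
  have hpy : 0 < 1 + dy / N.l := by
    have : 0 ≤ dy / N.l := div_nonneg hdy hl.le
    linarith
  have hpz : 0 < 1 + dz / N.l := by
    have : 0 ≤ dz / N.l := div_nonneg hdz hl.le
    linarith
  rw [← div_eq_mul_inv, le_div_iff₀ hpz, inv_mul_le_iff₀ hpy]
  have h1 : dz / N.l ≤ dy / N.l + (1 + 2 * Rw) * (r / N.l) := by
    have := div_le_div_of_nonneg_right hd hl.le
    rw [add_div, mul_div_assoc] at this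
    exact this
  have h2 : r / N.l ≤ r / ρ := div_le_div_of_nonneg_left hr0 hρ hρl
  have h3 : 0 ≤ r / ρ := div_nonneg hr0 hρ.le
  have h4 : 0 ≤ dy / N.l := div_nonneg hdy hl.le
  have h5 : (1 + 2 * Rw) * (r / N.l) ≤ (1 + 2 * Rw) * (r / ρ) :=
    mul_le_mul_of_nonneg_left h2 (by linarith)
  have h6 : 0 ≤ Rw * (dy / N.l) := mul_nonneg hRw h4
  have h7 : 0 ≤ (1 + 2 * Rw) * (r / ρ) * (dy / N.l) := by positivity
  nlinarith

/-- L-257-SP-M1 (~10 l.).  the integrand of `TubeMom` -/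
theorem sp_tw_pow (N : XArr n ι) (α : ι) (z : ST n) (M : ℕ) : (1 + N.toArr.tdist α z / N.toArr.L) ^ (-(M : ℤ)) = N.tw α z ^ M := by
  unfold XArr.tw
  rw [zpow_neg, zpow_natCast, inv_pow]
  rfl

/-! ## counting -/

theorem sp_M2_tdist (N : XArr n ι) (hl : 0 < N.l) (α : ι) (z : ST n) :
    N.toArr.tdist α z / N.l = ‖N.l⁻¹ • z.1 - N.l⁻¹ • N.y α - (2 * (z.2 / N.l ^ 2)) • (N.l • N.om α)‖ := by
  have e : N.l⁻¹ • z.1 - N.l⁻¹ • N.y α - (2 * (z.2 / N.l ^ 2)) • (N.l • N.om α)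
      = N.l⁻¹ • (z.1 - N.y α - (2 * z.2) • N.om α) := by
    rw [smul_sub, smul_sub, smul_smul, smul_smul]
    congr 2
    field_simp
  rw [e, norm_smul, norm_inv, Real.norm_of_nonneg hl.le, inv_mul_eq_div]
  rfl

theorem sp_M2_peetre (N : XArr n ι) (hl : 0 < N.l) (α : ι) (z : ST n) (p : E n × E n)
    (hp : p ∈ closedBall ((N.l • N.om α, N.l⁻¹ • N.y α) : E n × E n) (1 / 2)) :
    N.tw α z ≤ 2 * N.sg z * (1 + ‖N.l⁻¹ • z.1 - p.2 - (2 * (z.2 / N.l ^ 2)) • p.1‖)⁻¹ := by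
  have hd := sp_M2_tdist N hl α z
  unfold XArr.tw
  rw [hd]
  set a := N.l • N.om α
  set b := N.l⁻¹ • N.y α
  set τ := z.2 / N.l ^ 2 with hτ
  set ζ := N.l⁻¹ • z.1
  have hσ : N.sg z = 1 + |τ| := by
    unfold XArr.sg
    rw [hτ, abs_div, abs_of_nonneg (sq_nonneg N.l)]
  rw [mem_closedBall, dist_eq_norm] at hp
  have h1 : ‖p.1 - a‖ ≤ 1 / 2 := (norm_fst_le (p - (a, b))).trans hp
  have h2 : ‖p.2 - b‖ ≤ 1 / 2 := (norm_snd_le (p - (a, b))).trans hp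
  have e : ζ - p.2 - (2 * τ) • p.1 = (ζ - b - (2 * τ) • a) - ((p.2 - b) + (2 * τ) • (p.1 - a)) := by
    rw [smul_sub]; abel
  have h3 : ‖ζ - p.2 - (2 * τ) • p.1‖ ≤ ‖ζ - b - (2 * τ) • a‖ + (1 / 2 + |τ|) := by
    rw [e]
    refine (norm_sub_le _ _).trans (add_le_add le_rfl ((norm_add_le _ _).trans (add_le_add h2 ?_)))
    rw [norm_smul, Real.norm_eq_abs, abs_mul, abs_two]
    nlinarith [abs_nonneg τ]
  set d := ‖ζ - b - (2 * τ) • a‖
  set q := ‖ζ - p.2 - (2 * τ) • p.1‖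
  have hd0 : 0 ≤ d := norm_nonneg _
  have hq0 : 0 ≤ q := norm_nonneg _
  have ht0 := abs_nonneg τ
  rw [hσ, ← div_eq_mul_inv, le_div_iff₀ (by linarith), inv_mul_le_iff₀ (by linarith)]
  nlinarith [mul_nonneg hd0 ht0]

theorem sp_M2_meas (A : ℕ) (ζ : E n) (τ : ℝ) :
    Measurable fun p : E n × E n => ENNReal.ofReal ((1 + ‖ζ - p.2 - τ • p.1‖)⁻¹ ^ A) := by
  refine ENNReal.measurable_ofReal.comp (Measurable.pow_const (Measurable.inv ?_) _)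
  exact measurable_const.add ((measurable_const.sub measurable_snd).sub (measurable_fst.const_smul τ)).norm

theorem sp_M2_int (A : ℕ) (ζ : E n) (τ R : ℝ) :
    ∫⁻ p in (closedBall (0 : E n) R ×ˢ (univ : Set (E n))), ENNReal.ofReal ((1 + ‖ζ - p.2 - τ • p.1‖)⁻¹ ^ A)
      = (∫⁻ b : E n, ENNReal.ofReal ((1 + ‖b‖)⁻¹ ^ A)) * volume (closedBall (0 : E n) R) := by
  rw [Measure.volume_eq_prod, ← Measure.prod_restrict, Measure.restrict_univ,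
    lintegral_prod _ (sp_M2_meas A ζ τ).aemeasurable]
  have h : ∀ a : E n, ∫⁻ b : E n, ENNReal.ofReal ((1 + ‖ζ - (a, b).2 - τ • (a, b).1‖)⁻¹ ^ A)
      = ∫⁻ b : E n, ENNReal.ofReal ((1 + ‖b‖)⁻¹ ^ A) := by
    intro a
    rw [← lintegral_sub_left_eq_self (fun b : E n => ENNReal.ofReal ((1 + ‖b‖)⁻¹ ^ A)) (ζ - τ • a)]
    refine lintegral_congr fun b => ?_
    congr 5
    simp only
    abel
  simp_rw [h]
  rw [lintegral_const, Measure.restrict_apply MeasurableSet.univ, univ_inter]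

theorem sp_M2_fin {A : ℕ} (hA : n + 1 ≤ A) : ∫⁻ b : E n, ENNReal.ofReal ((1 + ‖b‖)⁻¹ ^ A) ≠ ⊤ := by
  have hint : Integrable (fun x : E n => (1 + ‖x‖) ^ (-(A : ℝ))) volume :=
    integrable_one_add_norm (by
      rw [finrank_euclideanSpace_fin]
      exact_mod_cast Nat.lt_of_succ_le hA)
  have e : ∀ b : E n, (1 + ‖b‖)⁻¹ ^ A = (1 + ‖b‖) ^ (-(A : ℝ)) := by
    intro b
    rw [Real.rpow_neg (by positivity), Real.rpow_natCast, inv_pow]
  simp_rw [e]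
  exact hint.lintegral_lt_top.ne

theorem sp_M2_vol (p : E n × E n) :
    volume (closedBall p (1 / 2)) = volume (closedBall (0 : E n) (1 / 2)) * volume (closedBall (0 : E n) (1 / 2)) := by
  obtain ⟨a, b⟩ := p
  rw [← closedBall_prod_same, Measure.volume_eq_prod, Measure.prod_prod, Measure.addHaar_closedBall_center _ a,
    Measure.addHaar_closedBall_center _ b]

/-- L-257-SP-M2 (~250 l.).  **Phase space counting.**   PLAN.  `a_α = l ω_α`, `b_α = y_α/l`, `ζ₀ = x/l`, `σ' = t/l²`: `tdist/l = |ζ₀ - b_α - 2 σ' a_α|`.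
Group the labels by `(i, j) ∈ ℤⁿ × ℤⁿ`, `i = ⌊a_α⌋`, `j = ⌊b_α⌋` (coordinatewise).  A cell `(i,j)` is covered by `C_n` closed unit balls of `E n × E n`: it contains `≤ C_n m₀` labels.
`|a_α| ≤ l Rw`: at most `(2 l Rw + 2)^n ≤ (2 Rw + 2)^n l^n` values of `i`.  In the cell: `|ζ₀ - b_α - 2σ' a_α| ≥ |ζ₀ - 2σ' i - j| - √n (1 + 2|σ'|)`, so (Peetre) `w_α ≤ (1 + √n)(1 + 2|σ'|) (1 + |ζ₀ - 2σ' i - j|)⁻¹ ≤ 2 (1+√n) σ (…)⁻¹`.
For fixed `i`: `∑_j (1 + |p - j|)^(-A) ≤ C_{n}` for all `p`, `A ≥ n + 1` (compare with `∑_j (1+|j|)^(-(n+1))`, shifting `p` to its integer part). -/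
theorem sp_count (n A : ℕ) (Rw : ℝ) (m₀ : ℕ) (hA : n + 1 ≤ A) : ∃ C : ℝ, 0 ≤ C ∧ ∀ (ι : Type) (N : XArr n ι) (s : Finset ι) (C₃ : ℝ) (z : ST n),
    N.Dec s A Rw C₃ m₀ → N.l ^ (-(n : ℝ)) * ∑ α ∈ s, N.tw α z ^ A ≤ C * N.sg z ^ A := by
  classical
  set V₀ : ℝ≥0∞ := volume (closedBall (0 : E n) (1 / 2)) with hV₀
  have hV₀pos : V₀ ≠ 0 := (measure_closedBall_pos _ _ (by norm_num)).ne'
  have hV₀fin : V₀ ≠ ⊤ := measure_closedBall_lt_top.ne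
  set I : ℝ≥0∞ := ∫⁻ b : E n, ENNReal.ofReal ((1 + ‖b‖)⁻¹ ^ A) with hI
  have hIfin : I ≠ ⊤ := sp_M2_fin hA
  set B₁ : ℝ≥0∞ := volume (closedBall (0 : E n) 1) with hB₁
  have hB₁fin : B₁ ≠ ⊤ := measure_closedBall_lt_top.ne
  set v₀ := V₀.toReal with hv₀
  have hv₀pos : 0 < v₀ := ENNReal.toReal_pos hV₀pos hV₀fin
  refine ⟨2 ^ A * m₀ * (|Rw| + 1 / 2) ^ n * B₁.toReal * I.toReal / v₀ ^ 2, by positivity, ?_⟩
  intro ι N s C₃ z hD
  have hl1 := hD.one_le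
  have hl : 0 < N.l := by linarith
  set σ := N.sg z with hσ
  have hσ1 : 1 ≤ σ := sp_sg_one_le N z
  set ζ := N.l⁻¹ • z.1
  set τ := 2 * (z.2 / N.l ^ 2)
  set f : E n × E n → ℝ≥0∞ := fun p => ENNReal.ofReal ((1 + ‖ζ - p.2 - τ • p.1‖)⁻¹ ^ A) with hf
  have hfm : Measurable f := sp_M2_meas A ζ τ
  set Bα : ι → Set (E n × E n) := fun α => closedBall ((N.l • N.om α, N.l⁻¹ • N.y α) : E n × E n) (1 / 2) with hBα
  set R := N.l * |Rw| + 1 / 2 with hR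
  set S : Set (E n × E n) := closedBall (0 : E n) R ×ˢ (univ : Set (E n)) with hS
  -- step 1
  have step1 : ∀ α ∈ s, ENNReal.ofReal (N.tw α z ^ A) * (V₀ * V₀) ≤ ENNReal.ofReal ((2 * σ) ^ A) * ∫⁻ p in Bα α, f p := by
    intro α _
    rw [← sp_M2_vol ((N.l • N.om α, N.l⁻¹ • N.y α) : E n × E n), ← setLIntegral_const,
      ← lintegral_const_mul' _ _ ENNReal.ofReal_ne_top]
    refine setLIntegral_mono' measurableSet_closedBall fun p hp => ?_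
    rw [hf, ← ENNReal.ofReal_mul (by positivity), ← mul_pow]
    refine ENNReal.ofReal_le_ofReal (pow_le_pow_left₀ (sp_tw_pos_le N hl α z).1.le ?_ A)
    exact sp_M2_peetre N hl α z p hp
  -- step 2
  have step2 : ∑ α ∈ s, ∫⁻ p in Bα α, f p ≤ (m₀ : ℝ≥0∞) * ∫⁻ p in S, f p := by
    have hSm : MeasurableSet S := measurableSet_closedBall.prod MeasurableSet.univ
    have e1 : ∀ α ∈ s, ∫⁻ p in Bα α, f p = ∫⁻ p, (Bα α).indicator f p := fun α _ =>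
      (lintegral_indicator measurableSet_closedBall f).symm
    rw [Finset.sum_congr rfl e1, ← lintegral_finsetSum _ fun α _ => hfm.indicator measurableSet_closedBall,
      ← lintegral_indicator hSm, ← lintegral_const_mul' _ _ (ENNReal.natCast_ne_top m₀)]
    refine lintegral_mono fun p => ?_
    simp only [Set.indicator_apply]
    rw [← Finset.sum_filter, Finset.sum_const, nsmul_eq_mul]
    rcases (s.filter fun α => p ∈ Bα α).eq_empty_or_nonempty with he | ⟨α, hα⟩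
    · rw [he]; simp
    · rw [Finset.mem_filter] at hα
      have hpS : p ∈ S := by
        refine ⟨?_, mem_univ _⟩
        have h1 := hα.2
        rw [hBα, mem_closedBall, dist_eq_norm] at h1
        have h2 : ‖p.1 - N.l • N.om α‖ ≤ 1 / 2 := (norm_fst_le (p - (N.l • N.om α, N.l⁻¹ • N.y α))).trans h1
        rw [mem_closedBall, dist_zero_right]
        have h3 : ‖N.l • N.om α‖ ≤ N.l * |Rw| := by
          rw [norm_smul, Real.norm_of_nonneg hl.le]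
          exact mul_le_mul_of_nonneg_left ((hD.freq α hα.1).trans (le_abs_self _)) hl.le
        have h4 : ‖p.1‖ ≤ ‖p.1 - N.l • N.om α‖ + ‖N.l • N.om α‖ := by
          have := norm_add_le (p.1 - N.l • N.om α) (N.l • N.om α)
          simpa using this
        linarith
      rw [if_pos hpS]
      refine mul_le_mul_left ?_ _
      have hc : (s.filter fun α => p ∈ Bα α).card ≤ m₀ := by
        refine hD.mult p _ (Finset.filter_subset _ _) fun β hβ => ?_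
        rw [Finset.mem_filter] at hβ
        have h1 := hβ.2
        rw [hBα, mem_closedBall] at h1
        rw [mem_closedBall, dist_comm]
        linarith
      exact_mod_cast hc
  -- step 3
  have step3 : ∫⁻ p in S, f p = I * (ENNReal.ofReal (R ^ n) * B₁) := by
    rw [hS, hf, sp_M2_int A ζ τ R, Measure.addHaar_closedBall' _ _ (by positivity), finrank_euclideanSpace_fin]
  have hw0 : ∀ α ∈ s, 0 ≤ N.tw α z ^ A := fun α _ => pow_nonneg (sp_tw_pos_le N hl α z).1.le _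
  have main : ENNReal.ofReal (∑ α ∈ s, N.tw α z ^ A) * (V₀ * V₀)
      ≤ ENNReal.ofReal ((2 * σ) ^ A) * ((m₀ : ℝ≥0∞) * (I * (ENNReal.ofReal (R ^ n) * B₁))) := by
    rw [ENNReal.ofReal_sum_of_nonneg hw0, Finset.sum_mul]
    refine (Finset.sum_le_sum step1).trans ?_
    rw [← Finset.mul_sum, ← step3]
    exact mul_le_mul_right step2 _
  have hR0 : 0 ≤ R := by positivity
  have main' : (∑ α ∈ s, N.tw α z ^ A) * (v₀ * v₀) ≤ (2 * σ) ^ A * (m₀ * (I.toReal * (R ^ n * B₁.toReal))) := by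
    have e1 : V₀ = ENNReal.ofReal v₀ := (ENNReal.ofReal_toReal hV₀fin).symm
    have e2 : I = ENNReal.ofReal I.toReal := (ENNReal.ofReal_toReal hIfin).symm
    have e3 : B₁ = ENNReal.ofReal B₁.toReal := (ENNReal.ofReal_toReal hB₁fin).symm
    have e4 : (m₀ : ℝ≥0∞) = ENNReal.ofReal (m₀ : ℝ) := (ENNReal.ofReal_natCast m₀).symm
    rw [e1, e2, e3, e4, ← ENNReal.ofReal_mul hv₀pos.le, ← ENNReal.ofReal_mul (Finset.sum_nonneg hw0),
      ← ENNReal.ofReal_mul (by positivity), ← ENNReal.ofReal_mul ENNReal.toReal_nonneg,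
      ← ENNReal.ofReal_mul (by positivity), ← ENNReal.ofReal_mul (by positivity)] at main
    exact (ENNReal.ofReal_le_ofReal_iff (by positivity)).1 main
  have hRl : R ^ n ≤ N.l ^ n * (|Rw| + 1 / 2) ^ n := by
    rw [← mul_pow]
    refine pow_le_pow_left₀ hR0 ?_ n
    rw [hR]
    nlinarith [abs_nonneg Rw]
  have hln : N.l ^ (-(n : ℝ)) * N.l ^ n = 1 := by
    rw [Real.rpow_neg hl.le, Real.rpow_natCast, inv_mul_cancel₀ (by positivity)]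
  have hsum : ∑ α ∈ s, N.tw α z ^ A ≤ (2 * σ) ^ A * (m₀ * (I.toReal * (R ^ n * B₁.toReal))) / (v₀ * v₀) := by
    rw [le_div_iff₀ (by positivity)]
    exact main'
  have hlpos : 0 < N.l ^ (-(n : ℝ)) := Real.rpow_pos_of_pos hl _
  calc N.l ^ (-(n : ℝ)) * ∑ α ∈ s, N.tw α z ^ A
      ≤ N.l ^ (-(n : ℝ)) * ((2 * σ) ^ A * (m₀ * (I.toReal * (R ^ n * B₁.toReal))) / (v₀ * v₀)) :=
        mul_le_mul_of_nonneg_left hsum hlpos.le
    _ ≤ N.l ^ (-(n : ℝ)) * ((2 * σ) ^ A * (m₀ * (I.toReal * ((N.l ^ n * (|Rw| + 1 / 2) ^ n) * B₁.toReal))) / (v₀ * v₀)) := by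
        gcongr
    _ = (N.l ^ (-(n : ℝ)) * N.l ^ n) * (2 ^ A * m₀ * (|Rw| + 1 / 2) ^ n * B₁.toReal * I.toReal / v₀ ^ 2 * σ ^ A) := by
        rw [mul_pow]; ring
    _ = _ := by rw [hln, one_mul]

theorem sp_M3_dec_mono {N : XArr n ι} {s t : Finset ι} {A : ℕ} {Rw C₃ : ℝ} {m₀ : ℕ} (h : N.Dec s A Rw C₃ m₀) (hts : t ⊆ s) :
    N.Dec t A Rw C₃ m₀ :=
  ⟨h.one_le, fun α hα => h.freq α (hts hα), fun α hα => h.decay α (hts hα),
    fun p u hu hp => h.mult p u (hu.trans hts) hp⟩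

/-- L-257-SP-M3 (~70 l.).  **Pointwise majorant** (Cauchy-Schwarz: `(∑ |c_α| C₃ l^(-n/2) σ^A w_α^A)² ≤ C₃² σ^(2A) (∑ |c_α|² w_α^A)(l^(-n) ∑ w_α^A)`, then `sp_count` for `t`; `Dec` passes to subsets) -/
theorem sp_fld_sq_le (n A : ℕ) (Rw C₃ : ℝ) (m₀ : ℕ) (hA : n + 1 ≤ A) : ∃ C : ℝ, 0 ≤ C ∧ ∀ (ι : Type) (N : XArr n ι) (s t : Finset ι) (c : ι → ℂ) (y : ST n),
    N.Dec s A Rw C₃ m₀ → t ⊆ s → ‖N.fld t c y‖ ^ 2 ≤ C * ∑ α ∈ t, ‖c α‖ ^ 2 * (N.sg y ^ (3 * A) * N.tw α y ^ A) := by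
  obtain ⟨C, hC, hcount⟩ := sp_count n A Rw m₀ hA
  refine ⟨C₃ ^ 2 * C, by positivity, ?_⟩
  intro ι N s t c y hD hts
  have hDt := sp_M3_dec_mono hD hts
  have hl : 0 < N.l := by linarith [hD.one_le]
  set σ := N.sg y with hσ
  have hσ1 : 1 ≤ σ := sp_sg_one_le N y
  have hw : ∀ α, 0 ≤ N.tw α y := fun α => (sp_tw_pos_le N hl α y).1.le
  set L := N.l ^ (-(n : ℝ) / 2) with hL
  have hL0 : 0 < L := Real.rpow_pos_of_pos hl _
  have hLL : L ^ 2 = N.l ^ (-(n : ℝ)) := by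
    rw [hL, ← Real.rpow_natCast, ← Real.rpow_mul hl.le]
    congr 1
    push_cast
    ring
  have h1 : ‖N.fld t c y‖ ≤ (|C₃| * L * σ ^ A) * ∑ α ∈ t, (‖c α‖ * Real.sqrt (N.tw α y ^ A)) * Real.sqrt (N.tw α y ^ A) := by
    unfold XArr.fld
    refine (norm_sum_le _ _).trans ?_
    rw [Finset.mul_sum]
    refine Finset.sum_le_sum fun α hα => ?_
    rw [norm_mul, mul_assoc ‖c α‖, Real.mul_self_sqrt (pow_nonneg (hw α) _)]
    have h2 := hD.decay α (hts hα) y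
    have h3 : C₃ * N.l ^ (-(n : ℝ) / 2) * N.sg y ^ A * N.tw α y ^ A ≤ |C₃| * L * σ ^ A * N.tw α y ^ A := by
      have : 0 ≤ L * σ ^ A * N.tw α y ^ A := by have := hw α; positivity
      calc C₃ * N.l ^ (-(n : ℝ) / 2) * N.sg y ^ A * N.tw α y ^ A = C₃ * (L * σ ^ A * N.tw α y ^ A) := by ring
        _ ≤ |C₃| * (L * σ ^ A * N.tw α y ^ A) := mul_le_mul_of_nonneg_right (le_abs_self _) this
        _ = _ := by ring
    calc ‖c α‖ * ‖ext (N.g α) y‖ ≤ ‖c α‖ * (|C₃| * L * σ ^ A * N.tw α y ^ A) :=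
          mul_le_mul_of_nonneg_left (h2.trans h3) (norm_nonneg _)
      _ = _ := by ring
  have h4 := Finset.sum_mul_sq_le_sq_mul_sq t (fun α => ‖c α‖ * Real.sqrt (N.tw α y ^ A)) (fun α => Real.sqrt (N.tw α y ^ A))
  have e1 : ∀ α, (‖c α‖ * Real.sqrt (N.tw α y ^ A)) ^ 2 = ‖c α‖ ^ 2 * N.tw α y ^ A := fun α => by
    rw [mul_pow, Real.sq_sqrt (pow_nonneg (hw α) _)]
  have e2 : ∀ α, Real.sqrt (N.tw α y ^ A) ^ 2 = N.tw α y ^ A := fun α => Real.sq_sqrt (pow_nonneg (hw α) _)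
  simp only [e1, e2] at h4
  have h5 := hcount ι N t C₃ y hDt
  set S1 := ∑ α ∈ t, ‖c α‖ ^ 2 * N.tw α y ^ A with hS1
  have hS1nn : 0 ≤ S1 := Finset.sum_nonneg fun α _ => mul_nonneg (by positivity) (pow_nonneg (hw α) _)
  set S2 := ∑ α ∈ t, N.tw α y ^ A with hS2
  set S0 := ∑ α ∈ t, (‖c α‖ * Real.sqrt (N.tw α y ^ A)) * Real.sqrt (N.tw α y ^ A) with hS0
  have hS0nn : 0 ≤ S0 := Finset.sum_nonneg fun α _ => by positivity
  have e3 : ∑ α ∈ t, ‖c α‖ ^ 2 * (σ ^ (3 * A) * N.tw α y ^ A) = σ ^ (3 * A) * S1 := by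
    rw [hS1, Finset.mul_sum]
    refine Finset.sum_congr rfl fun α _ => by ring
  rw [e3]
  calc ‖N.fld t c y‖ ^ 2 ≤ ((|C₃| * L * σ ^ A) * S0) ^ 2 := pow_le_pow_left₀ (norm_nonneg _) h1 2
    _ = C₃ ^ 2 * (σ ^ A) ^ 2 * (L ^ 2 * S0 ^ 2) := by rw [mul_pow, mul_pow, mul_pow, sq_abs]; ring
    _ ≤ C₃ ^ 2 * (σ ^ A) ^ 2 * (L ^ 2 * (S1 * S2)) := by gcongr
    _ = C₃ ^ 2 * (σ ^ A) ^ 2 * S1 * (N.l ^ (-(n : ℝ)) * S2) := by rw [hLL]; ring
    _ ≤ C₃ ^ 2 * (σ ^ A) ^ 2 * S1 * (C * σ ^ A) := by gcongr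
    _ = C₃ ^ 2 * C * (σ ^ (3 * A) * S1) := by
        have : σ ^ (3 * A) = (σ ^ A) ^ 2 * σ ^ A := by rw [← pow_mul, ← pow_add]; congr 1; ring
        rw [this]; ring

/-! ## local norms and integrals of majorants -/

theorem sp_M4_bet (hn : 2 ≤ n) : 0 < bet n ∧ bet n < 1 ∧ spP (bet n) = 2 * (1 - bet n)⁻¹ ∧ (1 - bet n)⁻¹ ≤ 3 ∧ 1 ≤ (1 - bet n)⁻¹ := by
  have h2 : (2 : ℝ) ≤ n := by exact_mod_cast hn
  have hb : bet n = 2 / ((n : ℝ) + 1) := rfl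
  have h0 : 0 < bet n := by rw [hb]; positivity
  have h1 : bet n < 1 := by rw [hb, div_lt_one (by linarith)]; linarith
  have h3 : 1 - bet n = ((n : ℝ) - 1) / ((n : ℝ) + 1) := by rw [hb]; field_simp; ring
  refine ⟨h0, h1, by unfold spP; rw [div_eq_mul_inv], ?_, ?_⟩
  · rw [h3, inv_div, div_le_iff₀ (by linarith)]; linarith
  · rw [h3, inv_div, le_div_iff₀ (by linarith)]; linarith

/-- Peetre for the majorant `σ^a w^b` -/
theorem sp_M4_peetre (N : XArr n ι) {ρ Rw : ℝ} (hρ : 1 ≤ ρ) (hρl : ρ ≤ N.l) {α : ι} (hα : ‖N.om α‖ ≤ Rw) (a b : ℕ) (y z : ST n) :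
    N.sg y ^ a * N.tw α y ^ b ≤ (1 + 2 * Rw) ^ b * (1 + ‖y - z‖ / ρ) ^ (a + b) * (N.sg z ^ a * N.tw α z ^ b) := by
  have hρ0 : 0 < ρ := by linarith
  have hl : 0 < N.l := by linarith
  have hl2 : ρ ≤ N.l ^ 2 := by nlinarith
  have hRw : 0 ≤ Rw := le_trans (norm_nonneg _) hα
  have h1 := sp_sg_peetre N hρ0 hl2 y z
  have h2 := sp_tw_peetre N hρ0 hρl hα y z
  have h3 : 0 ≤ N.sg y := by linarith [sp_sg_one_le N y]
  have h4 := (sp_tw_pos_le N hl α y).1.le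
  calc N.sg y ^ a * N.tw α y ^ b
      ≤ (N.sg z * (1 + ‖y - z‖ / ρ)) ^ a * ((1 + 2 * Rw) * (1 + ‖y - z‖ / ρ) * N.tw α z) ^ b :=
        mul_le_mul (pow_le_pow_left₀ h3 h1 a) (pow_le_pow_left₀ h4 h2 b) (pow_nonneg h4 b)
          (pow_nonneg (h3.trans h1) a)
    _ = _ := by rw [mul_pow, mul_pow, mul_pow, pow_add]; ring

theorem sp_M4_spW_mul {Ew ρ : ℝ} (hρ : 0 < ρ) (e : ℝ) (u : ST n) :
    ENNReal.ofReal ((1 + ‖u‖ / ρ) ^ e) * spW Ew ρ u = spW (Ew - e) ρ u := by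
  unfold spW
  have h : 0 < 1 + ‖u‖ / ρ := by positivity
  rw [← ENNReal.ofReal_mul (by positivity), ← Real.rpow_add h]
  congr 2
  ring

/-- L-257-SP-M4 (~200 l.).  **Local norm of a subfield.**   PLAN.  `|fld|^P = (|fld|²)^(P/2) ≤ (C ∑ a_α f_α)^(P/2)`, `a_α = |c_α|²`, `f_α = σ^(3A) w_α^A` (`sp_fld_sq_le`).
Minkowski in `L^(P/2)(spW(· - z) dy)`, `P/2 ≥ 1` (`ENNReal.lintegral_Lp_add_le` + induction over the Finset, or `BD.abs_minkowski`): `(∫ (∑ a_α f_α)^(P/2) W)^(2/P) ≤ ∑ a_α (∫ f_α^(P/2) W)^(2/P)`.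
Peetre (`sp_sg_peetre`, `sp_tw_peetre`): `f_α y ≤ (1+2Rw)^A (1 + |y-z|/ρ)^(4A) f_α z`;   `∫ (1+|u|/ρ)^(4A P/2 - Ew) du = C ρ^(n+1)` since `P/2 ≤ 3` and `Ew - 12 A > n + 1` (`sp_lintegral_spW`). -/
theorem sp_loc_le (n A : ℕ) (hn : 2 ≤ n) (Rw C₃ : ℝ) (m₀ : ℕ) (Ew : ℝ) (hA : n + 1 ≤ A) (hE : spEmin n A ≤ Ew) : ∃ C : ℝ, 0 ≤ C ∧
    ∀ (ι : Type) (N : XArr n ι) (s t : Finset ι) (c : ι → ℂ) (ρ : ℝ) (z : ST n), N.Dec s A Rw C₃ m₀ → t ⊆ s → 1 ≤ ρ → ρ ≤ N.l →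
    spLoc (spP (bet n)) (spW Ew ρ) (N.fld t c) z ^ (1 - bet n) ≤
      ENNReal.ofReal (C * ρ ^ (((n : ℝ) + 1) * (1 - bet n)) * ∑ α ∈ t, ‖c α‖ ^ 2 * (N.sg z ^ (3 * A) * N.tw α z ^ A)) := by
  obtain ⟨hb0, hb1, hP, hh3, hh1⟩ := sp_M4_bet hn
  set β := bet n with hβ
  set h := (1 - β)⁻¹ with hh
  have hb' : 0 < 1 - β := by linarith
  have hh0 : 0 < h := by positivity
  have hhb : h * (1 - β) = 1 := inv_mul_cancel₀ hb'.ne'
  obtain ⟨C₁, hC₁, hfld⟩ := sp_fld_sq_le n A Rw C₃ m₀ hA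
  have hE' : (n : ℝ) + 1 < Ew - (4 * A : ℕ) * h := by
    have h1 : ((4 * A : ℕ) : ℝ) * h ≤ 12 * A := by
      push_cast
      nlinarith [(Nat.cast_nonneg A : (0 : ℝ) ≤ A)]
    have h2 : (12 : ℝ) * A + n + 1 < spEmin n A := by
      unfold spEmin
      have hA0 : (0 : ℝ) ≤ A := Nat.cast_nonneg A
      have hn0 : (0 : ℝ) ≤ n := Nat.cast_nonneg n
      nlinarith [mul_nonneg hA0 hn0, mul_nonneg hn0 hn0]
    linarith
  obtain ⟨C', hC', hint⟩ := sp_lintegral_spW n (Ew - (4 * A : ℕ) * h) hE'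
  set k := (1 + 2 * |Rw|) ^ A with hk
  have hk0 : 0 ≤ k := by positivity
  refine ⟨C₁ * k * C' ^ (1 - β), by positivity, ?_⟩
  intro ι N s t c ρ z hD hts hρ hρl
  have hρ0 : 0 < ρ := by linarith
  have hl : 0 < N.l := by linarith
  set S := ∑ α ∈ t, ‖c α‖ ^ 2 * (N.sg z ^ (3 * A) * N.tw α z ^ A) with hS
  have hS0 : 0 ≤ S := Finset.sum_nonneg fun α _ => by
    have := (sp_tw_pos_le N hl α z).1.le
    have := sp_sg_one_le N z
    positivity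
  -- pointwise bound
  have hpt : ∀ y, ‖N.fld t c y‖ ^ 2 ≤ C₁ * k * S * (1 + ‖y - z‖ / ρ) ^ (4 * A) := by
    intro y
    refine (hfld ι N s t c y hD hts).trans ?_
    have : ∑ α ∈ t, ‖c α‖ ^ 2 * (N.sg y ^ (3 * A) * N.tw α y ^ A) ≤ k * (1 + ‖y - z‖ / ρ) ^ (4 * A) * S := by
      rw [hS, Finset.mul_sum]
      refine Finset.sum_le_sum fun α hα => ?_
      have h1 := sp_M4_peetre N hρ hρl ((hD.freq α (hts hα)).trans (le_abs_self Rw)) (3 * A) A y z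
      have e : 3 * A + A = 4 * A := by ring
      rw [e] at h1
      calc ‖c α‖ ^ 2 * (N.sg y ^ (3 * A) * N.tw α y ^ A)
          ≤ ‖c α‖ ^ 2 * ((1 + 2 * |Rw|) ^ A * (1 + ‖y - z‖ / ρ) ^ (4 * A) * (N.sg z ^ (3 * A) * N.tw α z ^ A)) :=
            mul_le_mul_of_nonneg_left h1 (by positivity)
        _ = _ := by ring
    calc C₁ * ∑ α ∈ t, ‖c α‖ ^ 2 * (N.sg y ^ (3 * A) * N.tw α y ^ A)
        ≤ C₁ * (k * (1 + ‖y - z‖ / ρ) ^ (4 * A) * S) := mul_le_mul_of_nonneg_left this hC₁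
      _ = _ := by ring
  have hpt2 : ∀ y, ‖N.fld t c y‖ₑ ^ spP β * spW Ew ρ (y - z)
      ≤ ENNReal.ofReal ((C₁ * k * S) ^ h) * spW (Ew - (4 * A : ℕ) * h) ρ (y - z) := by
    intro y
    have hb : 0 < 1 + ‖y - z‖ / ρ := by positivity
    rw [← sp_M4_spW_mul hρ0 ((4 * A : ℕ) * h) (y - z), ← mul_assoc]
    refine mul_le_mul_left ?_ _
    rw [← ofReal_norm, ENNReal.ofReal_rpow_of_nonneg (norm_nonneg _) (by rw [hP]; positivity),
      ← ENNReal.ofReal_mul (by positivity)]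
    refine ENNReal.ofReal_le_ofReal ?_
    have e1 : ‖N.fld t c y‖ ^ spP β = (‖N.fld t c y‖ ^ 2) ^ h := by
      rw [hP, ← Real.rpow_natCast, ← Real.rpow_mul (norm_nonneg _)]
      norm_num
    have e2 : (1 + ‖y - z‖ / ρ) ^ (((4 * A : ℕ) : ℝ) * h) = ((1 + ‖y - z‖ / ρ) ^ (4 * A)) ^ h := by
      rw [Real.rpow_mul hb.le, Real.rpow_natCast]
    rw [e1, e2, ← Real.mul_rpow (by positivity) (by positivity)]
    exact Real.rpow_le_rpow (by positivity) (hpt y) hh0.le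
  have hloc : spLoc (spP β) (spW Ew ρ) (N.fld t c) z ≤ ENNReal.ofReal ((C₁ * k * S) ^ h) * ENNReal.ofReal (C' * ρ ^ ((n : ℝ) + 1)) := by
    unfold spLoc
    refine (lintegral_mono hpt2).trans (le_of_eq ?_)
    rw [lintegral_const_mul' _ _ ENNReal.ofReal_ne_top,
      lintegral_sub_right_eq_self (fun u => spW (Ew - (4 * A : ℕ) * h) ρ u) z, hint ρ hρ0]
  refine (ENNReal.rpow_le_rpow hloc hb'.le).trans (le_of_eq ?_)
  rw [ENNReal.mul_rpow_of_nonneg _ _ hb'.le, ENNReal.ofReal_rpow_of_nonneg (by positivity) hb'.le,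
    ENNReal.ofReal_rpow_of_nonneg (by positivity) hb'.le, ← ENNReal.ofReal_mul (by positivity),
    ← Real.rpow_mul (by positivity), hhb, Real.rpow_one, Real.mul_rpow hC'.le (by positivity),
    ← Real.rpow_mul hρ0.le]
  congr 1
  ring

/-- dilation of a Haar integral -/
theorem sp_M5_scale {F : Type*} [NormedAddCommGroup F] [NormedSpace ℝ F] [FiniteDimensional ℝ F] [MeasurableSpace F] [BorelSpace F]
    (μ : Measure F) [μ.IsAddHaarMeasure] {f : F → ℝ≥0∞} (hf : Measurable f) {r : ℝ} (hr : 0 < r) :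
    ∫⁻ x, f (r⁻¹ • x) ∂μ = ENNReal.ofReal (r ^ Module.finrank ℝ F) * ∫⁻ x, f x ∂μ := by
  have h1 : ∫⁻ x, f (r⁻¹ • x) ∂μ = ∫⁻ x, f x ∂(Measure.map (fun x => r⁻¹ • x) μ) :=
    (lintegral_map hf (measurable_const_smul _)).symm
  rw [h1, Measure.map_addHaar_smul μ (inv_ne_zero hr.ne'), lintegral_smul_measure, smul_eq_mul]
  congr 2
  rw [inv_pow, inv_inv, abs_of_pos (by positivity)]

/-- `∫ (1 + |x - p|/l)^(-k) dx = l^d ∫ (1+|x|)^(-k) dx` -/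
theorem sp_M5_int {F : Type*} [NormedAddCommGroup F] [NormedSpace ℝ F] [FiniteDimensional ℝ F] [MeasurableSpace F] [BorelSpace F]
    (μ : Measure F) [μ.IsAddHaarMeasure] (k : ℕ) {l : ℝ} (hl : 0 < l) (p : F) :
    ∫⁻ x, ENNReal.ofReal ((1 + ‖x - p‖ / l)⁻¹ ^ k) ∂μ
      = ENNReal.ofReal (l ^ Module.finrank ℝ F) * ∫⁻ x, ENNReal.ofReal ((1 + ‖x‖)⁻¹ ^ k) ∂μ := by
  have hm : Measurable fun x : F => ENNReal.ofReal ((1 + ‖x‖)⁻¹ ^ k) :=
    ENNReal.measurable_ofReal.comp ((measurable_const.add measurable_norm).inv.pow_const k)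
  rw [lintegral_sub_right_eq_self (fun x : F => ENNReal.ofReal ((1 + ‖x‖ / l)⁻¹ ^ k)) p, ← sp_M5_scale μ hm hl]
  refine lintegral_congr fun x => ?_
  rw [norm_smul, norm_inv, Real.norm_of_nonneg hl.le, inv_mul_eq_div]

theorem sp_M5_fin {F : Type*} [NormedAddCommGroup F] [NormedSpace ℝ F] [FiniteDimensional ℝ F] [MeasurableSpace F] [BorelSpace F]
    (μ : Measure F) [μ.IsAddHaarMeasure] {k : ℕ} (hk : Module.finrank ℝ F < k) :
    ∫⁻ x, ENNReal.ofReal ((1 + ‖x‖)⁻¹ ^ k) ∂μ ≠ ⊤ := by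
  have hint : Integrable (fun x : F => (1 + ‖x‖) ^ (-(k : ℝ))) μ := integrable_one_add_norm (by exact_mod_cast hk)
  have e : ∀ b : F, (1 + ‖b‖)⁻¹ ^ k = (1 + ‖b‖) ^ (-(k : ℝ)) := by
    intro b
    rw [Real.rpow_neg (by positivity), Real.rpow_natCast, inv_pow]
  simp_rw [e]
  exact hint.lintegral_lt_top.ne

/-- L-257-SP-M5 (~60 l.; Tonelli on `E n × ℝ`; `∫ (1+|t|/l²)^(-2) dt = 2 l²`, `∫ (1 + |x - p|/l)^(-(n+1)) dx = C l^n`) -/
theorem sp_lintegral_tube (n : ℕ) : ∃ C : ℝ, 0 ≤ C ∧ ∀ (ι : Type) (N : XArr n ι) (α : ι), 0 < N.l →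
    ∫⁻ z, ENNReal.ofReal ((N.sg z)⁻¹ ^ 2 * N.tw α z ^ (n + 1)) ≤ ENNReal.ofReal (C * N.l ^ ((n : ℝ) + 2)) := by
  set I₁ : ℝ≥0∞ := ∫⁻ x : E n, ENNReal.ofReal ((1 + ‖x‖)⁻¹ ^ (n + 1)) with hI₁
  set I₂ : ℝ≥0∞ := ∫⁻ t : ℝ, ENNReal.ofReal ((1 + ‖t‖)⁻¹ ^ 2) with hI₂
  have hI₁f : I₁ ≠ ⊤ := sp_M5_fin volume (by rw [finrank_euclideanSpace_fin]; omega)
  have hI₂f : I₂ ≠ ⊤ := sp_M5_fin volume (by rw [Module.finrank_self]; norm_num)
  refine ⟨I₁.toReal * I₂.toReal, by positivity, ?_⟩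
  intro ι N α hl
  have hl2 : 0 < N.l ^ 2 := by positivity
  have hm : Measurable fun z : ST n => ENNReal.ofReal ((N.sg z)⁻¹ ^ 2 * N.tw α z ^ (n + 1)) :=
    ENNReal.measurable_ofReal.comp (((sp_continuous_sg N).measurable.inv.pow_const 2).mul
      ((sp_continuous_tw N hl α).measurable.pow_const (n + 1)))
  rw [Measure.volume_eq_prod, lintegral_prod_symm _ hm.aemeasurable]
  have h1 : ∀ t : ℝ, ∫⁻ x : E n, ENNReal.ofReal ((N.sg (x, t))⁻¹ ^ 2 * N.tw α (x, t) ^ (n + 1))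
      = ENNReal.ofReal ((1 + ‖t - 0‖ / N.l ^ 2)⁻¹ ^ 2) * (ENNReal.ofReal (N.l ^ n) * I₁) := by
    intro t
    have e : ∀ x : E n, ENNReal.ofReal ((N.sg (x, t))⁻¹ ^ 2 * N.tw α (x, t) ^ (n + 1))
        = ENNReal.ofReal ((1 + ‖t - 0‖ / N.l ^ 2)⁻¹ ^ 2) * ENNReal.ofReal ((1 + ‖x - (N.y α + (2 * t) • N.om α)‖ / N.l)⁻¹ ^ (n + 1)) := by
      intro x
      rw [← ENNReal.ofReal_mul (by positivity)]
      congr 2
      · unfold XArr.sg
        simp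
      · unfold XArr.tw Arr.tdist XArr.toArr
        simp only
        rw [sub_sub]
    simp_rw [e]
    rw [lintegral_const_mul' _ _ ENNReal.ofReal_ne_top, sp_M5_int volume (n + 1) hl, finrank_euclideanSpace_fin]
  simp_rw [h1]
  rw [lintegral_mul_const' _ _ (ENNReal.mul_ne_top ENNReal.ofReal_ne_top hI₁f), sp_M5_int volume 2 hl2 (0 : ℝ),
    Module.finrank_self, pow_one]
  refine le_of_eq ?_
  have e1 : I₁ = ENNReal.ofReal I₁.toReal := (ENNReal.ofReal_toReal hI₁f).symm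
  have e2 : I₂ = ENNReal.ofReal I₂.toReal := (ENNReal.ofReal_toReal hI₂f).symm
  rw [← hI₂]
  conv_lhs => rw [e1, e2]
  rw [← ENNReal.ofReal_mul hl2.le, ← ENNReal.ofReal_mul (by positivity), ← ENNReal.ofReal_mul (by positivity)]
  congr 1
  have : N.l ^ ((n : ℝ) + 2) = N.l ^ n * N.l ^ 2 := by
    rw [Real.rpow_add hl, Real.rpow_natCast]
    norm_num
  rw [this]
  ring

theorem sp_M6_bet (hn : 1 ≤ n) : 0 < bet n ∧ bet n ≤ 1 ∧ ((n : ℝ) + 1) * bet n = 2 := by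
  have h2 : (1 : ℝ) ≤ n := by exact_mod_cast hn
  have hb : bet n = 2 / ((n : ℝ) + 1) := rfl
  refine ⟨by rw [hb]; positivity, by rw [hb, div_le_one (by linarith)]; linarith, by rw [hb]; field_simp⟩

/-- the pointwise splitting of the majorant -/
theorem sp_M6_split (hn : 1 ≤ n) {a₁ a₂ A M' : ℕ} (h1 : (a₁ + 2) * (n + 1) ≤ a₂) (h2 : M' + n + 1 ≤ A) {σ w : ℝ} (hσ : 1 ≤ σ) (hw0 : 0 < w) (hw1 : w ≤ 1) :
    σ ^ a₁ * w ^ A ≤ (σ ^ a₂ * w ^ M') ^ bet n * (σ⁻¹ ^ 2 * w ^ (n + 1)) ^ (1 - bet n) := by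
  obtain ⟨hb0, hb1, hb2⟩ := sp_M6_bet hn
  set β := bet n
  have hσ0 : 0 < σ := by linarith
  have e : (σ ^ a₂ * w ^ M') ^ β * (σ⁻¹ ^ 2 * w ^ (n + 1)) ^ (1 - β)
      = σ ^ ((a₂ : ℝ) * β - 2 * (1 - β)) * w ^ ((M' : ℝ) * β + ((n : ℝ) + 1) * (1 - β)) := by
    rw [Real.mul_rpow (by positivity) (by positivity), Real.mul_rpow (by positivity) (by positivity),
      ← Real.rpow_natCast σ a₂, ← Real.rpow_natCast w M', ← Real.rpow_natCast σ⁻¹ 2, ← Real.rpow_natCast w (n + 1),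
      ← Real.rpow_mul hσ0.le, ← Real.rpow_mul hw0.le, ← Real.rpow_mul (by positivity), ← Real.rpow_mul hw0.le,
      Real.inv_rpow hσ0.le, ← Real.rpow_neg hσ0.le, Real.rpow_sub hσ0, Real.rpow_add hw0, Real.rpow_neg hσ0.le]
    push_cast
    field_simp
  rw [e, ← Real.rpow_natCast σ a₁, ← Real.rpow_natCast w A]
  have h1' : ((a₁ : ℝ) + 2) * ((n : ℝ) + 1) ≤ a₂ := by exact_mod_cast h1
  have h2' : (M' : ℝ) + n + 1 ≤ A := by exact_mod_cast h2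
  have ha : (0 : ℝ) ≤ a₁ := Nat.cast_nonneg _
  have hM : (0 : ℝ) ≤ M' := Nat.cast_nonneg _
  have hn0 : (0 : ℝ) ≤ n := Nat.cast_nonneg _
  refine mul_le_mul (Real.rpow_le_rpow_of_exponent_le hσ ?_) (Real.rpow_le_rpow_of_exponent_ge hw0 hw1 ?_)
    (by positivity) (by positivity)
  · have : ((a₁ : ℝ) + 2) * 2 ≤ a₂ * β := by
      calc ((a₁ : ℝ) + 2) * 2 = ((a₁ : ℝ) + 2) * (((n : ℝ) + 1) * β) := by rw [hb2]
        _ = (((a₁ : ℝ) + 2) * ((n : ℝ) + 1)) * β := by ring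
        _ ≤ a₂ * β := mul_le_mul_of_nonneg_right h1' hb0.le
    nlinarith
  · nlinarith

theorem sp_M6_measG (N : XArr n ι) (hl : 0 < N.l) (α : ι) (a b : ℕ) : Measurable fun z : ST n => ENNReal.ofReal (N.sg z ^ a * N.tw α z ^ b) :=
  ENNReal.measurable_ofReal.comp (((sp_continuous_sg N).measurable.pow_const a).mul
    ((sp_continuous_tw N hl α).measurable.pow_const b))

/-- Tonelli + Peetre -/
theorem sp_M6_mass (n : ℕ) (Rw Ew : ℝ) (a₂ M' : ℕ) (hE : (a₂ : ℝ) + M' + n + 2 ≤ Ew) :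
    ∃ C : ℝ, 0 ≤ C ∧ ∀ (ι : Type) (N : XArr n ι) (α : ι) (ν : Measure (ST n)) [SFinite ν] (ρ : ℝ), 1 ≤ ρ → ρ ≤ N.l → ‖N.om α‖ ≤ Rw →
    ∫⁻ z, spMass (spW Ew ρ) ν z * ENNReal.ofReal (N.sg z ^ a₂ * N.tw α z ^ M') ≤
      ENNReal.ofReal (C * ρ ^ ((n : ℝ) + 1)) * ∫⁻ y, ENNReal.ofReal (N.sg y ^ a₂ * N.tw α y ^ M') ∂ν := by
  obtain ⟨C', hC', hint⟩ := sp_lintegral_spW n (Ew - ((a₂ + M' : ℕ) : ℝ)) (by push_cast; linarith)
  refine ⟨(1 + 2 * |Rw|) ^ M' * C', by positivity, ?_⟩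
  intro ι N α ν _ ρ hρ hρl hα
  have hρ0 : 0 < ρ := by linarith
  have hl : 0 < N.l := by linarith
  set G : ST n → ℝ≥0∞ := fun z => ENNReal.ofReal (N.sg z ^ a₂ * N.tw α z ^ M') with hG
  have hGm : Measurable G := sp_M6_measG N hl α a₂ M'
  have hWm := sp_measurable_spW (n := n) Ew ρ
  unfold spMass
  calc ∫⁻ z, (∫⁻ y, spW Ew ρ (y - z) ∂ν) * G z
      = ∫⁻ z, (∫⁻ y, spW Ew ρ (y - z) * G z ∂ν) := by
        refine lintegral_congr fun z => ?_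
        have hm : Measurable fun y => spW Ew ρ (y - z) := hWm.comp (measurable_id.sub_const z)
        rw [lintegral_mul_const _ hm]
    _ = ∫⁻ y, (∫⁻ z, spW Ew ρ (y - z) * G z) ∂ν := by
        rw [lintegral_lintegral_swap]
        exact ((hWm.comp (measurable_snd.sub measurable_fst)).mul (hGm.comp measurable_fst)).aemeasurable
    _ ≤ ∫⁻ y, ENNReal.ofReal ((1 + 2 * |Rw|) ^ M' * C' * ρ ^ ((n : ℝ) + 1)) * G y ∂ν := by
        refine lintegral_mono fun y => ?_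
        have hpt : ∀ z, spW Ew ρ (y - z) * G z
            ≤ (ENNReal.ofReal ((1 + 2 * |Rw|) ^ M') * G y) * spW (Ew - ((a₂ + M' : ℕ) : ℝ)) ρ (y - z) := by
          intro z
          have h1 := sp_M4_peetre N hρ hρl (hα.trans (le_abs_self Rw)) a₂ M' z y
          rw [← sp_M4_spW_mul hρ0 ((a₂ + M' : ℕ) : ℝ) (y - z), ← mul_assoc, mul_comm (spW Ew ρ (y - z))]
          refine mul_le_mul_left ?_ _
          rw [hG]
          simp only
          have hσy := sp_sg_one_le N y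
          have hwy := (sp_tw_pos_le N hl α y).1.le
          rw [← ENNReal.ofReal_mul (by positivity), ← ENNReal.ofReal_mul (by positivity), Real.rpow_natCast]
          refine ENNReal.ofReal_le_ofReal (h1.trans (le_of_eq ?_))
          rw [norm_sub_rev z y]
          ring
        refine (lintegral_mono hpt).trans (le_of_eq ?_)
        rw [lintegral_const_mul' _ _ (ENNReal.mul_ne_top ENNReal.ofReal_ne_top ENNReal.ofReal_ne_top),
          lintegral_sub_left_eq_self (fun u => spW (Ew - ((a₂ + M' : ℕ) : ℝ)) ρ u) y, hint ρ hρ0,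
          mul_assoc ((1 + 2 * |Rw|) ^ M'), ENNReal.ofReal_mul (pow_nonneg (by positivity) M')]
        exact mul_right_comm _ _ _
    _ = _ := by rw [lintegral_const_mul' _ _ ENNReal.ofReal_ne_top]

/-- L-257-SP-M6 (~200 l.).  **Integral of a majorant against the weighted mass.**   PLAN.  `F = spMass (spW Ew ρ) ν`.  Since `σ ≥ 1`, `w ≤ 1`, `a₁ ≤ a₂ β - 2(1-β)`, `A ≥ M' β + (n+1)(1-β)`:
`σ^a₁ w^A ≤ (σ^a₂ w^M')^β (σ^(-2) w^(n+1))^(1-β)`.   Hölder (`1/β`, `1/(1-β)`): `∫ F^β σ^a₁ w^A ≤ (∫ F σ^a₂ w^M')^β (∫ σ^(-2) w^(n+1))^(1-β)`.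
Tonelli + Peetre: `∫ F σ^a₂ w^M' dz = ∫ dν(y) ∫ spW(y - z) σ(z)^a₂ w(z)^M' dz ≤ (1+2Rw)^M' ∫ dν(y) σ(y)^a₂ w(y)^M' ∫ (1+|u|/ρ)^(a₂+M'-Ew) du = C ρ^(n+1) ∫ σ^a₂ w^M' dν`.   Second factor: `sp_lintegral_tube`. -/
theorem sp_maj_int (n : ℕ) (hn : 1 ≤ n) (Rw Ew : ℝ) (a₁ a₂ A M' : ℕ) (h1 : (a₁ + 2) * (n + 1) ≤ a₂) (h2 : M' + n + 1 ≤ A) (hE : (a₂ : ℝ) + M' + n + 2 ≤ Ew) :
    ∃ C : ℝ, 0 ≤ C ∧ ∀ (ι : Type) (N : XArr n ι) (α : ι) (ν : Measure (ST n)) [SFinite ν] (ρ : ℝ), 1 ≤ ρ → ρ ≤ N.l → ‖N.om α‖ ≤ Rw →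
    ∫⁻ z, spMass (spW Ew ρ) ν z ^ bet n * ENNReal.ofReal (N.sg z ^ a₁ * N.tw α z ^ A) ≤
      ENNReal.ofReal (C * ρ ^ (((n : ℝ) + 1) * bet n) * N.l ^ (((n : ℝ) + 2) * (1 - bet n))) * (∫⁻ y, ENNReal.ofReal (N.sg y ^ a₂ * N.tw α y ^ M') ∂ν) ^ bet n := by
  obtain ⟨hb0, hb1, -⟩ := sp_M6_bet hn
  set β := bet n with hβ
  have hb' : 0 ≤ 1 - β := by linarith
  obtain ⟨C₁, hC₁, hmass⟩ := sp_M6_mass n Rw Ew a₂ M' hE
  obtain ⟨C₂, hC₂, htube⟩ := sp_lintegral_tube n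
  refine ⟨C₁ ^ β * C₂ ^ (1 - β), by positivity, ?_⟩
  intro ι N α ν _ ρ hρ hρl hα
  have hρ0 : 0 < ρ := by linarith
  have hl : 0 < N.l := by linarith
  set F := spMass (spW Ew ρ) ν with hF
  have hFm : Measurable F := sp_measurable_mass (sp_measurable_spW Ew ρ) ν
  set G₂ : ST n → ℝ≥0∞ := fun z => ENNReal.ofReal (N.sg z ^ a₂ * N.tw α z ^ M') with hG₂
  set G₃ : ST n → ℝ≥0∞ := fun z => ENNReal.ofReal ((N.sg z)⁻¹ ^ 2 * N.tw α z ^ (n + 1)) with hG₃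
  have hG₂m : Measurable G₂ := sp_M6_measG N hl α a₂ M'
  have hG₃m : Measurable G₃ := ENNReal.measurable_ofReal.comp (((sp_continuous_sg N).measurable.inv.pow_const 2).mul
      ((sp_continuous_tw N hl α).measurable.pow_const (n + 1)))
  have hpt : ∀ z, F z ^ β * ENNReal.ofReal (N.sg z ^ a₁ * N.tw α z ^ A) ≤ (F z * G₂ z) ^ β * G₃ z ^ (1 - β) := by
    intro z
    have hσ := sp_sg_one_le N z
    obtain ⟨hw0, hw1⟩ := sp_tw_pos_le N hl α z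
    rw [ENNReal.mul_rpow_of_nonneg _ _ hb0.le, mul_assoc]
    refine mul_le_mul_right ?_ _
    rw [hG₂, hG₃]
    simp only
    rw [ENNReal.ofReal_rpow_of_nonneg (by positivity) hb0.le, ENNReal.ofReal_rpow_of_nonneg (by positivity) hb',
      ← ENNReal.ofReal_mul (by positivity)]
    exact ENNReal.ofReal_le_ofReal (sp_M6_split hn h1 h2 hσ hw0 hw1)
  calc ∫⁻ z, F z ^ β * ENNReal.ofReal (N.sg z ^ a₁ * N.tw α z ^ A)
      ≤ ∫⁻ z, (F z * G₂ z) ^ β * G₃ z ^ (1 - β) := lintegral_mono hpt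
    _ ≤ (∫⁻ z, F z * G₂ z) ^ β * (∫⁻ z, G₃ z) ^ (1 - β) :=
        ENNReal.lintegral_mul_norm_pow_le (hFm.mul hG₂m).aemeasurable hG₃m.aemeasurable hb0.le hb' (by ring)
    _ ≤ (ENNReal.ofReal (C₁ * ρ ^ ((n : ℝ) + 1)) * ∫⁻ y, G₂ y ∂ν) ^ β * (ENNReal.ofReal (C₂ * N.l ^ ((n : ℝ) + 2))) ^ (1 - β) :=
        mul_le_mul' (ENNReal.rpow_le_rpow (hmass ι N α ν ρ hρ hρl hα) hb0.le) (ENNReal.rpow_le_rpow (htube ι N α hl) hb')
    _ = _ := by
        rw [ENNReal.mul_rpow_of_nonneg _ _ hb0.le, ENNReal.ofReal_rpow_of_nonneg (by positivity) hb0.le,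
          ENNReal.ofReal_rpow_of_nonneg (by positivity) hb', Real.mul_rpow hC₁ (by positivity),
          Real.mul_rpow hC₂ (by positivity), ← Real.rpow_mul hρ0.le, ← Real.rpow_mul hl.le,
          mul_right_comm, ← ENNReal.ofReal_mul (by positivity)]
        congr 2
        ring

/-- L-257-SP-M7 (~120 l.).  **The functional of a subfield** = `sp_loc_le` + `sp_maj_int` (`a₁ = 3A`, `a₂ = (3A+2)(n+1)`), linearity of the integral in the finite sum;  `ρ^((n+1)(1-β)) ρ^((n+1)β) = ρ^(n+1)`. -/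
theorem sp_T_le (n A M' : ℕ) (hn : 2 ≤ n) (Rw C₃ : ℝ) (m₀ : ℕ) (Ew : ℝ) (hA : M' + n + 1 ≤ A) (hE : spEmin n A ≤ Ew) : ∃ C : ℝ, 0 ≤ C ∧
    ∀ (ι : Type) (N : XArr n ι) (s t : Finset ι) (c : ι → ℂ) (ν : Measure (ST n)) [SFinite ν] (ρ : ℝ), N.Dec s A Rw C₃ m₀ → t ⊆ s → 1 ≤ ρ → ρ ≤ N.l →
    spT (bet n) (spW Ew ρ) (N.fld t c) ν ≤
      ENNReal.ofReal (C * ρ ^ ((n : ℝ) + 1) * N.l ^ (((n : ℝ) + 2) * (1 - bet n))) *
        ∑ α ∈ t, ENNReal.ofReal (‖c α‖ ^ 2) * (∫⁻ y, ENNReal.ofReal (N.sg y ^ ((3 * A + 2) * (n + 1)) * N.tw α y ^ M') ∂ν) ^ bet n := by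
  obtain ⟨C₁, hC₁, hloc⟩ := sp_loc_le n A hn Rw C₃ m₀ Ew (by omega) hE
  have hE2 : (((3 * A + 2) * (n + 1) : ℕ) : ℝ) + M' + n + 2 ≤ Ew := by
    refine le_trans ?_ hE
    unfold spEmin
    have hA' : (M' : ℝ) + n + 1 ≤ A := by exact_mod_cast hA
    have hM : (0 : ℝ) ≤ M' := Nat.cast_nonneg _
    have hn0 : (0 : ℝ) ≤ n := Nat.cast_nonneg _
    have hA0 : (0 : ℝ) ≤ A := Nat.cast_nonneg _
    push_cast
    nlinarith [mul_nonneg hA0 hn0, mul_nonneg hn0 hn0]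
  obtain ⟨C₂, hC₂, hmaj⟩ := sp_maj_int n (by omega) Rw Ew (3 * A) ((3 * A + 2) * (n + 1)) A M' le_rfl hA hE2
  refine ⟨C₁ * C₂, by positivity, ?_⟩
  intro ι N s t c ν _ ρ hD hts hρ hρl
  have hρ0 : 0 < ρ := by linarith
  have hl : 0 < N.l := by linarith
  set β := bet n with hβ
  set F := spMass (spW Ew ρ) ν with hF
  have hFm : Measurable F := sp_measurable_mass (sp_measurable_spW Ew ρ) ν
  set X : ι → ℝ≥0∞ := fun α => (∫⁻ y, ENNReal.ofReal (N.sg y ^ ((3 * A + 2) * (n + 1)) * N.tw α y ^ M') ∂ν) ^ β with hX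
  have hf0 : ∀ α z, 0 ≤ N.sg z ^ (3 * A) * N.tw α z ^ A := fun α z => by
    have := (sp_tw_pos_le N hl α z).1.le
    have := sp_sg_one_le N z
    positivity
  unfold spT
  calc ∫⁻ z, F z ^ β * spLoc (spP β) (spW Ew ρ) (N.fld t c) z ^ (1 - β)
      ≤ ∫⁻ z, ∑ α ∈ t, ENNReal.ofReal (C₁ * ρ ^ (((n : ℝ) + 1) * (1 - β)) * ‖c α‖ ^ 2) *
          (F z ^ β * ENNReal.ofReal (N.sg z ^ (3 * A) * N.tw α z ^ A)) := by
        refine lintegral_mono fun z => ?_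
        refine (mul_le_mul_right (hloc ι N s t c ρ z hD hts hρ hρl) _).trans (le_of_eq ?_)
        rw [Finset.mul_sum, ENNReal.ofReal_sum_of_nonneg (fun α _ => by have := hf0 α z; positivity), Finset.mul_sum]
        refine Finset.sum_congr rfl fun α _ => ?_
        rw [← mul_assoc (C₁ * ρ ^ (((n : ℝ) + 1) * (1 - β))), ENNReal.ofReal_mul (by positivity)]
        ring
    _ = ∑ α ∈ t, ENNReal.ofReal (C₁ * ρ ^ (((n : ℝ) + 1) * (1 - β)) * ‖c α‖ ^ 2) *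
          ∫⁻ z, F z ^ β * ENNReal.ofReal (N.sg z ^ (3 * A) * N.tw α z ^ A) := by
        have hm : ∀ α ∈ t, Measurable fun z => ENNReal.ofReal (C₁ * ρ ^ (((n : ℝ) + 1) * (1 - β)) * ‖c α‖ ^ 2) *
            (F z ^ β * ENNReal.ofReal (N.sg z ^ (3 * A) * N.tw α z ^ A)) := fun α _ =>
          ((hFm.pow_const β).mul (sp_M6_measG N hl α (3 * A) A)).const_mul _
        rw [lintegral_finsetSum _ hm]
        refine Finset.sum_congr rfl fun α _ => ?_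
        rw [lintegral_const_mul' _ _ ENNReal.ofReal_ne_top]
    _ ≤ ∑ α ∈ t, ENNReal.ofReal (C₁ * ρ ^ (((n : ℝ) + 1) * (1 - β)) * ‖c α‖ ^ 2) *
          (ENNReal.ofReal (C₂ * ρ ^ (((n : ℝ) + 1) * β) * N.l ^ (((n : ℝ) + 2) * (1 - β))) * X α) :=
        Finset.sum_le_sum fun α hα => mul_le_mul_right (hmaj ι N α ν ρ hρ hρl (hD.freq α (hts hα))) _
    _ = _ := by
        rw [Finset.mul_sum]
        refine Finset.sum_congr rfl fun α _ => ?_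
        rw [← mul_assoc, ← mul_assoc, ← ENNReal.ofReal_mul (by positivity), ← ENNReal.ofReal_mul (by positivity)]
        congr 2
        have : ρ ^ ((n : ℝ) + 1) = ρ ^ (((n : ℝ) + 1) * (1 - β)) * ρ ^ (((n : ℝ) + 1) * β) := by
          rw [← Real.rpow_add hρ0]; congr 1; ring
        rw [this]
        ring

/-! ## terminal nodes, far layers -/

/-- moments of the majorants on the slab -/
theorem sp_M8_mom {N : XArr n ι} (hl : 0 < N.l) {ν : Measure (ST n)} {s : Finset ι} {T m D : ℝ} {M : ℕ} (hT : 0 ≤ T)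
    (hs : Slab ν (T * N.l ^ 2)) (hm : TubeMom ν N.toArr s m D M) (a : ℕ) {α : ι} (hα : α ∈ s) :
    ∫⁻ y, ENNReal.ofReal (N.sg y ^ a * N.tw α y ^ M) ∂ν ≤ ENNReal.ofReal ((1 + T) ^ a * (m * N.l ^ ((n : ℝ) + 1) / D)) := by
  have hae : ∀ᵐ y ∂ν, ¬ (T * N.l ^ 2 < |y.2|) := by
    rw [ae_iff]
    simp only [not_not]
    exact hs
  have h1 := hm α hα
  simp only [sp_tw_pow] at h1
  have hl2 : 0 < N.l ^ 2 := by positivity
  calc ∫⁻ y, ENNReal.ofReal (N.sg y ^ a * N.tw α y ^ M) ∂ν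
      ≤ ∫⁻ y, ENNReal.ofReal ((1 + T) ^ a) * ENNReal.ofReal (N.tw α y ^ M) ∂ν := by
        refine lintegral_mono_ae ?_
        filter_upwards [hae] with y hy
        rw [← ENNReal.ofReal_mul (by positivity)]
        refine ENNReal.ofReal_le_ofReal ?_
        have hw := (sp_tw_pos_le N hl α y).1.le
        have hσ := sp_sg_one_le N y
        have hσT : N.sg y ≤ 1 + T := by
          unfold XArr.sg
          have : |y.2| / N.l ^ 2 ≤ T := by rw [div_le_iff₀ hl2]; exact not_lt.1 hy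
          linarith
        exact mul_le_mul_of_nonneg_right (pow_le_pow_left₀ (by linarith) hσT a) (pow_nonneg hw M)
    _ = ENNReal.ofReal ((1 + T) ^ a) * ∫⁻ y, ENNReal.ofReal (N.tw α y ^ M) ∂ν :=
        lintegral_const_mul' _ _ ENNReal.ofReal_ne_top
    _ ≤ ENNReal.ofReal ((1 + T) ^ a) * ENNReal.ofReal (m * N.l ^ ((n : ℝ) + 1) / D) := mul_le_mul_right h1 _
    _ = _ := (ENNReal.ofReal_mul (by positivity)).symm

theorem sp_M8_pow {l T m D β : ℝ} (hl : 0 < l) (hT : 0 ≤ T) (hm : 0 ≤ m) (hD : 0 < D) (hβ : 0 ≤ β) (a : ℕ) (e : ℝ) :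
    ENNReal.ofReal ((1 + T) ^ a * (m * l ^ e / D)) ^ β = ENNReal.ofReal (((1 + T) ^ a) ^ β * m ^ β * l ^ (e * β) * D ^ (-β)) := by
  rw [ENNReal.ofReal_rpow_of_nonneg (by positivity) hβ, Real.mul_rpow (by positivity) (by positivity),
    Real.div_rpow (by positivity) hD.le, Real.mul_rpow hm (by positivity), ← Real.rpow_mul hl.le, Real.rpow_neg hD.le]
  congr 1
  rw [div_eq_mul_inv]
  ring

theorem sp_M8_expo (hn : 2 ≤ n) : ((n : ℝ) + 2) * (1 - bet n) + ((n : ℝ) + 1) * bet n = 2 * (n : ℝ) / ((n : ℝ) + 1) + n := by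
  have hb : bet n = 2 / ((n : ℝ) + 1) := rfl
  have : (0 : ℝ) < (n : ℝ) + 1 := by positivity
  rw [hb]
  field_simp
  ring

/-- L-257-SP-M8 (~120 l.).  **Terminal nodes.**   `sp_T_le` with `ρ = K²`, `M' = M`;  on the support of `ν`: `σ ≤ 1 + T` (`Slab`), so `∫ σ^a₂ w_α^M dν ≤ (1+T)^a₂ m l^(n+1)/D` (`TubeMom`, `sp_tw_pow`).
Powers: `(n+2)(1-β) + (n+1)β = n + 2 - β = n + 2n/(n+1)`. -/
theorem sp_term (n : ℕ) (hn : 2 ≤ n) (𝒦 : XCls) (M : ℕ) (T Ew : ℝ) (hT : 0 ≤ T) (hA : M + n + 1 ≤ 𝒦.A) (hE : spEmin n 𝒦.A ≤ Ew) : ∃ C : ℝ, 0 ≤ C ∧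
    ∀ k₀ K D l : ℝ, 1 ≤ K → K ^ 2 ≤ l → 0 < D → SpBd n 𝒦 M T Ew k₀ K D l (C * l ^ (n : ℝ) * D ^ (-bet n)) := by
  obtain ⟨C₁, hC₁, hTle⟩ := sp_T_le n 𝒦.A M hn 𝒦.Rw 𝒦.C₃ 𝒦.m₀ Ew hA hE
  obtain ⟨hb0, hb1, -⟩ := sp_M4_bet hn
  set β := bet n with hβ
  set a₂ := (3 * 𝒦.A + 2) * (n + 1) with ha₂
  refine ⟨C₁ * ((1 + T) ^ a₂) ^ β, by positivity, ?_⟩
  intro k₀ K D l hK hKl hD ι N s c ν m hNl hIn _ hm hgrow hslab hmom
  subst hNl
  have hK0 : 0 < K := by linarith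
  have hK2 : 1 ≤ K ^ 2 := by nlinarith
  have hl : 0 < N.l := by linarith
  have := sp_grow_sigmaFinite hgrow
  refine (hTle ι N s s c ν (K ^ 2) hIn.dec (Finset.Subset.refl s) hK2 hKl).trans ?_
  have h1 : ∀ α ∈ s, ENNReal.ofReal (‖c α‖ ^ 2) * (∫⁻ y, ENNReal.ofReal (N.sg y ^ a₂ * N.tw α y ^ M) ∂ν) ^ β
      ≤ ENNReal.ofReal (‖c α‖ ^ 2) * ENNReal.ofReal (((1 + T) ^ a₂) ^ β * m ^ β * N.l ^ (((n : ℝ) + 1) * β) * D ^ (-β)) := by
    intro α hα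
    refine mul_le_mul_right ?_ _
    rw [← sp_M8_pow hl hT hm hD hb0.le]
    exact ENNReal.rpow_le_rpow (sp_M8_mom hl hT hslab hmom a₂ hα) hb0.le
  refine (mul_le_mul_right (Finset.sum_le_sum h1) _).trans (le_of_eq ?_)
  rw [← Finset.sum_mul, ← ENNReal.ofReal_sum_of_nonneg (fun α _ => by positivity), ← ENNReal.ofReal_mul (Finset.sum_nonneg fun α _ => by positivity),
    ← ENNReal.ofReal_mul (by positivity)]
  congr 1
  have e1 : (K ^ 2) ^ ((n : ℝ) + 1) = K ^ (2 * ((n : ℝ) + 1)) := by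
    rw [← Real.rpow_natCast K 2, ← Real.rpow_mul hK0.le]
    norm_num
  have e2 : N.l ^ (((n : ℝ) + 2) * (1 - β)) * N.l ^ (((n : ℝ) + 1) * β) = N.l ^ (2 * (n : ℝ) / ((n : ℝ) + 1)) * N.l ^ (n : ℝ) := by
    rw [← Real.rpow_add hl, ← Real.rpow_add hl, sp_M8_expo hn]
  have e3 : energy s c = ∑ α ∈ s, ‖c α‖ ^ 2 := rfl
  rw [e1, e3]
  calc C₁ * K ^ (2 * ((n : ℝ) + 1)) * N.l ^ (((n : ℝ) + 2) * (1 - β)) * ((∑ α ∈ s, ‖c α‖ ^ 2) * (((1 + T) ^ a₂) ^ β * m ^ β * N.l ^ (((n : ℝ) + 1) * β) * D ^ (-β)))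
      = C₁ * K ^ (2 * ((n : ℝ) + 1)) * (N.l ^ (((n : ℝ) + 2) * (1 - β)) * N.l ^ (((n : ℝ) + 1) * β)) * ((∑ α ∈ s, ‖c α‖ ^ 2) * (((1 + T) ^ a₂) ^ β * m ^ β * D ^ (-β))) := by ring
    _ = _ := by rw [e2]; ring

/-- the integral of a finite majorant against the weighted mass -/
theorem sp_M9_sum (n A M' : ℕ) (hn : 2 ≤ n) (Rw : ℝ) (Ew : ℝ) (hA : M' + n + 1 ≤ A) (hE : spEmin n A ≤ Ew) : ∃ C : ℝ, 0 ≤ C ∧
    ∀ (ι : Type) (N : XArr n ι) (t : Finset ι) (c : ι → ℂ) (ν : Measure (ST n)) [SFinite ν] (ρ : ℝ), (∀ α ∈ t, ‖N.om α‖ ≤ Rw) → 1 ≤ ρ → ρ ≤ N.l →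
    ∫⁻ z, spMass (spW Ew ρ) ν z ^ bet n * ENNReal.ofReal (∑ α ∈ t, ‖c α‖ ^ 2 * (N.sg z ^ (3 * A) * N.tw α z ^ A)) ≤
      ENNReal.ofReal (C * ρ ^ (((n : ℝ) + 1) * bet n) * N.l ^ (((n : ℝ) + 2) * (1 - bet n))) *
        ∑ α ∈ t, ENNReal.ofReal (‖c α‖ ^ 2) * (∫⁻ y, ENNReal.ofReal (N.sg y ^ ((3 * A + 2) * (n + 1)) * N.tw α y ^ M') ∂ν) ^ bet n := by
  have hE2 : (((3 * A + 2) * (n + 1) : ℕ) : ℝ) + M' + n + 2 ≤ Ew := by
    refine le_trans ?_ hE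
    unfold spEmin
    have hA' : (M' : ℝ) + n + 1 ≤ A := by exact_mod_cast hA
    have hM : (0 : ℝ) ≤ M' := Nat.cast_nonneg _
    have hn0 : (0 : ℝ) ≤ n := Nat.cast_nonneg _
    have hA0 : (0 : ℝ) ≤ A := Nat.cast_nonneg _
    push_cast
    nlinarith [mul_nonneg hA0 hn0, mul_nonneg hn0 hn0]
  obtain ⟨C₂, hC₂, hmaj⟩ := sp_maj_int n (by omega) Rw Ew (3 * A) ((3 * A + 2) * (n + 1)) A M' le_rfl hA hE2
  refine ⟨C₂, hC₂, ?_⟩
  intro ι N t c ν _ ρ hfreq hρ hρl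
  have hρ0 : 0 < ρ := by linarith
  have hl : 0 < N.l := by linarith
  set β := bet n with hβ
  set F := spMass (spW Ew ρ) ν with hF
  have hFm : Measurable F := sp_measurable_mass (sp_measurable_spW Ew ρ) ν
  have hf0 : ∀ α z, 0 ≤ N.sg z ^ (3 * A) * N.tw α z ^ A := fun α z => by
    have := (sp_tw_pos_le N hl α z).1.le
    have := sp_sg_one_le N z
    positivity
  calc ∫⁻ z, F z ^ β * ENNReal.ofReal (∑ α ∈ t, ‖c α‖ ^ 2 * (N.sg z ^ (3 * A) * N.tw α z ^ A))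
      = ∫⁻ z, ∑ α ∈ t, ENNReal.ofReal (‖c α‖ ^ 2) * (F z ^ β * ENNReal.ofReal (N.sg z ^ (3 * A) * N.tw α z ^ A)) := by
        refine lintegral_congr fun z => ?_
        rw [ENNReal.ofReal_sum_of_nonneg (fun α _ => by have := hf0 α z; positivity), Finset.mul_sum]
        refine Finset.sum_congr rfl fun α _ => ?_
        rw [ENNReal.ofReal_mul (by positivity)]
        ring
    _ = ∑ α ∈ t, ENNReal.ofReal (‖c α‖ ^ 2) * ∫⁻ z, F z ^ β * ENNReal.ofReal (N.sg z ^ (3 * A) * N.tw α z ^ A) := by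
        have hm : ∀ α ∈ t, Measurable fun z => ENNReal.ofReal (‖c α‖ ^ 2) *
            (F z ^ β * ENNReal.ofReal (N.sg z ^ (3 * A) * N.tw α z ^ A)) := fun α _ =>
          ((hFm.pow_const β).mul (sp_M6_measG N hl α (3 * A) A)).const_mul _
        rw [lintegral_finsetSum _ hm]
        refine Finset.sum_congr rfl fun α _ => ?_
        rw [lintegral_const_mul' _ _ ENNReal.ofReal_ne_top]
    _ ≤ ∑ α ∈ t, ENNReal.ofReal (‖c α‖ ^ 2) *
          (ENNReal.ofReal (C₂ * ρ ^ (((n : ℝ) + 1) * β) * N.l ^ (((n : ℝ) + 2) * (1 - β))) *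
            (∫⁻ y, ENNReal.ofReal (N.sg y ^ ((3 * A + 2) * (n + 1)) * N.tw α y ^ M') ∂ν) ^ β) :=
        Finset.sum_le_sum fun α hα => mul_le_mul_right (hmaj ι N α ν ρ hρ hρl (hfreq α hα)) _
    _ = _ := by
        rw [Finset.mul_sum]
        refine Finset.sum_congr rfl fun α _ => ?_
        ring

theorem sp_M9_disj : Pairwise (Function.onFun Disjoint fun k : (Fin n → ℤ) × ℤ => (cube k : Set (ST n))) := by
  intro k k' hkk
  rw [Function.onFun, Set.disjoint_left]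
  intro z hz hz'
  exact hkk ((inf_cube_partition z).unique hz hz')

/-- summation over the unit cubes -/
theorem sp_M9_cubes (a : (Fin n → ℤ) × ℤ → ℝ≥0∞) (g : ST n → ℝ≥0∞) (h : ∀ k, ∀ z ∈ cube k, a k ≤ g z) : ∑' k, a k ≤ ∫⁻ z, g z := by
  calc ∑' k, a k = ∑' k, ∫⁻ _ in (cube k : Set (ST n)), a k := by
        refine tsum_congr fun k => ?_
        rw [setLIntegral_const, inf_cube_volume, mul_one]
    _ ≤ ∑' k, ∫⁻ z in (cube k : Set (ST n)), g z :=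
        ENNReal.tsum_le_tsum fun k => setLIntegral_mono' (inf_cube_measurable k) (h k)
    _ = ∫⁻ z in ⋃ k, (cube k : Set (ST n)), g z := (lintegral_iUnion inf_cube_measurable sp_M9_disj g).symm
    _ ≤ ∫⁻ z, g z := setLIntegral_le_lintegral _ _

theorem sp_M9_mass {Ew : ℝ} (hE : 0 ≤ Ew) (ν : Measure (ST n)) (k : (Fin n → ℤ) × ℤ) {z : ST n} (hz : z ∈ cube k) :
    ν (cube k) ≤ ENNReal.ofReal ((1 + (Real.sqrt n + 1)) ^ Ew) * spMass (spW Ew 1) ν z := by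
  set r := Real.sqrt n + 1 with hr
  have hr0 : 0 < 1 + r := by positivity
  have h1 : ENNReal.ofReal ((1 + r) ^ (-Ew)) * ν (cube k) ≤ spMass (spW Ew 1) ν z := by
    unfold spMass
    rw [← setLIntegral_const]
    refine (setLIntegral_mono' (inf_cube_measurable k) fun y hy => ?_).trans (setLIntegral_le_lintegral _ _)
    unfold spW
    refine ENNReal.ofReal_le_ofReal (Real.rpow_le_rpow_of_nonpos (by positivity) ?_ (by linarith))
    have := inf_cube_subset_ball k hz hy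
    rw [mem_closedBall, dist_eq_norm] at this
    rw [div_one]
    linarith
  calc ν (cube k) = ENNReal.ofReal ((1 + r) ^ Ew) * (ENNReal.ofReal ((1 + r) ^ (-Ew)) * ν (cube k)) := by
        rw [← mul_assoc, ← ENNReal.ofReal_mul (by positivity), ← Real.rpow_add hr0, add_neg_cancel, Real.rpow_zero,
          ENNReal.ofReal_one, one_mul]
    _ ≤ _ := mul_le_mul_right h1 _

/-- L-257-SP-M9 (~200 l.).  **Trivial bound for the unit cube functional** (far layers).   PLAN.  `Ew := spEmin n A`.  For `z ∈ cube k`: `ν (cube k) ≤ (√n + 2)^Ew spMass (spW Ew 1) ν z` (`inf_cube_subset_ball`), and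
`sup_{cube k} |fld|² ≤ C ∑ |c_α|² σ(z)^(3A) w_α(z)^A` (`sp_fld_sq_le` + Peetre with `ρ = 1`).   The cubes are disjoint, measurable, of volume `1`:
`supN ≤ C ∑_α |c_α|² ∫ spMass^β σ^(3A) w_α^A`, then `sp_maj_int` (`ρ = 1`, `M' = M`), `Slab`, `TubeMom` as in `sp_term`. -/
theorem sp_supN_triv (n A M : ℕ) (hn : 2 ≤ n) (Rw C₃ : ℝ) (m₀ : ℕ) (T : ℝ) (hT : 0 ≤ T) (hA : M + n + 1 ≤ A) : ∃ C : ℝ, 0 ≤ C ∧
    ∀ (ι : Type) (N : XArr n ι) (s : Finset ι) (c : ι → ℂ) (ν : Measure (ST n)) (m D : ℝ), N.Dec s A Rw C₃ m₀ → 0 ≤ m → 0 < D →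
    Grow ν m n → Slab ν (T * N.l ^ 2) → TubeMom ν N.toArr s m D M →
    supN (bet n) ν (N.fld s c) ≤
      ENNReal.ofReal (C * m ^ bet n * N.l ^ (2 * (n : ℝ) / ((n : ℝ) + 1) + n) * D ^ (-bet n) * energy s c) := by
  obtain ⟨hb0, hb1, -⟩ := sp_M4_bet hn
  set β := bet n with hβ
  set Ew := spEmin n A with hEw
  have hEw0 : 0 ≤ Ew := by rw [hEw]; unfold spEmin; positivity
  obtain ⟨C₁, hC₁, hfld⟩ := sp_fld_sq_le n A Rw C₃ m₀ (by omega)
  obtain ⟨C₂, hC₂, hsum⟩ := sp_M9_sum n A M hn Rw Ew hA le_rfl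
  set r := Real.sqrt n + 1 with hr
  have hr0 : 0 < 1 + r := by positivity
  set a₂ := (3 * A + 2) * (n + 1) with ha₂
  set c₁ := (1 + r) ^ Ew with hc₁
  set c₂ := C₁ * ((1 + 2 * |Rw|) ^ A * (1 + r) ^ (4 * A)) with hc₂
  have hc₁0 : 0 ≤ c₁ := by positivity
  have hc₂0 : 0 ≤ c₂ := by positivity
  refine ⟨c₁ ^ β * c₂ * C₂ * ((1 + T) ^ a₂) ^ β, by positivity, ?_⟩
  intro ι N s c ν m D hD hm hD0 hgrow hslab hmom
  have hl1 := hD.one_le
  have hl : 0 < N.l := by linarith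
  have := sp_grow_sigmaFinite hgrow
  set S : ST n → ℝ := fun z => ∑ α ∈ s, ‖c α‖ ^ 2 * (N.sg z ^ (3 * A) * N.tw α z ^ A) with hS
  have hS0 : ∀ z, 0 ≤ S z := fun z => Finset.sum_nonneg fun α _ => by
    have := (sp_tw_pos_le N hl α z).1.le
    have := sp_sg_one_le N z
    positivity
  set F := spMass (spW Ew 1) ν with hF
  -- one cube
  have hcube : ∀ k, ∀ z ∈ cube k, ν (cube k) ^ β * (⨆ y ∈ cube k, ‖N.fld s c y‖ₑ) ^ 2
      ≤ ENNReal.ofReal (c₁ ^ β * c₂) * (F z ^ β * ENNReal.ofReal (S z)) := by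
    intro k z hz
    have h1 : ν (cube k) ^ β ≤ ENNReal.ofReal (c₁ ^ β) * F z ^ β := by
      rw [← ENNReal.ofReal_rpow_of_nonneg hc₁0 hb0.le, ← ENNReal.mul_rpow_of_nonneg _ _ hb0.le]
      exact ENNReal.rpow_le_rpow (sp_M9_mass hEw0 ν k hz) hb0.le
    have h2 : (⨆ y ∈ cube k, ‖N.fld s c y‖ₑ) ^ 2 ≤ ENNReal.ofReal (c₂ * S z) := by
      have h3 : (⨆ y ∈ cube k, ‖N.fld s c y‖ₑ) ≤ ENNReal.ofReal (Real.sqrt (c₂ * S z)) := by
        refine iSup₂_le fun y hy => ?_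
        rw [← ofReal_norm]
        refine ENNReal.ofReal_le_ofReal (Real.le_sqrt_of_sq_le ?_)
        refine (hfld ι N s s c y hD (Finset.Subset.refl s)).trans ?_
        rw [hc₂, mul_assoc]
        refine mul_le_mul_of_nonneg_left ?_ hC₁
        rw [hS, Finset.mul_sum]
        refine Finset.sum_le_sum fun α hα => ?_
        have h4 := sp_M4_peetre N le_rfl hl1 ((hD.freq α hα).trans (le_abs_self Rw)) (3 * A) A y z
        have e : 3 * A + A = 4 * A := by ring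
        rw [e, div_one] at h4
        have h5 : ‖y - z‖ ≤ r := by
          have := inf_cube_subset_ball k hz hy
          rwa [mem_closedBall, dist_eq_norm] at this
        have h6 : (1 + ‖y - z‖) ^ (4 * A) ≤ (1 + r) ^ (4 * A) := pow_le_pow_left₀ (by positivity) (by linarith) _
        have h7 : 0 ≤ N.sg z ^ (3 * A) * N.tw α z ^ A := by
          have := (sp_tw_pos_le N hl α z).1.le
          have := sp_sg_one_le N z
          positivity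
        calc ‖c α‖ ^ 2 * (N.sg y ^ (3 * A) * N.tw α y ^ A)
            ≤ ‖c α‖ ^ 2 * ((1 + 2 * |Rw|) ^ A * (1 + ‖y - z‖) ^ (4 * A) * (N.sg z ^ (3 * A) * N.tw α z ^ A)) :=
              mul_le_mul_of_nonneg_left h4 (by positivity)
          _ ≤ ‖c α‖ ^ 2 * ((1 + 2 * |Rw|) ^ A * (1 + r) ^ (4 * A) * (N.sg z ^ (3 * A) * N.tw α z ^ A)) := by gcongr
          _ = _ := by ring
      calc (⨆ y ∈ cube k, ‖N.fld s c y‖ₑ) ^ 2 ≤ ENNReal.ofReal (Real.sqrt (c₂ * S z)) ^ 2 := pow_le_pow_left' h3 2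
        _ = _ := by rw [← ENNReal.ofReal_pow (Real.sqrt_nonneg _), Real.sq_sqrt (mul_nonneg hc₂0 (hS0 z))]
    refine (mul_le_mul' h1 h2).trans (le_of_eq ?_)
    have e1 : ENNReal.ofReal (c₂ * S z) = ENNReal.ofReal c₂ * ENNReal.ofReal (S z) := ENNReal.ofReal_mul hc₂0
    have e2 : ENNReal.ofReal (c₁ ^ β * c₂) = ENNReal.ofReal (c₁ ^ β) * ENNReal.ofReal c₂ := ENNReal.ofReal_mul (by positivity)
    rw [e1, e2]
    ring
  unfold supN
  refine (sp_M9_cubes _ _ hcube).trans ?_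
  rw [lintegral_const_mul' _ _ ENNReal.ofReal_ne_top]
  refine (mul_le_mul_right (hsum ι N s c ν 1 hD.freq le_rfl hl1) _).trans ?_
  have h1 : ∀ α ∈ s, ENNReal.ofReal (‖c α‖ ^ 2) * (∫⁻ y, ENNReal.ofReal (N.sg y ^ a₂ * N.tw α y ^ M) ∂ν) ^ β
      ≤ ENNReal.ofReal (‖c α‖ ^ 2) * ENNReal.ofReal (((1 + T) ^ a₂) ^ β * m ^ β * N.l ^ (((n : ℝ) + 1) * β) * D ^ (-β)) := by
    intro α hα
    refine mul_le_mul_right ?_ _
    rw [← sp_M8_pow hl hT hm hD0 hb0.le]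
    exact ENNReal.rpow_le_rpow (sp_M8_mom hl hT hslab hmom a₂ hα) hb0.le
  refine (mul_le_mul_right (mul_le_mul_right (Finset.sum_le_sum h1) _) _).trans (le_of_eq ?_)
  rw [← Finset.sum_mul, ← ENNReal.ofReal_sum_of_nonneg (fun α _ => by positivity), ← ENNReal.ofReal_mul (Finset.sum_nonneg fun α _ => by positivity),
    ← ENNReal.ofReal_mul (by positivity), ← ENNReal.ofReal_mul (by positivity)]
  congr 1
  have e2 : N.l ^ (((n : ℝ) + 2) * (1 - β)) * N.l ^ (((n : ℝ) + 1) * β) = N.l ^ (2 * (n : ℝ) / ((n : ℝ) + 1) + n) := by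
    rw [← Real.rpow_add hl, sp_M8_expo hn]
  have e3 : energy s c = ∑ α ∈ s, ‖c α‖ ^ 2 := rfl
  rw [e3, Real.one_rpow, mul_one, ← e2]
  ring

/-! ## spatial localisation -/

theorem sp_M11_tsum_pi {J I : Type*} [Fintype I] (ω : I → J → ℝ≥0∞) :
    ∑' g : I → J, ∏ i, ω i (g i) ≤ ∏ i, ∑' j, ω i j := by
  classical
  rw [ENNReal.tsum_eq_iSup_sum]
  refine iSup_le fun T => ?_
  set s : Finset J := T.biUnion fun g => Finset.univ.image g with hs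
  have hT : T ⊆ Fintype.piFinset fun _ : I => s := by
    intro g hg
    rw [Fintype.mem_piFinset]
    intro i
    rw [hs, Finset.mem_biUnion]
    exact ⟨g, hg, Finset.mem_image_of_mem g (Finset.mem_univ i)⟩
  calc ∑ g ∈ T, ∏ i, ω i (g i) ≤ ∑ g ∈ Fintype.piFinset fun _ : I => s, ∏ i, ω i (g i) := Finset.sum_le_sum_of_subset hT
    _ = ∏ i : I, ∑ j ∈ s, ω i j := (Finset.prod_univ_sum (fun _ : I => s) fun i j => ω i j).symm
    _ ≤ ∏ i : I, ∑' j, ω i j := Finset.prod_le_prod' fun _ _ => ENNReal.sum_le_tsum s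

theorem sp_M11_one (s : ℝ) (hs : 1 < s) : ∃ C : ℝ, 0 ≤ C ∧ ∀ t : ℝ,
    ∑' k : ℤ, ENNReal.ofReal ((1 + |t - ((k : ℝ) + 1 / 2)|) ^ (-s)) ≤ ENNReal.ofReal C := by
  have hsum := Real.summable_abs_int_rpow hs
  have hnn : ∀ k : ℤ, 0 ≤ |(k : ℝ)| ^ (-s) := fun k => by positivity
  refine ⟨(∑' k : ℤ, |(k : ℝ)| ^ (-s)) + 1, add_nonneg (tsum_nonneg hnn) zero_le_one, fun t => ?_⟩
  have hpt : ∀ k : ℤ, ENNReal.ofReal ((1 + |t - ((k : ℝ) + 1 / 2)|) ^ (-s)) ≤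
      (fun k' : ℤ => ENNReal.ofReal (|(k' : ℝ)| ^ (-s)) + if k' = 0 then 1 else 0) (⌊t⌋ - k) := by
    intro k
    beta_reduce
    by_cases hk : ⌊t⌋ - k = 0
    · rw [if_pos hk]
      refine le_add_left ?_
      rw [← ENNReal.ofReal_one]
      apply ENNReal.ofReal_le_ofReal
      exact Real.rpow_le_one_of_one_le_of_nonpos (by linarith [abs_nonneg (t - ((k : ℝ) + 1 / 2))]) (by linarith)
    · rw [if_neg hk, add_zero]
      apply ENNReal.ofReal_le_ofReal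
      apply Real.rpow_le_rpow_of_nonpos (abs_pos.2 (by exact_mod_cast hk)) _ (by linarith)
      push_cast
      have h1 := Int.floor_le t
      have h2 := Int.lt_floor_add_one t
      rw [abs_le]
      constructor <;> rcases abs_cases (t - ((k : ℝ) + 1 / 2)) with h | h <;> linarith
  calc ∑' k : ℤ, ENNReal.ofReal ((1 + |t - ((k : ℝ) + 1 / 2)|) ^ (-s))
      ≤ ∑' k : ℤ, (fun k' : ℤ => ENNReal.ofReal (|(k' : ℝ)| ^ (-s)) + if k' = 0 then 1 else 0) (⌊t⌋ - k) :=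
        ENNReal.tsum_le_tsum hpt
    _ = ∑' k' : ℤ, (ENNReal.ofReal (|(k' : ℝ)| ^ (-s)) + if k' = 0 then 1 else 0) :=
        (Equiv.subLeft ⌊t⌋).tsum_eq (fun k' : ℤ => ENNReal.ofReal (|(k' : ℝ)| ^ (-s)) + if k' = 0 then 1 else 0)
    _ = _ := by
        rw [ENNReal.tsum_add, tsum_ite_eq, ← ENNReal.ofReal_tsum_of_nonneg hnn hsum, ← ENNReal.ofReal_one,
          ← ENNReal.ofReal_add (tsum_nonneg hnn) zero_le_one]

theorem sp_M11_sum (n : ℕ) : ∃ C : ℝ, 0 ≤ C ∧ ∀ p : E n,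
    ∑' j : Fin n → ℤ, ENNReal.ofReal ((1 + ‖p - spBoxC 1 j‖) ^ (-((n : ℝ) + 1))) ≤ ENNReal.ofReal C := by
  obtain ⟨s, hs⟩ : ∃ s : ℝ, s = 1 + 1 / ((n : ℝ) + 1) := ⟨_, rfl⟩
  have hs1 : 1 < s := by
    have : (0 : ℝ) < 1 / ((n : ℝ) + 1) := by positivity
    linarith
  have hns : (n : ℝ) * s ≤ (n : ℝ) + 1 := by
    rw [hs, mul_add, mul_one, mul_one_div]
    have : (n : ℝ) / ((n : ℝ) + 1) ≤ 1 := by
      rw [div_le_one (by positivity)]
      linarith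
    linarith
  obtain ⟨C₁, hC₁, h1⟩ := sp_M11_one s hs1
  refine ⟨C₁ ^ n, by positivity, fun p => ?_⟩
  have hpt : ∀ j : Fin n → ℤ, ENNReal.ofReal ((1 + ‖p - spBoxC 1 j‖) ^ (-((n : ℝ) + 1))) ≤
      ∏ i, ENNReal.ofReal ((1 + |p i - ((j i : ℝ) + 1 / 2)|) ^ (-s)) := by
    intro j
    rw [← ENNReal.ofReal_prod_of_nonneg (fun _ _ => by positivity)]
    apply ENNReal.ofReal_le_ofReal
    have hr : 0 ≤ ‖p - spBoxC 1 j‖ := norm_nonneg _
    calc (1 + ‖p - spBoxC 1 j‖) ^ (-((n : ℝ) + 1)) ≤ (1 + ‖p - spBoxC 1 j‖) ^ (-((n : ℝ) * s)) :=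
          Real.rpow_le_rpow_of_exponent_le (by linarith) (by linarith)
      _ = ∏ _i : Fin n, (1 + ‖p - spBoxC 1 j‖) ^ (-s) := by
          rw [Finset.prod_const, Finset.card_univ, Fintype.card_fin, ← Real.rpow_natCast, ← Real.rpow_mul (by positivity)]
          congr 1
          ring
      _ ≤ ∏ i, (1 + |p i - ((j i : ℝ) + 1 / 2)|) ^ (-s) := by
          refine Finset.prod_le_prod (fun _ _ => by positivity) fun i _ => ?_
          refine Real.rpow_le_rpow_of_nonpos (by positivity) ?_ (by linarith)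
          have := PiLp.norm_apply_le (p - spBoxC 1 j) i
          have e : (p - spBoxC 1 j) i = p i - ((j i : ℝ) + 1 / 2) := by
            simp [spBoxC]
          rw [e, Real.norm_eq_abs] at this
          linarith
  calc ∑' j : Fin n → ℤ, ENNReal.ofReal ((1 + ‖p - spBoxC 1 j‖) ^ (-((n : ℝ) + 1)))
      ≤ ∑' j : Fin n → ℤ, ∏ i, ENNReal.ofReal ((1 + |p i - ((j i : ℝ) + 1 / 2)|) ^ (-s)) := ENNReal.tsum_le_tsum hpt
    _ ≤ ∏ i, ∑' k : ℤ, ENNReal.ofReal ((1 + |p i - ((k : ℝ) + 1 / 2)|) ^ (-s)) :=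
        sp_M11_tsum_pi (fun (i : Fin n) (k : ℤ) => ENNReal.ofReal ((1 + |p i - ((k : ℝ) + 1 / 2)|) ^ (-s)))
    _ ≤ ∏ _i : Fin n, ENNReal.ofReal C₁ := Finset.prod_le_prod' fun i _ => h1 (p i)
    _ = ENNReal.ofReal (C₁ ^ n) := by
        rw [Finset.prod_const, Finset.card_univ, Fintype.card_fin, ENNReal.ofReal_pow hC₁]

theorem sp_M11_min {r d a : ℝ} (hr : 0 ≤ r) (hd : 0 ≤ d) (ha : d ≤ a) : min 1 (r ^ (-a)) ≤ 2 ^ d * (1 + r) ^ (-d) := by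
  by_cases h : r ≤ 1
  · refine (min_le_left _ _).trans ?_
    have h1 : (2 : ℝ) ^ (-d) ≤ (1 + r) ^ (-d) := Real.rpow_le_rpow_of_nonpos (by positivity) (by linarith) (by linarith)
    have h2 : (2 : ℝ) ^ d * 2 ^ (-d) = 1 := by
      rw [← Real.rpow_add (by norm_num)]
      simp
    calc (1 : ℝ) = 2 ^ d * 2 ^ (-d) := h2.symm
      _ ≤ _ := by gcongr
  · push Not at h
    refine (min_le_right _ _).trans ?_
    have h1 : r ^ (-a) ≤ r ^ (-d) := Real.rpow_le_rpow_of_exponent_le h.le (by linarith)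
    have h2 : (2 * r) ^ (-d) ≤ (1 + r) ^ (-d) := Real.rpow_le_rpow_of_nonpos (by positivity) (by linarith) (by linarith)
    have h3 : (2 : ℝ) ^ d * (2 * r) ^ (-d) = r ^ (-d) := by
      rw [Real.mul_rpow (by norm_num) hr, ← mul_assoc, ← Real.rpow_add (by norm_num)]
      simp
    calc r ^ (-a) ≤ r ^ (-d) := h1
      _ = 2 ^ d * (2 * r) ^ (-d) := h3.symm
      _ ≤ _ := by gcongr

theorem sp_M10_box (a : ℝ) (j : Fin n → ℤ) : spBoxC a j = a • spBoxC 1 j := by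
  ext i
  simp [spBoxC]

/-- L-257-SP-M10 (~80 l.).  a label is retained for at most `(2 C₄ + 2)^n` boxes -/
theorem sp_near_energy (n : ℕ) (C₄ : ℝ) : ∃ C : ℝ, 0 ≤ C ∧ ∀ (ι : Type) (N : XArr n ι) (s : Finset ι) (c : ι → ℂ), 0 < N.l →
    ∑' j : Fin n → ℤ, ENNReal.ofReal (energy (N.near C₄ s j) c) ≤ ENNReal.ofReal (C * energy s c) := by
  obtain ⟨C, hC, h⟩ := sp_M11_sum n
  refine ⟨(1 + |C₄|) ^ ((n : ℝ) + 1) * C, by positivity, fun ι N s c hl => ?_⟩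
  have hl2 : 0 < N.l ^ 2 := by positivity
  have hpt : ∀ j, ENNReal.ofReal (energy (N.near C₄ s j) c) ≤
      ∑ α ∈ s, ENNReal.ofReal (‖c α‖ ^ 2 * (1 + |C₄|) ^ ((n : ℝ) + 1)) *
        ENNReal.ofReal ((1 + ‖(N.l ^ 2)⁻¹ • N.y α - spBoxC 1 j‖) ^ (-((n : ℝ) + 1))) := by
    intro j
    unfold energy XArr.near
    rw [Finset.sum_filter, ENNReal.ofReal_sum_of_nonneg (fun α _ => by split_ifs <;> positivity)]
    refine Finset.sum_le_sum fun α _ => ?_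
    split_ifs with hα
    · rw [← ENNReal.ofReal_mul (by positivity)]
      apply ENNReal.ofReal_le_ofReal
      have e : N.y α - spBoxC (N.l ^ 2) j = (N.l ^ 2) • ((N.l ^ 2)⁻¹ • N.y α - spBoxC 1 j) := by
        rw [smul_sub, smul_smul, mul_inv_cancel₀ hl2.ne', one_smul, ← sp_M10_box]
      rw [e, norm_smul, Real.norm_of_nonneg hl2.le, mul_comm, mul_le_mul_iff_left₀ hl2] at hα
      have h1 : (1 + |C₄|) ^ (-((n : ℝ) + 1)) ≤ (1 + ‖(N.l ^ 2)⁻¹ • N.y α - spBoxC 1 j‖) ^ (-((n : ℝ) + 1)) :=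
        Real.rpow_le_rpow_of_nonpos (by positivity) (by linarith [le_abs_self C₄]) (by
          have : (0 : ℝ) ≤ n := Nat.cast_nonneg n
          linarith)
      have h2 : (1 + |C₄|) ^ ((n : ℝ) + 1) * (1 + |C₄|) ^ (-((n : ℝ) + 1)) = 1 := by
        rw [← Real.rpow_add (by positivity)]
        simp
      calc ‖c α‖ ^ 2 = ‖c α‖ ^ 2 * ((1 + |C₄|) ^ ((n : ℝ) + 1) * (1 + |C₄|) ^ (-((n : ℝ) + 1))) := by rw [h2, mul_one]
        _ ≤ ‖c α‖ ^ 2 * ((1 + |C₄|) ^ ((n : ℝ) + 1) * (1 + ‖(N.l ^ 2)⁻¹ • N.y α - spBoxC 1 j‖) ^ (-((n : ℝ) + 1))) := by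
            gcongr
        _ = _ := by ring
    · simp
  calc ∑' j : Fin n → ℤ, ENNReal.ofReal (energy (N.near C₄ s j) c)
      ≤ ∑' j : Fin n → ℤ, ∑ α ∈ s, ENNReal.ofReal (‖c α‖ ^ 2 * (1 + |C₄|) ^ ((n : ℝ) + 1)) *
        ENNReal.ofReal ((1 + ‖(N.l ^ 2)⁻¹ • N.y α - spBoxC 1 j‖) ^ (-((n : ℝ) + 1))) := ENNReal.tsum_le_tsum hpt
    _ = ∑ α ∈ s, ∑' j : Fin n → ℤ, ENNReal.ofReal (‖c α‖ ^ 2 * (1 + |C₄|) ^ ((n : ℝ) + 1)) *
        ENNReal.ofReal ((1 + ‖(N.l ^ 2)⁻¹ • N.y α - spBoxC 1 j‖) ^ (-((n : ℝ) + 1))) :=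
        Summable.tsum_finsetSum fun _ _ => ENNReal.summable
    _ ≤ ∑ α ∈ s, ENNReal.ofReal (‖c α‖ ^ 2 * (1 + |C₄|) ^ ((n : ℝ) + 1)) * ENNReal.ofReal C :=
        Finset.sum_le_sum fun α _ => by
          rw [ENNReal.tsum_mul_left]
          exact mul_le_mul_right (h _) _
    _ = _ := by
        unfold energy
        rw [Finset.mul_sum, ENNReal.ofReal_sum_of_nonneg (fun α _ => by positivity)]
        refine Finset.sum_congr rfl fun α _ => ?_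
        rw [← ENNReal.ofReal_mul (by positivity)]
        congr 1
        ring

/-- L-257-SP-M11 (~60 l.).  lattice sum: `∑_{j : |p - (j + 1/2)| ≥ 1} |p - (j+1/2)|^(-a) ≤ C`, `a ≥ n + 1`, uniformly in `p` -/
theorem sp_lattice_sum (n : ℕ) (a : ℝ) (ha : (n : ℝ) + 1 ≤ a) : ∃ C : ℝ, 0 ≤ C ∧ ∀ p : E n,
    ∑' j : Fin n → ℤ, ENNReal.ofReal (min 1 (‖p - spBoxC 1 j‖ ^ (-a))) ≤ ENNReal.ofReal C := by
  obtain ⟨C, hC, h⟩ := sp_M11_sum n
  refine ⟨2 ^ ((n : ℝ) + 1) * C, by positivity, fun p => ?_⟩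
  rw [ENNReal.ofReal_mul (by positivity)]
  refine le_trans ?_ (mul_le_mul_right (h p) _)
  rw [← ENNReal.tsum_mul_left]
  refine ENNReal.tsum_le_tsum fun j => ?_
  rw [← ENNReal.ofReal_mul (by positivity)]
  apply ENNReal.ofReal_le_ofReal
  exact sp_M11_min (norm_nonneg _) (by positivity) ha

theorem sp_M12_box_meas (a : ℝ) (j : Fin n → ℤ) : MeasurableSet (spBox a j : Set (ST n)) := by
  have hc : ∀ i : Fin n, Measurable fun z : ST n => z.1 i := fun i =>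
    ((EuclideanSpace.proj i : E n →L[ℝ] ℝ).continuous.comp continuous_fst).measurable
  unfold spBox
  rw [Set.ofPred_forall]
  refine MeasurableSet.iInter fun i => ?_
  exact (measurableSet_le measurable_const (hc i)).inter (measurableSet_lt (hc i) measurable_const)

/-- a point of the box is close to the centre -/
theorem sp_M12_box_norm {a : ℝ} (ha : 0 ≤ a) (j : Fin n → ℤ) {z : ST n} (hz : z ∈ spBox a j) : ‖z.1 - spBoxC a j‖ ≤ Real.sqrt n * a / 2 := by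
  rw [EuclideanSpace.norm_eq]
  have h1 : ∑ i, ‖(z.1 - spBoxC a j) i‖ ^ 2 ≤ (n : ℝ) * (a / 2) ^ 2 := by
    calc ∑ i, ‖(z.1 - spBoxC a j) i‖ ^ 2 ≤ ∑ _i : Fin n, (a / 2) ^ 2 := by
          refine Finset.sum_le_sum fun i _ => ?_
          have h2 := hz i
          have e : (z.1 - spBoxC a j) i = z.1 i - a * ((j i : ℝ) + 1 / 2) := by
            simp [spBoxC]
          rw [e, Real.norm_eq_abs, sq_abs]
          have h3 : |z.1 i - a * ((j i : ℝ) + 1 / 2)| ≤ a / 2 := by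
            rw [abs_le]
            constructor <;> nlinarith [h2.1, h2.2]
          calc (z.1 i - a * ((j i : ℝ) + 1 / 2)) ^ 2 = |z.1 i - a * ((j i : ℝ) + 1 / 2)| ^ 2 := (sq_abs _).symm
            _ ≤ (a / 2) ^ 2 := pow_le_pow_left₀ (abs_nonneg _) h3 2
      _ = _ := by simp
  calc Real.sqrt (∑ i, ‖(z.1 - spBoxC a j) i‖ ^ 2) ≤ Real.sqrt ((n : ℝ) * (a / 2) ^ 2) := Real.sqrt_le_sqrt h1
    _ = Real.sqrt n * a / 2 := by
        rw [Real.sqrt_mul (Nat.cast_nonneg n), Real.sqrt_sq (by positivity)]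
        ring

/-- the tube weight of a discarded label on the box -/
theorem sp_M12_tw (N : XArr n ι) (hl : 0 < N.l) {T Rw : ℝ} (hT : 0 ≤ T) {α : ι} (hα : ‖N.om α‖ ≤ Rw) (j : Fin n → ℤ)
    (hfar : (Real.sqrt n + 4 * T * Rw + 1) * N.l ^ 2 < ‖N.y α - spBoxC (N.l ^ 2) j‖) {y : ST n} (hy : y ∈ spBox (N.l ^ 2) j) (hyt : |y.2| ≤ T * N.l ^ 2) :
    N.tw α y ≤ 2 * N.l / ‖N.y α - spBoxC (N.l ^ 2) j‖ := by
  set d := ‖N.y α - spBoxC (N.l ^ 2) j‖ with hd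
  have hl2 : 0 < N.l ^ 2 := by positivity
  have hRw : 0 ≤ Rw := (norm_nonneg _).trans hα
  have hsq := Real.sqrt_nonneg (n : ℝ)
  have hd0 : 0 < d := lt_of_le_of_lt (by positivity) hfar
  have h1 := sp_M12_box_norm hl2.le j hy
  have h2 : ‖(2 * y.2) • N.om α‖ ≤ 2 * (T * N.l ^ 2) * Rw := by
    rw [norm_smul, Real.norm_eq_abs, abs_mul, abs_two]
    exact mul_le_mul (by linarith) hα (norm_nonneg _) (by positivity)
  have h3 : d ≤ N.toArr.tdist α y + ‖y.1 - spBoxC (N.l ^ 2) j‖ + ‖(2 * y.2) • N.om α‖ := by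
    have e : N.y α - spBoxC (N.l ^ 2) j = -(y.1 - N.y α - (2 * y.2) • N.om α) + (y.1 - spBoxC (N.l ^ 2) j) - (2 * y.2) • N.om α := by abel
    rw [hd, e]
    refine (norm_sub_le _ _).trans (add_le_add ((norm_add_le _ _).trans (add_le_add ?_ le_rfl)) le_rfl)
    rw [norm_neg]
    rfl
  have h4 : d / 2 ≤ N.toArr.tdist α y := by nlinarith
  unfold XArr.tw
  rw [inv_le_comm₀ (by have := sp_M1_tdist_nonneg N α y; positivity) (by positivity), inv_div]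
  have h5 : d / (2 * N.l) ≤ N.toArr.tdist α y / N.l := by
    rw [div_le_div_iff₀ (by positivity) hl]
    nlinarith
  linarith

/-- the mass of a box -/
theorem sp_M12_mass {ν : Measure (ST n)} {m T l : ℝ} (hl : 1 ≤ l) (hT : 0 ≤ T) (hg : Grow ν m n) (hs : Slab ν (T * l ^ 2)) (j : Fin n → ℤ) :
    ν (spBox (l ^ 2) j) ≤ ENNReal.ofReal (m * ((Real.sqrt n + T + 1) ^ n * l ^ (2 * n))) := by
  have hl2 : 1 ≤ l ^ 2 := by nlinarith
  have hsq := Real.sqrt_nonneg (n : ℝ)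
  set r := (Real.sqrt n + T + 1) * l ^ 2 with hr
  have hr1 : 1 ≤ r := by rw [hr]; nlinarith
  have hsub : spBox (l ^ 2) j ⊆ closedBall ((spBoxC (l ^ 2) j, 0) : ST n) r ∪ {z | T * l ^ 2 < |z.2|} := by
    intro z hz
    by_cases hzt : T * l ^ 2 < |z.2|
    · exact Or.inr hzt
    · refine Or.inl ?_
      rw [mem_closedBall, Prod.dist_eq]
      refine max_le ?_ ?_
      · rw [dist_eq_norm]
        refine (sp_M12_box_norm (by positivity) j hz).trans ?_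
        rw [hr]
        nlinarith
      · rw [Real.dist_eq, sub_zero]
        refine (not_lt.1 hzt).trans ?_
        rw [hr]
        nlinarith
  refine (measure_mono hsub).trans ((measure_union_le _ _).trans ?_)
  have hs' : ν {z | T * l ^ 2 < |z.2|} = 0 := hs
  rw [hs', add_zero]
  refine (hg _ r hr1).trans (le_of_eq ?_)
  rw [Real.rpow_natCast, hr, mul_pow, ← pow_mul]

/-- L-257-SP-M12 (~250 l.).  **The discarded labels.**   `C₄ = √n + 4 T Rw + 1`, `ν_j = ν.restrict (spBox l² j)`, `x_j = spBoxC l² j`, `M' = 2 (n+1)²`.   PLAN.  `sp_T_le` for `t = far_j`, `ν_j`.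
For `y = (x,t)` in the box, `|t| ≤ T l²`, `α ∉ near_j`: `tdist ≥ d_j - (√n/2 + 2 T Rw) l² ≥ d_j/2`, `d_j = |y_α - x_j| ≥ C₄ l² ≥ l²`, so `w_α(y) ≤ 2 l/d_j = (2/l)(l²/d_j)`.
`ν_j univ ≤ ν (closedBall (x_j, 0) (max (√n) T l²)) ≤ C m l^(2n)`.   Hence `(∫ σ^a₂ w_α^M' dν_j)^β ≤ C m^β l^(2nβ - M'β) (l²/d_j)^(M'β)`, `M' β = 4 (n+1)`.
Sum over `j` (`sp_lattice_sum`, `p = y_α/l²`, `a = 4(n+1)`).   Powers: `(n+2)(1-β) + 2nβ - 4(n+1) ≤ 2n/(n+1) - 1`, `l ≥ 1`. -/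
theorem sp_loc_err (n A : ℕ) (hn : 2 ≤ n) (Rw C₃ : ℝ) (m₀ : ℕ) (T Ew : ℝ) (hT : 0 ≤ T) (hRw : 0 ≤ Rw) (hA : 2 * (n + 1) ^ 2 + n + 1 ≤ A) (hE : spEmin n A ≤ Ew) : ∃ C : ℝ, 0 ≤ C ∧
    ∀ (ι : Type) (N : XArr n ι) (s : Finset ι) (c : ι → ℂ) (ν : Measure (ST n)) (m ρ : ℝ), N.Dec s A Rw C₃ m₀ → 0 ≤ m → Grow ν m n → Slab ν (T * N.l ^ 2) →
    1 ≤ ρ → ρ ≤ N.l →
    ∑' j : Fin n → ℤ, spT (bet n) (spW Ew ρ) (N.fld (N.far (Real.sqrt n + 4 * T * Rw + 1) s j) c) (ν.restrict (spBox (N.l ^ 2) j)) ≤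
      ENNReal.ofReal (C * ρ ^ ((n : ℝ) + 1) * m ^ bet n * N.l ^ (2 * (n : ℝ) / ((n : ℝ) + 1) - 1) * energy s c) := by
  classical
  obtain ⟨hb0, hb1, -⟩ := sp_M4_bet hn
  set β := bet n with hβ
  set M' := 2 * (n + 1) ^ 2 with hM'
  set a : ℝ := 4 * ((n : ℝ) + 1) with ha
  have hn0 : (0 : ℝ) ≤ n := Nat.cast_nonneg n
  have hMβ : (M' : ℝ) * β = a := by
    have hb : β = 2 / ((n : ℝ) + 1) := rfl
    rw [hM', hb, ha]
    push_cast
    field_simp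
    ring
  obtain ⟨C₁, hC₁, hTle⟩ := sp_T_le n A M' hn Rw C₃ m₀ Ew hA hE
  obtain ⟨C₅, hC₅, hlat⟩ := sp_lattice_sum n a (by rw [ha]; linarith)
  set a₂ := (3 * A + 2) * (n + 1) with ha₂
  set c₃ := (Real.sqrt n + T + 1) ^ n with hc₃
  have hsq := Real.sqrt_nonneg (n : ℝ)
  have hc₃0 : 0 ≤ c₃ := by positivity
  set K₀ := ((1 + T) ^ a₂ * 2 ^ M' * c₃) ^ β with hK₀
  have hK₀0 : 0 ≤ K₀ := by positivity
  refine ⟨C₁ * K₀ * C₅, by positivity, ?_⟩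
  intro ι N s c ν m ρ hD hm hgrow hslab hρ hρl
  have hl1 := hD.one_le
  have hl : 0 < N.l := by linarith
  have hl2 : 0 < N.l ^ 2 := by positivity
  have hρ0 : 0 < ρ := by linarith
  have := sp_grow_sigmaFinite hgrow
  set C₄ := Real.sqrt n + 4 * T * Rw + 1 with hC₄
  have hC₄1 : 1 ≤ C₄ := by rw [hC₄]; nlinarith [mul_nonneg hT hRw]
  set e : ι → (Fin n → ℤ) → ℝ≥0∞ := fun α j => ENNReal.ofReal (min 1 (‖(N.l ^ 2)⁻¹ • N.y α - spBoxC 1 j‖ ^ (-a))) with he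
  set Λ : ℝ := K₀ * m ^ β * N.l ^ (2 * (n : ℝ) * β - a) with hΛ
  have hΛ0 : 0 ≤ Λ := by positivity
  -- one label, one box
  have hone : ∀ j, ∀ α ∈ N.far C₄ s j,
      (∫⁻ y, ENNReal.ofReal (N.sg y ^ a₂ * N.tw α y ^ M') ∂(ν.restrict (spBox (N.l ^ 2) j))) ^ β ≤ ENNReal.ofReal Λ * e α j := by
    intro j α hα
    rw [XArr.far, Finset.mem_filter] at hα
    obtain ⟨hαs, hfar⟩ := hα
    rw [not_le] at hfar
    set d := ‖N.y α - spBoxC (N.l ^ 2) j‖ with hd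
    have hd0 : 0 < d := lt_of_le_of_lt (by positivity) hfar
    have hae : ∀ᵐ y ∂(ν.restrict (spBox (N.l ^ 2) j)), y ∈ spBox (N.l ^ 2) j ∧ ¬ (T * N.l ^ 2 < |y.2|) := by
      have h1 : ∀ᵐ y ∂ν, ¬ (T * N.l ^ 2 < |y.2|) := by
        rw [ae_iff]
        simp only [not_not]
        exact hslab
      filter_upwards [ae_restrict_mem (sp_M12_box_meas (N.l ^ 2) j), ae_restrict_of_ae h1] with y h2 h3 using ⟨h2, h3⟩
    have hint : ∫⁻ y, ENNReal.ofReal (N.sg y ^ a₂ * N.tw α y ^ M') ∂(ν.restrict (spBox (N.l ^ 2) j))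
        ≤ ENNReal.ofReal ((1 + T) ^ a₂ * (2 * N.l / d) ^ M' * (m * (c₃ * N.l ^ (2 * n)))) := by
      calc ∫⁻ y, ENNReal.ofReal (N.sg y ^ a₂ * N.tw α y ^ M') ∂(ν.restrict (spBox (N.l ^ 2) j))
          ≤ ∫⁻ _, ENNReal.ofReal ((1 + T) ^ a₂ * (2 * N.l / d) ^ M') ∂(ν.restrict (spBox (N.l ^ 2) j)) := by
            refine lintegral_mono_ae ?_
            filter_upwards [hae] with y hy
            refine ENNReal.ofReal_le_ofReal ?_
            have hw := (sp_tw_pos_le N hl α y).1.le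
            have hσ := sp_sg_one_le N y
            have hσT : N.sg y ≤ 1 + T := by
              unfold XArr.sg
              have : |y.2| / N.l ^ 2 ≤ T := by rw [div_le_iff₀ hl2]; exact not_lt.1 hy.2
              linarith
            have hw2 := sp_M12_tw N hl hT (hD.freq α hαs) j hfar hy.1 (not_lt.1 hy.2)
            exact mul_le_mul (pow_le_pow_left₀ (by linarith) hσT a₂) (pow_le_pow_left₀ hw hw2 M') (pow_nonneg hw M') (by positivity)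
        _ = ENNReal.ofReal ((1 + T) ^ a₂ * (2 * N.l / d) ^ M') * ν (spBox (N.l ^ 2) j) := by
            rw [lintegral_const, Measure.restrict_apply MeasurableSet.univ, univ_inter]
        _ ≤ ENNReal.ofReal ((1 + T) ^ a₂ * (2 * N.l / d) ^ M') * ENNReal.ofReal (m * (c₃ * N.l ^ (2 * n))) :=
            mul_le_mul_right (sp_M12_mass hl1 hT hgrow hslab j) _
        _ = _ := (ENNReal.ofReal_mul (by positivity)).symm
    refine (ENNReal.rpow_le_rpow hint hb0.le).trans (le_of_eq ?_)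
    rw [ENNReal.ofReal_rpow_of_nonneg (by positivity) hb0.le, he]
    simp only
    rw [← ENNReal.ofReal_mul hΛ0]
    congr 1
    -- real computation
    set u := ‖(N.l ^ 2)⁻¹ • N.y α - spBoxC 1 j‖ with hu
    have hud : u = d / N.l ^ 2 := by
      have e1 : (N.l ^ 2)⁻¹ • N.y α - spBoxC 1 j = (N.l ^ 2)⁻¹ • (N.y α - spBoxC (N.l ^ 2) j) := by
        rw [sp_M10_box (N.l ^ 2) j, smul_sub, smul_smul, inv_mul_cancel₀ hl2.ne', one_smul]
      rw [hu, e1, norm_smul, norm_inv, Real.norm_of_nonneg hl2.le, inv_mul_eq_div]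
    have hu1 : 1 ≤ u := by
      rw [hud, le_div_iff₀ hl2]
      nlinarith
    have hu0 : 0 < u := by linarith
    have hmin : min 1 (u ^ (-a)) = u ^ (-a) :=
      min_eq_right (Real.rpow_le_one_of_one_le_of_nonpos hu1 (by rw [ha]; linarith))
    have hld : 2 * N.l / d = 2 * (N.l⁻¹ * u⁻¹) := by
      rw [hud]
      field_simp
    rw [hmin, hld, hΛ, hK₀]
    have e2 : ((2 * (N.l⁻¹ * u⁻¹)) ^ M') ^ β = (2 ^ M') ^ β * (N.l ^ (-a) * u ^ (-a)) := by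
      rw [mul_pow, Real.mul_rpow (by positivity) (by positivity), ← Real.rpow_natCast (N.l⁻¹ * u⁻¹) M', ← Real.rpow_mul (by positivity),
        hMβ, Real.mul_rpow (by positivity) (by positivity), Real.inv_rpow hl.le, Real.inv_rpow hu0.le, Real.rpow_neg hl.le, Real.rpow_neg hu0.le]
    have e3 : (N.l ^ (2 * n)) ^ β = N.l ^ (2 * (n : ℝ) * β) := by
      rw [← Real.rpow_natCast, ← Real.rpow_mul hl.le]
      push_cast
      rfl
    rw [Real.mul_rpow (by positivity) (by positivity), Real.mul_rpow (by positivity) (by positivity), e2,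
      Real.mul_rpow hm (by positivity), Real.mul_rpow hc₃0 (by positivity), e3,
      Real.mul_rpow (by positivity) hc₃0, Real.mul_rpow (by positivity) (by positivity), Real.rpow_sub hl, Real.rpow_neg hl.le]
    field_simp
  -- one box
  set Γ : ℝ := C₁ * ρ ^ ((n : ℝ) + 1) * N.l ^ (((n : ℝ) + 2) * (1 - β)) with hΓ
  have hΓ0 : 0 ≤ Γ := by positivity
  have hbox : ∀ j, spT β (spW Ew ρ) (N.fld (N.far C₄ s j) c) (ν.restrict (spBox (N.l ^ 2) j))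
      ≤ ∑ α ∈ s, ENNReal.ofReal (Γ * Λ * ‖c α‖ ^ 2) * e α j := by
    intro j
    refine (hTle ι N s (N.far C₄ s j) c (ν.restrict (spBox (N.l ^ 2) j)) ρ hD (Finset.filter_subset _ _) hρ hρl).trans ?_
    rw [Finset.mul_sum]
    refine (Finset.sum_le_sum fun α hα => mul_le_mul_right (mul_le_mul_right (hone j α hα) _) _).trans ?_
    refine (Finset.sum_le_sum_of_subset (Finset.filter_subset _ _)).trans (le_of_eq ?_)
    refine Finset.sum_congr rfl fun α _ => ?_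
    have e1 : ENNReal.ofReal (Γ * Λ * ‖c α‖ ^ 2) = ENNReal.ofReal Γ * ENNReal.ofReal Λ * ENNReal.ofReal (‖c α‖ ^ 2) := by
      rw [ENNReal.ofReal_mul (mul_nonneg hΓ0 hΛ0), ENNReal.ofReal_mul hΓ0]
    rw [e1]
    ring
  refine (ENNReal.tsum_le_tsum hbox).trans ?_
  rw [Summable.tsum_finsetSum fun α _ => ENNReal.summable]
  have hα : ∀ α ∈ s, ∑' j, ENNReal.ofReal (Γ * Λ * ‖c α‖ ^ 2) * e α j ≤ ENNReal.ofReal (Γ * Λ * ‖c α‖ ^ 2) * ENNReal.ofReal C₅ := by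
    intro α _
    rw [ENNReal.tsum_mul_left]
    exact mul_le_mul_right (hlat _) _
  refine (Finset.sum_le_sum hα).trans ?_
  rw [← Finset.sum_mul, ← ENNReal.ofReal_sum_of_nonneg (fun α _ => by positivity), ← ENNReal.ofReal_mul (Finset.sum_nonneg fun α _ => by positivity)]
  refine ENNReal.ofReal_le_ofReal ?_
  rw [← Finset.mul_sum]
  have e3 : energy s c = ∑ α ∈ s, ‖c α‖ ^ 2 := rfl
  rw [← e3]
  have hen : 0 ≤ energy s c := Finset.sum_nonneg fun α _ => by positivity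
  have hpow : N.l ^ (((n : ℝ) + 2) * (1 - β)) * N.l ^ (2 * (n : ℝ) * β - a) ≤ N.l ^ (2 * (n : ℝ) / ((n : ℝ) + 1) - 1) := by
    rw [← Real.rpow_add hl]
    refine Real.rpow_le_rpow_of_exponent_le hl1 ?_
    have h1 : 0 ≤ 2 * (n : ℝ) / ((n : ℝ) + 1) := by positivity
    have h2 : (2 : ℝ) ≤ n := by exact_mod_cast hn
    rw [ha]
    nlinarith
  calc Γ * Λ * energy s c * C₅
      = C₁ * K₀ * C₅ * ρ ^ ((n : ℝ) + 1) * m ^ β * (N.l ^ (((n : ℝ) + 2) * (1 - β)) * N.l ^ (2 * (n : ℝ) * β - a)) * energy s c := by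
        rw [hΓ, hΛ]; ring
    _ ≤ C₁ * K₀ * C₅ * ρ ^ ((n : ℝ) + 1) * m ^ β * N.l ^ (2 * (n : ℝ) / ((n : ℝ) + 1) - 1) * energy s c := by gcongr

end Claimed.Agent.R257
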