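import Claimed.Agent.R257.Sp.Maj
import Claimed.Agent.R257.Sp.Nar

/-!
# R257 / Sp / Step : ONE STEP OF THE RECURSION        (captain helper7)        (H sparse.tex l.313-345 + l.216-312)

`X(l) ≤ C K^ε X(l/K) + C K^κ' l^(-c) + C l^(-1)`:   localise to spatial boxes of side `l²`, discard the far labels (`sp_loc_err`), broad-narrow (`sp_bn`), children (`sp_narrow`), transverse tuples (`sp_broad_node`).
Every `sorry` is a LEAF `L-257-SP-S*`.  Statements frozen (tell helper7 at once if one looks false or awkward).  Prove IN PLACE, helper lemmas directly above, prefix `sp_<leaf>_`.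
-/

set_option autoImplicit false

namespace Claimed.Agent.R257

open MeasureTheory Metric Set
open scoped ENNReal

variable {n : ℕ} {ι : Type}

theorem sp_S1_box_measurable (a : ℝ) (j : Fin n → ℤ) : MeasurableSet (spBox a j : Set (ST n)) := by
  have hc : ∀ i : Fin n, Measurable fun z : ST n => z.1 i := fun i =>
    ((EuclideanSpace.proj i : E n →L[ℝ] ℝ).continuous.comp continuous_fst).measurable
  unfold spBox
  rw [Set.ofPred_forall]
  refine MeasurableSet.iInter fun i => ?_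
  exact (measurableSet_le measurable_const (hc i)).inter (measurableSet_lt (hc i) measurable_const)

theorem sp_S1_mem_box {a : ℝ} (ha : 0 < a) (z : ST n) (j : Fin n → ℤ) : z ∈ spBox a j ↔ j = fun i => ⌊z.1 i / a⌋ := by
  constructor
  · intro h
    funext i
    symm
    rw [Int.floor_eq_iff, le_div_iff₀ ha, div_lt_iff₀ ha]
    have := h i
    constructor <;> nlinarith [this.1, this.2]
  · rintro rfl i
    have h1 := Int.floor_le (z.1 i / a)
    have h2 := Int.lt_floor_add_one (z.1 i / a)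
    rw [le_div_iff₀ ha] at h1
    rw [div_lt_iff₀ ha] at h2
    constructor <;> nlinarith [h1, h2]

/-- L-257-SP-S1 (~120 l.).  the boxes partition space-time (`j i = ⌊z.1 i / a⌋`), they are measurable: `Measure.restrict_iUnion`, `Measure.restrict_univ` -/
theorem sp_sum_restrict_box (ν : Measure (ST n)) {a : ℝ} (ha : 0 < a) : Measure.sum (fun j : Fin n → ℤ => ν.restrict (spBox a j)) = ν := by
  have hd : Pairwise (Function.onFun Disjoint fun j : Fin n → ℤ => (spBox a j : Set (ST n))) := by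
    intro j j' hne
    refine Set.disjoint_left.2 fun z hz hz' => hne ?_
    rw [(sp_S1_mem_box ha z j).1 hz, (sp_S1_mem_box ha z j').1 hz']
  have hu : (⋃ j : Fin n → ℤ, (spBox a j : Set (ST n))) = univ :=
    Set.eq_univ_of_forall fun z => Set.mem_iUnion.2 ⟨_, (sp_S1_mem_box ha z _).2 rfl⟩
  rw [← Measure.restrict_iUnion hd (fun j => sp_S1_box_measurable a j), hu, Measure.restrict_univ]

/-- L-257-SP-S1 (~80 l.).  `ν_j` lives in the ball of radius `max (√n) T · l²` about `(x_j, 0)` -/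
theorem sp_box_ball {ν : Measure (ST n)} {T a : ℝ} (ha : 0 < a) (h : Slab ν (T * a)) (j : Fin n → ℤ) :
    (ν.restrict (spBox a j)) (closedBall ((spBoxC a j, 0) : ST n) (max (Real.sqrt n) T * a))ᶜ = 0 := by
  rw [Measure.restrict_apply (measurableSet_closedBall.compl)]
  refine measure_mono_null ?_ h
  rintro z ⟨hz1, hz2⟩
  by_contra hcon
  simp only [Set.mem_setOf_eq, not_lt] at hcon
  apply hz1
  rw [mem_closedBall, Prod.dist_eq]
  refine max_le ?_ ?_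
  · rw [EuclideanSpace.dist_eq]
    have : ∑ i, dist (z.1 i) (spBoxC a j i) ^ 2 ≤ (n : ℝ) * a ^ 2 := by
      calc ∑ i, dist (z.1 i) (spBoxC a j i) ^ 2 ≤ ∑ _i : Fin n, a ^ 2 := by
            refine Finset.sum_le_sum fun i _ => ?_
            rw [Real.dist_eq, sq_abs]
            have h1 := hz2 i
            have e : spBoxC a j i = a * ((j i : ℝ) + 1 / 2) := rfl
            rw [e]
            nlinarith [h1.1, h1.2]
        _ = n * a ^ 2 := by simp
    calc Real.sqrt (∑ i, dist (z.1 i) (spBoxC a j i) ^ 2) ≤ Real.sqrt ((n : ℝ) * a ^ 2) := Real.sqrt_le_sqrt this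
      _ = Real.sqrt n * a := by rw [Real.sqrt_mul (Nat.cast_nonneg n), Real.sqrt_sq ha.le]
      _ ≤ max (Real.sqrt n) T * a := mul_le_mul_of_nonneg_right (le_max_left _ _) ha.le
  · rw [Real.dist_eq, sub_zero]
    exact hcon.trans (mul_le_mul_of_nonneg_right (le_max_right _ _) ha.le)

/-- L-257-SP-S1 (~40 l.).  number of tuples -/
theorem sp_tup_card {N : XArr n ι} {s : Finset ι} {K Rw r Q : ℝ} (hK : 1 ≤ K) (hRw : 0 ≤ Rw) (h : ∀ α ∈ s, ‖N.om α‖ ≤ Rw) :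
    ((N.tup K r Q s).card : ℝ) ≤ ((2 * Rw + 2) ^ n * K ^ n) ^ (n + 1) := by
  have h1 : (N.tup K r Q s).card ≤ (N.bins K s).card ^ (n + 1) := by
    unfold XArr.tup
    classical
    refine (Finset.card_filter_le _ _).trans ?_
    rw [Fintype.card_piFinset]
    simp
  calc ((N.tup K r Q s).card : ℝ) ≤ ((N.bins K s).card : ℝ) ^ (n + 1) := by exact_mod_cast h1
    _ ≤ _ := by
      gcongr
      exact sp_bins_card hK hRw h

theorem sp_S2_energy_nonneg (s : Finset ι) (c : ι → ℂ) : 0 ≤ energy s c := Finset.sum_nonneg fun _ _ => by positivity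

theorem sp_S2_arith {Cbn Cn Cne Ct Cb Ce Ke X KK mb le lc l1 Kp En : ℝ} (hCbn : 0 ≤ Cbn) (hCn : 0 ≤ Cn) (hCne : 0 ≤ Cne) (hCt : 0 ≤ Ct) (hCb : 0 ≤ Cb) (hCe : 0 ≤ Ce)
    (hKe : 0 ≤ Ke) (hX : 0 ≤ X) (hKK : 1 ≤ KK) (hmb : 0 ≤ mb) (hle : 0 ≤ le) (hlc : 0 ≤ lc) (hl1 : 0 ≤ l1) (hKp : 0 ≤ Kp) (hEn : 0 ≤ En) :
    4 * ((Cbn * Ke * (Cn * X * KK * mb * le) + Cbn * Ct * Cb * Kp * mb * le * lc) * (Cne * En)) + 4 * (Ce * KK * mb * (le * l1) * En) ≤
      ((4 * Cbn * Cn * Cne + 4 * Cbn * Ct * Cb * Cne + 4 * Ce) * Ke * X + (4 * Cbn * Cn * Cne + 4 * Cbn * Ct * Cb * Cne + 4 * Ce) * Kp * lc +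
        (4 * Cbn * Cn * Cne + 4 * Cbn * Ct * Cb * Cne + 4 * Ce) * l1) * KK * mb * le * En := by
  have hKK0 : 0 ≤ KK := by linarith
  have hb : Cbn * Ct * Cb * Kp * mb * le * lc * (Cne * En) ≤ Cbn * Ct * Cb * Kp * mb * le * lc * (Cne * En) * KK :=
    le_mul_of_one_le_right (by positivity) hKK
  have t1 : 0 ≤ (4 * Cbn * Ct * Cb * Cne + 4 * Ce) * Ke * X * KK * mb * le * En := by positivity
  have t2 : 0 ≤ (4 * Cbn * Cn * Cne + 4 * Ce) * Kp * lc * KK * mb * le * En := by positivity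
  have t3 : 0 ≤ (4 * Cbn * Cn * Cne + 4 * Cbn * Ct * Cb * Cne) * l1 * KK * mb * le * En := by positivity
  nlinarith [hb, t1, t2, t3]

/-- L-257-SP-S2 (~350 l.).  **The step.**   PLAN.  Node `(N, s, c, ν, m)` of scale `l`; `W = spW Ew (K²)`, `a = l²`, `ν_j = ν.restrict (spBox a j)`, `C₄ = √n + 4 T Rw + 1`, `s_j = N.near C₄ s j`, `‖sh‖ ≤ k₀/l ≤ 1`.
 1. `spT W (fld s c) ν = spT … (Measure.sum ν_j) ≤ ∑' j, spT W (fld s c) ν_j`   (`sp_sum_restrict_box`, `spT_sum_le`; `SFinite` from `sp_grow_sigmaFinite`).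
 2. `fld s c = fld s_j c + fld far_j c` (`sp_fld_near_far`), `spT_add_le`: `≤ 4 spT W (fld s_j c) ν_j + 4 spT W (fld far_j c) ν_j`; the second terms: `sp_loc_err` with `ρ = K²`.
 3. `sp_bn` for `(N, s_j, ν_j)` (`sp_in_subset`, `sp_restrict_adm`, `sp_tubeMom_mono`).
 4. bins: `sp_narrow`, `∑_θ energy (sub θ) = energy s_j` (`sp_energy_split`).
 5. tuples: `sp_broad_node` with `C₅ = max (max (√n) T) 1`, `z₀ = (x_j, 0)` (`sp_box_ball`), `Q₀` of `sp_pointwise`; their number `≤ C K^(n(n+1))` (`sp_tup_card`).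
 6. sum over `j`: `sp_near_energy`.      Power of `K` in the broad term: `4n + n(n+1) + 2κ`, and `1 ≤ K^(2(n+1))`. -/
theorem sp_step (n : ℕ) (hn : 2 ≤ n) (hSd : SdStmt n) (𝒦 : XCls) (M : ℕ) (T Ew ε c κ CB : ℝ) (hT : 0 ≤ T) (hC₁ : 0 ≤ 𝒦.C₁) (hRw : Real.sqrt n ≤ 𝒦.Rw)
    (hA : 2 * (n + 1) ^ 2 + n + 1 ≤ 𝒦.A) (hE : spEmin n 𝒦.A ≤ Ew) (hε : 0 < ε) (hκ : 0 ≤ κ) (hBr : BrW n (𝒦.Rw + 1 + 𝒦.C₁) Ew c κ CB) : ∃ C : ℝ, 0 ≤ C ∧
    ∀ k₀ K D l X : ℝ, 1 ≤ K → K ^ 2 ≤ l → k₀ ≤ l → 0 ≤ X → 0 < D → SpBd n 𝒦 M T (Ew - ((n : ℝ) + 2)) k₀ K D (l / K) X →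
      SpBd n 𝒦 M T Ew k₀ K D l (C * K ^ ε * X + C * K ^ ((n : ℝ) ^ 2 + 5 * n + 2 * κ) * l ^ (-c) + C * l ^ (-1 : ℝ)) := by
  have hn0 : (0 : ℝ) ≤ n := Nat.cast_nonneg n
  have hsq : 0 ≤ Real.sqrt n := Real.sqrt_nonneg _
  have hsq1 : 1 ≤ Real.sqrt n := by
    rw [Real.one_le_sqrt]; exact_mod_cast (by omega : 1 ≤ n)
  have hRw0 : 0 ≤ 𝒦.Rw := hsq.trans hRw
  have hβ0 : 0 < bet n := by unfold bet; positivity
  have hβ1 : bet n < 1 := by
    unfold bet
    rw [div_lt_one (by positivity)]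
    have : (2 : ℝ) ≤ n := by exact_mod_cast hn
    linarith
  have hEm : (n : ℝ) + 2 ≤ Ew := by
    refine le_trans ?_ hE
    unfold spEmin
    have hA0 : (0 : ℝ) ≤ 𝒦.A := Nat.cast_nonneg _
    nlinarith [mul_nonneg hA0 hn0]
  obtain ⟨Cbn, hCbn, hbn⟩ := sp_bn n hn hSd 𝒦 ε Ew hC₁ hRw0 hε (by linarith)
  obtain ⟨Cn, hCn, hnar⟩ := sp_narrow n hn 𝒦 M T Ew hRw hEm
  set Q₀ : ℝ := 1 + (𝒦.Rw + 2 * Real.sqrt n + 𝒦.C₁ + 2) / (Real.sqrt n + 𝒦.C₁) with hQ₀def
  have hQ₀ : 1 ≤ Q₀ := by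
    have : 0 ≤ (𝒦.Rw + 2 * Real.sqrt n + 𝒦.C₁ + 2) / (Real.sqrt n + 𝒦.C₁) := by positivity
    linarith
  set C₅ : ℝ := max (max (Real.sqrt n) T) 1 with hC₅def
  have hC₅ : 1 ≤ C₅ := le_max_right _ _
  obtain ⟨Cb, hCb, hbro⟩ := sp_broad_node n hn 𝒦 Ew c κ CB C₅ Q₀ hC₁ hC₅ hQ₀ hκ hBr
  obtain ⟨Ce, hCe, herr⟩ := sp_loc_err n 𝒦.A hn 𝒦.Rw 𝒦.C₃ 𝒦.m₀ T Ew hT hRw0 hA hE
  set C₄ : ℝ := Real.sqrt n + 4 * T * 𝒦.Rw + 1 with hC₄def
  obtain ⟨Cne, hCne, hne⟩ := sp_near_energy n C₄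
  set Ct : ℝ := ((2 * 𝒦.Rw + 2) ^ n) ^ (n + 1) with hCtdef
  have hCt : 0 ≤ Ct := by positivity
  refine ⟨4 * Cbn * Cn * Cne + 4 * Cbn * Ct * Cb * Cne + 4 * Ce, by positivity, ?_⟩
  intro k₀ K D l X hK hKl hk₀ hX hD hchild ι N s cf ν m hNl hIn hsh hm hG hS hTM
  have hK0 : 0 < K := by linarith
  have hl1 : 1 ≤ l := le_trans (by nlinarith) hKl
  have hl0 : 0 < l := by linarith
  have hKl' : K ≤ N.l := by rw [hNl]; exact le_trans (by nlinarith) hKl
  have hsh1 : ‖N.sh‖ ≤ 1 := by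
    have : ‖N.sh‖ * l ≤ 1 * l := by linarith
    exact le_of_mul_le_mul_right this hl0
  have : SigmaFinite ν := sp_grow_sigmaFinite hG
  set W : ST n → ℝ≥0∞ := spW Ew (K ^ 2) with hW
  have hWm : Measurable W := sp_measurable_spW _ _
  set e : ℝ := 2 * (n : ℝ) / ((n : ℝ) + 1) with he
  set νj : (Fin n → ℤ) → Measure (ST n) := fun j => ν.restrict (spBox (N.l ^ 2) j) with hνj
  have ha : 0 < N.l ^ 2 := by rw [hNl]; positivity
  have hEn : ∀ t : Finset ι, 0 ≤ energy t cf := fun t => sp_S2_energy_nonneg t cf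
  have hmβ : 0 ≤ m ^ bet n := Real.rpow_nonneg hm _
  -- the two coefficients
  set G1 : ℝ := Cbn * K ^ ε * (Cn * X * K ^ (2 * ((n : ℝ) + 1)) * m ^ bet n * l ^ e) with hG1
  set G2 : ℝ := Cbn * K ^ (4 * (n : ℝ)) * ((Ct * K ^ ((n : ℝ) * ((n : ℝ) + 1))) * (Cb * K ^ (2 * κ) * m ^ bet n * l ^ (e - c))) with hG2
  have hG1n : 0 ≤ G1 := by positivity
  have hG2n : 0 ≤ G2 := by positivity
  -- one box
  have hbox : ∀ j, spT (bet n) W (N.fld (N.near C₄ s j) cf) (νj j) ≤ ENNReal.ofReal (G1 + G2) * ENNReal.ofReal (energy (N.near C₄ s j) cf) := by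
    intro j
    set sj := N.near C₄ s j with hsj
    have hsub : sj ⊆ s := Finset.filter_subset _ _
    have hInj : N.In sj 𝒦 := sp_in_subset hIn hsub
    obtain ⟨hGj, hSj, hTj⟩ := sp_restrict_adm (spBox (N.l ^ 2) j) hG hS hTM
    have hTj' : TubeMom (νj j) N.toArr sj m D M := sp_tubeMom_mono hTj hsub le_rfl (by show 0 ≤ N.l; rw [hNl]; exact hl0.le) hD
    refine (hbn ι N sj cf K (νj j) hInj hK hKl' hsh1).trans ?_
    have hsplit : ENNReal.ofReal (G1 + G2) * ENNReal.ofReal (energy sj cf) = ENNReal.ofReal (G1 * energy sj cf) + ENNReal.ofReal (G2 * energy sj cf) := by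
      rw [← ENNReal.ofReal_mul (by positivity), add_mul (a := G1), ENNReal.ofReal_add (mul_nonneg hG1n (hEn sj)) (mul_nonneg hG2n (hEn sj))]
    rw [hsplit]
    refine add_le_add ?_ ?_
    · calc ENNReal.ofReal (Cbn * K ^ ε) * ∑ θ ∈ N.bins K sj, spT (bet n) (spW Ew (K ^ 2)) (N.fld (N.sub K sj θ) cf) (νj j)
          ≤ ENNReal.ofReal (Cbn * K ^ ε) * ∑ θ ∈ N.bins K sj,
              ENNReal.ofReal (Cn * X * K ^ (2 * ((n : ℝ) + 1)) * m ^ bet n * l ^ e * energy (N.sub K sj θ) cf) := by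
            gcongr with θ _
            exact hnar k₀ K D l X hK (hNl ▸ hKl') hX hD hchild ι N sj cf (νj j) m θ hNl hInj hsh hm hGj hSj hTj'
        _ = ENNReal.ofReal (G1 * energy sj cf) := by
            rw [← ENNReal.ofReal_sum_of_nonneg (fun θ _ => by have := hEn (N.sub K sj θ); positivity), ← Finset.mul_sum, ← sp_energy_split,
              ← ENNReal.ofReal_mul (by positivity), hG1]
            congr 1; ring
    · have hcard := sp_tup_card (N := N) (s := sj) (K := K) (Rw := 𝒦.Rw) (r := Real.sqrt n + 𝒦.C₁) (Q := Q₀ * K) hK hRw0 (fun α hα => hInj.dec.freq α hα)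
      have hball : (νj j) (closedBall ((spBoxC (N.l ^ 2) j, 0) : ST n) (C₅ * N.l ^ 2))ᶜ = 0 := by
        have h1 := sp_box_ball (ν := ν) (T := T) ha (by simpa [hNl] using hS) j
        refine measure_mono_null ?_ h1
        refine compl_subset_compl.2 (closedBall_subset_closedBall ?_)
        exact mul_le_mul_of_nonneg_right (le_max_left _ _) ha.le
      calc ENNReal.ofReal (Cbn * K ^ (4 * (n : ℝ))) * ∑ τ ∈ N.tup K (Real.sqrt n + 𝒦.C₁) (Q₀ * K) sj, spB (bet n) (spW Ew (K ^ 2)) (fun i => N.fld (N.sub K sj (τ i)) cf) (νj j)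
          ≤ ENNReal.ofReal (Cbn * K ^ (4 * (n : ℝ))) * ∑ τ ∈ N.tup K (Real.sqrt n + 𝒦.C₁) (Q₀ * K) sj,
              ENNReal.ofReal (Cb * K ^ (2 * κ) * m ^ bet n * l ^ (e - c) * energy sj cf) := by
            gcongr with τ hτ
            have := hbro ι N sj cf (νj j) m K (spBoxC (N.l ^ 2) j, 0) τ hInj hsh1 hK hKl' hm hGj hball hτ
            rwa [hNl] at this
        _ = ENNReal.ofReal (Cbn * K ^ (4 * (n : ℝ))) * ENNReal.ofReal (((N.tup K (Real.sqrt n + 𝒦.C₁) (Q₀ * K) sj).card : ℝ) * (Cb * K ^ (2 * κ) * m ^ bet n * l ^ (e - c) * energy sj cf)) := by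
            rw [Finset.sum_const, nsmul_eq_mul, ENNReal.ofReal_mul (Nat.cast_nonneg _), ENNReal.ofReal_natCast]
        _ ≤ ENNReal.ofReal (G2 * energy sj cf) := by
            rw [← ENNReal.ofReal_mul (by positivity)]
            refine ENNReal.ofReal_le_ofReal ?_
            have hpow : ((2 * 𝒦.Rw + 2) ^ n * K ^ n) ^ (n + 1) = Ct * K ^ ((n : ℝ) * ((n : ℝ) + 1)) := by
              rw [mul_pow, hCtdef, ← pow_mul K, ← Real.rpow_natCast K (n * (n + 1))]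
              push_cast; rfl
            rw [hpow] at hcard
            have hB : 0 ≤ Cb * K ^ (2 * κ) * m ^ bet n * l ^ (e - c) * energy sj cf := by have := hEn sj; positivity
            calc Cbn * K ^ (4 * (n : ℝ)) * (((N.tup K (Real.sqrt n + 𝒦.C₁) (Q₀ * K) sj).card : ℝ) * (Cb * K ^ (2 * κ) * m ^ bet n * l ^ (e - c) * energy sj cf))
                ≤ Cbn * K ^ (4 * (n : ℝ)) * ((Ct * K ^ ((n : ℝ) * ((n : ℝ) + 1))) * (Cb * K ^ (2 * κ) * m ^ bet n * l ^ (e - c) * energy sj cf)) := by gcongr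
              _ = G2 * energy sj cf := by rw [hG2]; ring
  -- summation
  have hcont : Measurable (N.fld s cf) := (sp_fld_continuous hIn (Finset.Subset.refl s) cf).measurable
  have h1 : spT (bet n) W (N.fld s cf) ν ≤ ∑' j, spT (bet n) W (N.fld s cf) (νj j) := by
    conv_lhs => rw [← sp_sum_restrict_box ν ha]
    exact spT_sum_le hβ0 hβ1.le hWm hcont _
  have h2 : ∀ j, spT (bet n) W (N.fld s cf) (νj j) ≤
      4 * (ENNReal.ofReal (G1 + G2) * ENNReal.ofReal (energy (N.near C₄ s j) cf)) + 4 * spT (bet n) W (N.fld (N.far C₄ s j) cf) (νj j) := by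
    intro j
    have e1 : N.fld s cf = fun z => N.fld (N.near C₄ s j) cf z + N.fld (N.far C₄ s j) cf z := funext fun z => sp_fld_near_far N C₄ s j cf z
    conv_lhs => rw [e1]
    refine (spT_add_le hβ0.le hβ1 hWm (sp_fld_continuous hIn (Finset.filter_subset _ _) cf).measurable
      (sp_fld_continuous hIn (Finset.filter_subset _ _) cf).measurable (νj j)).trans ?_
    rw [mul_add]
    exact add_le_add (mul_le_mul_right (hbox j) _) le_rfl
  have h3 := herr ι N s cf ν m (K ^ 2) hIn.dec hm hG (by simpa [hNl] using hS) (by nlinarith) (by rw [hNl]; exact hKl)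
  have h4 := hne ι N s cf (by rw [hNl]; exact hl0)
  set F : ℝ := Ce * (K ^ 2) ^ ((n : ℝ) + 1) * m ^ bet n * N.l ^ (e - 1) * energy s cf with hFdef
  have hF : 0 ≤ F := by
    have h7 : 0 ≤ N.l ^ (e - 1) := Real.rpow_nonneg (by rw [hNl]; exact hl0.le) _
    have h8 : 0 ≤ (K ^ 2) ^ ((n : ℝ) + 1) := Real.rpow_nonneg (by positivity) _
    exact mul_nonneg (mul_nonneg (mul_nonneg (mul_nonneg hCe h8) hmβ) h7) (hEn s)
  calc spT (bet n) W (N.fld s cf) ν
      ≤ ∑' j, (4 * (ENNReal.ofReal (G1 + G2) * ENNReal.ofReal (energy (N.near C₄ s j) cf)) + 4 * spT (bet n) W (N.fld (N.far C₄ s j) cf) (νj j)) :=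
        h1.trans (ENNReal.tsum_le_tsum h2)
    _ = 4 * (ENNReal.ofReal (G1 + G2) * ∑' j, ENNReal.ofReal (energy (N.near C₄ s j) cf)) + 4 * ∑' j, spT (bet n) W (N.fld (N.far C₄ s j) cf) (νj j) := by
        rw [ENNReal.tsum_add, ENNReal.tsum_mul_left, ENNReal.tsum_mul_left, ENNReal.tsum_mul_left]
    _ ≤ 4 * (ENNReal.ofReal (G1 + G2) * ENNReal.ofReal (Cne * energy s cf)) +
          4 * ENNReal.ofReal F := by
        gcongr
    _ = ENNReal.ofReal (4 * ((G1 + G2) * (Cne * energy s cf)) + 4 * F) := by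
        have h4' : (4 : ℝ≥0∞) = ENNReal.ofReal 4 := by norm_num
        have h5 : 0 ≤ Cne * energy s cf := mul_nonneg hCne (hEn s)
        have h6 : 0 ≤ G1 + G2 := add_nonneg hG1n hG2n
        rw [h4', ← ENNReal.ofReal_mul h6, ← ENNReal.ofReal_mul (by norm_num), ← ENNReal.ofReal_mul (by norm_num),
          ← ENNReal.ofReal_add (mul_nonneg (by norm_num) (mul_nonneg h6 h5)) (mul_nonneg (by norm_num) hF)]
    _ ≤ _ := by
        refine ENNReal.ofReal_le_ofReal ?_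
        have hKK : (K ^ 2) ^ ((n : ℝ) + 1) = K ^ (2 * ((n : ℝ) + 1)) := by
          rw [← Real.rpow_natCast K 2, ← Real.rpow_mul hK0.le]; norm_num
        have hle : l ^ (e - 1) = l ^ e * l ^ (-1 : ℝ) := by rw [← Real.rpow_add hl0]; ring_nf
        have hlc : l ^ (e - c) = l ^ e * l ^ (-c) := by rw [← Real.rpow_add hl0]; ring_nf
        have hKp : K ^ (4 * (n : ℝ)) * K ^ ((n : ℝ) * ((n : ℝ) + 1)) * K ^ (2 * κ) = K ^ ((n : ℝ) ^ 2 + 5 * n + 2 * κ) := by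
          rw [← Real.rpow_add hK0, ← Real.rpow_add hK0]; ring_nf
        have hK1 : 1 ≤ K ^ (2 * ((n : ℝ) + 1)) := Real.one_le_rpow hK (by positivity)
        have key : G2 = Cbn * Ct * Cb * K ^ ((n : ℝ) ^ 2 + 5 * n + 2 * κ) * m ^ bet n * l ^ e * l ^ (-c) := by
          rw [hG2, hlc, ← hKp]; ring
        rw [hFdef, hNl, hKK, hle, key, hG1]
        exact sp_S2_arith hCbn hCn hCne hCt hCb hCe (Real.rpow_nonneg hK0.le _) hX hK1 hmβ (Real.rpow_nonneg hl0.le _) (Real.rpow_nonneg hl0.le _)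
          (Real.rpow_nonneg hl0.le _) (Real.rpow_nonneg hK0.le _) (hEn s)

end Claimed.Agent.R257
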